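import Vale.Agent.P228.Fibre

/-! Haar averages over `ℤ_[p]`, sums over separated pairs, and their vanishing. -/

open MeasureTheory Set Metric Filter Topology
open scoped BigOperators

namespace Vale.Agent.P228

variable {n : ℕ} {p : ℕ} [Fact p.Prime]

noncomputable instance instMeasurableSpacePadicInt : MeasurableSpace ℤ_[p] := borel _

instance instBorelSpacePadicInt : BorelSpace ℤ_[p] := ⟨rfl⟩

/-- The Haar probability measure of `ℤ_[p]`. -/
noncomputable def haarP (p : ℕ) [Fact p.Prime] : Measure ℤ_[p] := Measure.addHaarMeasure ⊤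

instance instHaarProbability : IsProbabilityMeasure (haarP p) :=
  ⟨Measure.addHaarMeasure_self (K₀ := (⊤ : TopologicalSpace.PositiveCompacts ℤ_[p]))⟩

instance instHaarInvariant : (haarP p).IsAddHaarMeasure := by unfold haarP; infer_instance

theorem integrable_haarP {E : Type*} [NormedAddCommGroup E] {f : ℤ_[p] → E} (hf : Continuous f) :
    Integrable f (haarP p) :=
  hf.integrable_of_hasCompactSupport (HasCompactSupport.of_compactSpace f)

/-- The average displacement between two orbits. -/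
noncomputable def avgd (ρ : ℤ_[p] → Vec n → Vec n) (x y : Vec n) : ℝ :=
  ∫ t, ‖ρ t x - ρ t y‖ ∂haarP p

theorem avgd_nonneg (ρ : ℤ_[p] → Vec n → Vec n) (x y : Vec n) : 0 ≤ avgd ρ x y :=
  integral_nonneg fun _ => norm_nonneg _

theorem Act.avgd_le {ρ : ℤ_[p] → Vec n → Vec n} {K : Set (Vec n)} (A : Act ρ K) {x y : Vec n}
    (hx : x ∈ K) (hy : y ∈ K) {d : ℝ} (h : ∀ t, ‖ρ t x - ρ t y‖ ≤ d) : avgd ρ x y ≤ d := by
  refine (integral_mono (integrable_haarP ((A.cont_orbit hx).sub (A.cont_orbit hy)).norm)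
    (integrable_const d) h).trans_eq ?_
  simp

/-- A finite family of close pairs in `S` with separated first points. -/
def Pairs (S : Set (Vec n)) (t : ℝ) {m : ℕ} (x y : Fin m → Vec n) : Prop :=
  (∀ i, x i ∈ S ∧ y i ∈ S ∧ ‖x i - y i‖ < t) ∧ ∀ i j, i ≠ j → t < ‖x i - x j‖

theorem Pairs.mono {S T : Set (Vec n)} (h : S ⊆ T) {t : ℝ} {m : ℕ} {x y : Fin m → Vec n}
    (hP : Pairs S t x y) : Pairs T t x y :=
  ⟨fun i => ⟨h (hP.1 i).1, h (hP.1 i).2.1, (hP.1 i).2.2⟩, hP.2⟩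

/-- Bounded `s`-variation of `φ` on `S` below the scale `r`. -/
def VarBd (φ : Vec n → Vec n) (S : Set (Vec n)) (s C r : ℝ) : Prop :=
  ∀ (m : ℕ) (t : ℝ) (x y : Fin m → Vec n), 0 < t → t < r → Pairs S t x y →
    ∑ i, ‖φ (x i) - φ (y i)‖ ^ s ≤ C

/-- A control whose `n + 2` powers have vanishing sums over close separated pairs. -/
def Thin (D : Vec n → Vec n → ℝ) (S : Set (Vec n)) : Prop :=
  ∀ ε > 0, ∃ r > 0, ∀ (m : ℕ) (t : ℝ) (x y : Fin m → Vec n), 0 < t → t < r → Pairs S t x y →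
    ∑ i, D (x i) (y i) ^ (n + 2) ≤ ε

theorem VarBd.mono_set {φ : Vec n → Vec n} {S T : Set (Vec n)} (h : T ⊆ S) {s C r : ℝ}
    (hv : VarBd φ S s C r) : VarBd φ T s C r := fun m t x y h1 h2 h3 =>
  hv m t x y h1 h2 (h3.mono h)

/-- The exponents used in the uniform bounds. -/
noncomputable def sexp (n N : ℕ) : ℝ := (n : ℝ) + 2 - 1 / (N + 1)

theorem sexp_pos (n N : ℕ) : 0 < sexp n N := by
  have : 1 / ((N : ℝ) + 1) ≤ 1 := by
    rw [div_le_one (by positivity)]; linarith [N.cast_nonneg (α := ℝ)]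
  unfold sexp; linarith [n.cast_nonneg (α := ℝ)]

theorem sexp_lt (n N : ℕ) : sexp n N < n + 2 := by
  have : (0 : ℝ) < 1 / ((N : ℝ) + 1) := by positivity
  unfold sexp; linarith

/-- Every variation bound below `n + 2` gives one of the standard ones. -/
theorem VarBd.normalise {φ : Vec n → Vec n} {K S : Set (Vec n)} (hK : IsCompact K)
    (hφ : ContinuousOn φ K) (hSK : S ⊆ K) {s C r : ℝ} (hs : s < n + 2) (hr : 0 < r)
    (hv : VarBd φ S s C r) : ∃ N : ℕ, VarBd φ S (sexp n N) (N + 1) (1 / (N + 1)) := by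
  obtain ⟨δ, hδ, hφ'⟩ := Metric.uniformContinuousOn_iff.mp
    (hK.uniformContinuousOn_of_continuous hφ) 1 one_pos
  obtain ⟨N, hN⟩ := exists_nat_gt (max (max C (1 / ((n:ℝ) + 2 - s))) (max (1 / r) (1 / δ)))
  simp only [max_lt_iff] at hN
  obtain ⟨⟨hNC, hNs⟩, hNr, hNδ⟩ := hN
  have hN1 : (0:ℝ) < N + 1 := by positivity
  refine ⟨N, fun m t x y ht htr hP => (le_trans ?_ (hv m t x y ht (htr.trans_le ?_) hP)).trans
    (by linarith)⟩
  · refine Finset.sum_le_sum fun i _ => ?_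
    have hd : ‖φ (x i) - φ (y i)‖ ≤ 1 := by
      rw [← dist_eq_norm]
      refine (hφ' _ (hSK (hP.1 i).1) _ (hSK (hP.1 i).2.1) ?_).le
      rw [dist_eq_norm]
      refine (hP.1 i).2.2.trans (htr.trans_le ?_)
      rw [div_le_iff₀ hN1]
      rw [div_lt_iff₀ hδ] at hNδ
      nlinarith
    rcases eq_or_lt_of_le (norm_nonneg (φ (x i) - φ (y i))) with h0 | h0
    · rw [← h0, Real.zero_rpow (sexp_pos n N).ne']
      exact Real.rpow_nonneg le_rfl _
    · refine Real.rpow_le_rpow_of_exponent_ge h0 hd ?_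
      rw [div_lt_iff₀ (by linarith)] at hNs
      have : 1 / ((N : ℝ) + 1) ≤ (n:ℝ) + 2 - s := by
        rw [div_le_iff₀ hN1]; nlinarith
      unfold sexp; linarith
  · rw [div_le_iff₀ hN1]
    rw [div_lt_iff₀ hr] at hNr
    nlinarith

/-- A positive exponent variation bound passes to the closure. -/
theorem VarBd.closure {φ : Vec n → Vec n} {K S : Set (Vec n)} (hK : IsClosed K)
    (hφ : ContinuousOn φ K) (hSK : S ⊆ K) {s C r : ℝ} (hs : 0 < s) (hv : VarBd φ S s C r) :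
    VarBd φ (closure S) s C r := by
  intro m t x y ht htr hP
  choose u hu hux using fun i => mem_closure_iff_seq_limit.mp (hP.1 i).1
  choose w hw hwy using fun i => mem_closure_iff_seq_limit.mp (hP.1 i).2.1
  have h1 : ∀ᶠ k in atTop, ∀ i, ‖u i k - w i k‖ < t := eventually_all.mpr fun i =>
    ((hux i).sub (hwy i)).norm.eventually (eventually_lt_nhds (hP.1 i).2.2)
  have h2 : ∀ᶠ k in atTop, ∀ i j, i ≠ j → t < ‖u i k - u j k‖ := eventually_all.mpr fun i =>
    eventually_all.mpr fun j => by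
      by_cases hij : i = j
      · exact Eventually.of_forall fun k h => absurd hij h
      · exact (((hux i).sub (hux j)).norm.eventually (eventually_gt_nhds (hP.2 i j hij))).mono
          fun k hk _ => hk
  have hlim : ∀ (a : ℕ → Vec n) (b : Vec n), (∀ k, a k ∈ S) → Tendsto a atTop (𝓝 b) →
      Tendsto (fun k => φ (a k)) atTop (𝓝 (φ b)) := fun a b ha hab =>
    (hφ b (hK.mem_of_tendsto hab (Eventually.of_forall fun k => hSK (ha k)))).tendsto.comp
      (tendsto_nhdsWithin_iff.mpr ⟨hab, Eventually.of_forall fun k => hSK (ha k)⟩)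
  refine le_of_tendsto (tendsto_finsetSum _ fun i _ =>
    ((hlim _ _ (hu i) (hux i)).sub (hlim _ _ (hw i) (hwy i))).norm.rpow_const (Or.inr hs.le)) ?_
  filter_upwards [h1, h2] with k hk1 hk2
  exact hv m t (fun i => u i k) (fun i => w i k) ht htr ⟨fun i => ⟨hu i k, hw i k, hk1 i⟩, hk2⟩

/-- An equicontinuous family with one variation bound below `n + 2` is uniformly thin. -/
theorem thin_sums {ι : Type*} {ψ : ι → Vec n → Vec n} {S : Set (Vec n)} {N : ℕ}
    (hv : ∀ i, VarBd (ψ i) S (sexp n N) (N + 1) (1 / (N + 1)))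
    (heq : ∀ ε > 0, ∃ δ > 0, ∀ x ∈ S, ∀ y ∈ S, ‖x - y‖ < δ → ∀ i, ‖ψ i x - ψ i y‖ ≤ ε) :
    ∀ ε > 0, ∃ r > 0, ∀ i, ∀ (m : ℕ) (t : ℝ) (x y : Fin m → Vec n), 0 < t → t < r → Pairs S t x y →
      ∑ k, ‖ψ i (x k) - ψ i (y k)‖ ^ (n + 2) ≤ ε := by
  intro ε hε
  set s := sexp n N
  have hgap : 0 < (n : ℝ) + 2 - s := by linarith [sexp_lt n N]
  set η := (ε / (N + 1)) ^ (1 / ((n : ℝ) + 2 - s))
  have hη : 0 < η := by positivity
  obtain ⟨δ, hδ, hδ'⟩ := heq η hη
  refine ⟨min δ (1 / (N + 1)), lt_min hδ (by positivity), fun i m t x y ht htr hP => ?_⟩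
  rw [lt_min_iff] at htr
  have hterm : ∀ k, ‖ψ i (x k) - ψ i (y k)‖ ^ (n + 2) ≤
      ‖ψ i (x k) - ψ i (y k)‖ ^ s * (ε / (N + 1)) := by
    intro k
    set d := ‖ψ i (x k) - ψ i (y k)‖
    have hd0 : 0 ≤ d := norm_nonneg _
    have hd : d ≤ η := hδ' _ (hP.1 k).1 _ (hP.1 k).2.1 ((hP.1 k).2.2.trans htr.1) i
    have e : d ^ (n + 2) = d ^ s * d ^ ((n : ℝ) + 2 - s) := by
      rw [← Real.rpow_add_of_nonneg hd0 (sexp_pos n N).le hgap.le, ← Real.rpow_natCast]
      congr 1; push_cast; simp only [s]; ring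
    rw [e]
    refine mul_le_mul_of_nonneg_left ((Real.rpow_le_rpow hd0 hd hgap.le).trans_eq ?_)
      (Real.rpow_nonneg hd0 _)
    rw [← Real.rpow_mul (by positivity), one_div_mul_cancel hgap.ne', Real.rpow_one]
  refine (Finset.sum_le_sum fun k _ => hterm k).trans ?_
  rw [← Finset.sum_mul]
  refine (mul_le_mul_of_nonneg_right (hv i m t x y ht htr.2 hP) (by positivity)).trans_eq ?_
  rw [mul_div_cancel₀ _ (by positivity)]

/-- A single continuous map with a variation bound gives a thin control. -/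
theorem thin_single {φ : Vec n → Vec n} {K S : Set (Vec n)} (hK : IsCompact K)
    (hφ : ContinuousOn φ K) (hSK : S ⊆ K) {N : ℕ}
    (hv : VarBd φ S (sexp n N) (N + 1) (1 / (N + 1))) : Thin (fun x y => ‖φ x - φ y‖) S := by
  intro ε hε
  obtain ⟨r, hr, h⟩ := thin_sums (ι := Unit) (ψ := fun _ => φ) (fun _ => hv) (fun η hη => by
    obtain ⟨δ, hδ, hδ'⟩ := Metric.uniformContinuousOn_iff.mp
      (hK.uniformContinuousOn_of_continuous hφ) η hη
    exact ⟨δ, hδ, fun x hx y hy hxy _ => by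
      rw [← dist_eq_norm]; exact (hδ' x (hSK hx) y (hSK hy) (by rwa [dist_eq_norm])).le⟩) ε hε
  exact ⟨r, hr, h ()⟩

/-- Finite sums of thin controls are thin. -/
theorem Thin.sum {ι : Type*} (I : Finset ι) {D : ι → Vec n → Vec n → ℝ} {S : Set (Vec n)}
    (hD : ∀ i ∈ I, Thin (D i) S) (h0 : ∀ i ∈ I, ∀ x ∈ S, ∀ y ∈ S, 0 ≤ D i x y) :
    Thin (fun x y => ∑ i ∈ I, D i x y) S := by
  classical
  intro ε hε
  have hpos : 0 < ε / ((I.card : ℝ) + 1) ^ (n + 2) := by positivity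
  choose! r hr hr' using fun i (hi : i ∈ I) => hD i hi _ hpos
  obtain ⟨ρ₀, hρ₀, hρ₀r⟩ : ∃ ρ₀ > 0, ∀ i ∈ I, ρ₀ ≤ r i := by
    rcases I.eq_empty_or_nonempty with he | hne
    · exact ⟨1, one_pos, by simp [he]⟩
    · obtain ⟨i₀, hi₀, hmin⟩ := I.exists_min_image r hne
      exact ⟨r i₀, hr i₀ hi₀, hmin⟩
  refine ⟨ρ₀, hρ₀, fun m t x y ht htr hP => ?_⟩
  calc ∑ k, (∑ i ∈ I, D i (x k) (y k)) ^ (n + 2)
      ≤ ∑ k, (I.card : ℝ) ^ (n + 1) * ∑ i ∈ I, D i (x k) (y k) ^ (n + 2) :=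
        Finset.sum_le_sum fun k _ => pow_sum_le_card_mul_sum_pow
          (fun i hi => h0 i hi _ (hP.1 k).1 _ (hP.1 k).2.1) (n + 1)
    _ = (I.card : ℝ) ^ (n + 1) * ∑ i ∈ I, ∑ k, D i (x k) (y k) ^ (n + 2) := by
        rw [← Finset.mul_sum, Finset.sum_comm]
    _ ≤ (I.card : ℝ) ^ (n + 1) * ∑ _i ∈ I, ε / ((I.card : ℝ) + 1) ^ (n + 2) := by
        gcongr with i hi
        exact hr' i hi m t x y ht (htr.trans_le (hρ₀r i hi)) hP
    _ ≤ ε := by
        rw [Finset.sum_const, nsmul_eq_mul, ← mul_assoc, ← pow_succ, ← mul_div_assoc,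
          div_le_iff₀ (by positivity), mul_comm ε]
        gcongr
        linarith

/-- The average of a uniformly thin family is thin. -/
theorem thin_avgd {σ : ℤ_[p] → Vec n → Vec n} {K : Set (Vec n)} (A : Act σ K) {γ : Vec n → Vec n}
    {S : Set (Vec n)} (hγ : MapsTo γ S K)
    (h : ∀ ε > 0, ∃ r > 0, ∀ g, ∀ (m : ℕ) (t : ℝ) (x y : Fin m → Vec n), 0 < t → t < r →
      Pairs S t x y → ∑ k, ‖σ g (γ (x k)) - σ g (γ (y k))‖ ^ (n + 2) ≤ ε) :
    Thin (fun x y => avgd σ (γ x) (γ y)) S := by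
  intro ε hε
  obtain ⟨r, hr, hr'⟩ := h ε hε
  refine ⟨r, hr, fun m t x y ht htr hP => ?_⟩
  have hc : ∀ k, Continuous fun g => ‖σ g (γ (x k)) - σ g (γ (y k))‖ := fun k =>
    ((A.cont_orbit (hγ (hP.1 k).1)).sub (A.cont_orbit (hγ (hP.1 k).2.1))).norm
  calc ∑ k, avgd σ (γ (x k)) (γ (y k)) ^ (n + 2)
      ≤ ∑ k, ∫ g, ‖σ g (γ (x k)) - σ g (γ (y k))‖ ^ (n + 2) ∂haarP p :=
        Finset.sum_le_sum fun k _ => (convexOn_pow (n + 2)).map_integral_le
          (continuous_pow _).continuousOn isClosed_Ici (Eventually.of_forall fun g => norm_nonneg _)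
          (integrable_haarP (hc k)) (integrable_haarP ((hc k).pow _))
    _ = ∫ g, ∑ k, ‖σ g (γ (x k)) - σ g (γ (y k))‖ ^ (n + 2) ∂haarP p :=
        (integral_finsetSum _ fun k _ => integrable_haarP ((hc k).pow _)).symm
    _ ≤ ∫ _g, ε ∂haarP p :=
        integral_mono (integrable_haarP (continuous_finsetSum _ fun k _ => (hc k).pow _))
          (integrable_const ε) fun g => hr' g m t x y ht htr hP
    _ = ε := by simp

end Vale.Agent.P228
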