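import Vale.Agent.P228.Two.Degree

/-! The coordinates `Vec (n + 2) = Vec n × ℂ` and two smooth maps in them. -/

open MeasureTheory Set Metric Filter Topology
open scoped BigOperators

namespace Vale.Agent.P228.Two

variable {n : ℕ}

/-- The first `n` coordinates. -/
def xp (v : Vec (n + 2)) : Vec n := fun i => v (Fin.castAdd 2 i)

/-- The last two coordinates, as a complex number. -/
noncomputable def wp (v : Vec (n + 2)) : ℂ := ⟨v (Fin.natAdd n 0), v (Fin.natAdd n 1)⟩

/-- Joining the coordinates. -/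
def jn (x : Vec n) (w : ℂ) : Vec (n + 2) := Fin.append x ![w.re, w.im]

@[simp] lemma xp_jn (x : Vec n) (w : ℂ) : xp (jn x w) = x := funext fun i => by simp [xp, jn]

@[simp] lemma wp_jn (x : Vec n) (w : ℂ) : wp (jn x w) = w := by
  apply Complex.ext <;> simp [wp, jn]

lemma jn_xp_wp (v : Vec (n + 2)) : jn (xp v) (wp v) = v := by
  funext i
  refine Fin.addCases (fun i => ?_) (fun i => ?_) i
  · simp [jn, xp]
  · fin_cases i <;> simp [jn, wp]

lemma jn_eq_zero {x : Vec n} {w : ℂ} : jn x w = 0 ↔ x = 0 ∧ w = 0 := by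
  constructor
  · intro h
    refine ⟨?_, ?_⟩
    · rw [← xp_jn x w, h]; rfl
    · rw [← wp_jn x w, h]; apply Complex.ext <;> simp [wp]
  · rintro ⟨rfl, rfl⟩
    funext i
    refine Fin.addCases (fun i => ?_) (fun i => ?_) i
    · simp [jn]
    · fin_cases i <;> simp [jn]

/-- The coordinates as a linear equivalence. -/
noncomputable def split (n : ℕ) : Vec (n + 2) ≃L[ℝ] Vec n × ℂ :=
  LinearEquiv.toContinuousLinearEquiv
    { toFun := fun v => (xp v, wp v)
      map_add' := fun u v => by
        refine Prod.ext rfl ?_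
        apply Complex.ext <;> simp [wp]
      map_smul' := fun c v => by
        refine Prod.ext rfl ?_
        apply Complex.ext <;> simp [wp]
      invFun := fun q => jn q.1 q.2
      left_inv := jn_xp_wp
      right_inv := fun q => by simp }

lemma split_apply (v : Vec (n + 2)) : split n v = (xp v, wp v) := rfl

lemma split_symm_apply (q : Vec n × ℂ) : (split n).symm q = jn q.1 q.2 := rfl

@[fun_prop] lemma continuous_xp : Continuous (xp (n := n)) :=
  continuous_fst.comp (split n).continuous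

@[fun_prop] lemma continuous_wp : Continuous (wp (n := n)) :=
  continuous_snd.comp (split n).continuous

lemma continuous_jn {X : Type*} [TopologicalSpace X] {a : X → Vec n} {b : X → ℂ}
    (ha : Continuous a) (hb : Continuous b) : Continuous fun x => jn (a x) (b x) :=
  (split n).symm.continuous.comp (ha.prodMk hb)

lemma contDiff_xp : ContDiff ℝ 1 (xp (n := n)) := (split n).contDiff.fst

lemma contDiff_wp : ContDiff ℝ 1 (wp (n := n)) := (split n).contDiff.snd

lemma contDiff_jn {a : Vec (n + 2) → Vec n} {b : Vec (n + 2) → ℂ}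
    (ha : ContDiff ℝ 1 a) (hb : ContDiff ℝ 1 b) : ContDiff ℝ 1 fun x => jn (a x) (b x) :=
  (split n).symm.contDiff.comp (ha.prodMk hb)

lemma isBounded_prod {S : Set (Vec n)} (hS : Bornology.IsBounded S) {T : Set ℂ}
    (hT : Bornology.IsBounded T) : Bornology.IsBounded {v : Vec (n + 2) | xp v ∈ S ∧ wp v ∈ T} := by
  refine ((hS.isCompact_closure.prod hT.isCompact_closure).image
    (split n).symm.continuous).isBounded.subset fun v hv => ?_
  exact ⟨split n v, ⟨subset_closure hv.1, subset_closure hv.2⟩, (split n).symm_apply_apply v⟩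

/-- The exponential in the last two coordinates. -/
noncomputable def expMap (v : Vec (n + 2)) : Vec (n + 2) := jn (xp v) (Complex.exp (wp v))

lemma contDiff_expMap : ContDiff ℝ 1 (expMap (n := n)) :=
  contDiff_jn contDiff_xp (Complex.contDiff_exp.comp contDiff_wp)

lemma jac_expMap_pos (v : Vec (n + 2)) : 0 < jac expMap v := by
  set c := Complex.exp (wp v)
  let L : ℂ →L[ℝ] ℂ := ((c • (1 : ℂ →L[ℂ] ℂ)) : ℂ →L[ℂ] ℂ).restrictScalars ℝ
  have hL : HasFDerivAt Complex.exp L (wp v) := by
    have h := (Complex.hasDerivAt_exp (wp v)).hasFDerivAt.restrictScalars ℝ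
    refine h.congr_fderiv ?_
    ext x <;> simp [L, c, mul_comm]
  have h1 : HasFDerivAt (fun q : Vec n × ℂ => (q.1, Complex.exp q.2))
      ((ContinuousLinearMap.id ℝ (Vec n)).prodMap L) (split n v) :=
    HasFDerivAt.prodMap (split n v) (hasFDerivAt_id _) hL
  have h2 : HasFDerivAt expMap ((((split n).symm : Vec n × ℂ →L[ℝ] Vec (n + 2)).comp
      ((ContinuousLinearMap.id ℝ (Vec n)).prodMap L)).comp
        (split n : Vec (n + 2) →L[ℝ] Vec n × ℂ)) v :=
    ((HasFDerivAt.comp (split n v)
      (g := fun q => (split n).symm q) ((split n).symm.hasFDerivAt) h1).comp v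
      (split n).hasFDerivAt :)
  rw [jac, h2.fderiv, ContinuousLinearMap.det]
  have e : LinearMap.det (((((split n).symm : Vec n × ℂ →L[ℝ] Vec (n + 2)).comp
      ((ContinuousLinearMap.id ℝ (Vec n)).prodMap L)).comp
        (split n : Vec (n + 2) →L[ℝ] Vec n × ℂ) : Vec (n + 2) →L[ℝ] Vec (n + 2)) :
          Vec (n + 2) →ₗ[ℝ] Vec (n + 2)) =
      LinearMap.det ((LinearMap.id : Vec n →ₗ[ℝ] Vec n).prodMap (L : ℂ →ₗ[ℝ] ℂ)) := by
    rw [← LinearMap.det_conj ((LinearMap.id : Vec n →ₗ[ℝ] Vec n).prodMap (L : ℂ →ₗ[ℝ] ℂ))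
      (split n).symm.toLinearEquiv]
    rfl
  rw [e, LinearMap.det_prodMap, LinearMap.det_id, one_mul]
  have : (L : ℂ →ₗ[ℝ] ℂ) = Algebra.lmul ℝ ℂ c := by ext x <;> simp [L]
  rw [this, ← Algebra.norm_apply, Algebra.norm_complex_apply]
  exact Complex.normSq_pos.mpr (Complex.exp_ne_zero _)

lemma jac_add_const (c : Vec (n + 2)) (v : Vec (n + 2)) : jac (fun u => u + c) v = 1 := by
  simp [jac, ContinuousLinearMap.det, fderiv_add_const]

end Vale.Agent.P228.Two
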