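import Vale.Agent.P228.Two.Total

/-! The contradiction: an invariant map whose fibre carries a nowhere zero equivariant function
has no procyclic symmetry moving all points a little. -/

open MeasureTheory Set Metric Filter Topology
open scoped BigOperators Real

namespace Vale.Agent.P228.Two

variable {n : ℕ}

namespace Frame

variable {F : Frame n}

lemma Symm.iterate {G : Vec n → Vec n} (hG : F.Symm G) (j : ℕ) {A : (Vec n → Vec n) × (Vec n → ℂ)}
    {k : ℤ} (hA : F.Good k A) : F.Good (k + j) (A.1 ∘ G^[j], A.2 ∘ G^[j]) := by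
  induction j with
  | zero => simpa using hA
  | succ j ih =>
    have h := ih.comp hG
    rw [Nat.cast_succ, ← add_assoc, Function.iterate_succ]
    exact h

lemma Good.rot_pow {A : (Vec n → Vec n) × (Vec n → ℂ)} {k : ℤ} (hA : F.Good k A) (j : ℕ) :
    F.Good (k + j) (A.1, fun x => F.om ^ j * A.2 x) := by
  induction j with
  | zero => simpa using hA
  | succ j ih =>
    have h := ih.rot
    rw [Nat.cast_succ, ← add_assoc]
    simpa [pow_succ', mul_assoc] using h

lemma Δ_rot_pow {A A' : (Vec n → Vec n) × (Vec n → ℂ)} {k : ℤ} (hA : F.Good k A)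
    (hA' : F.Good k A') (i : ℤ) (j : ℕ) :
    F.Δ (i + j) (A.1, fun x => F.om ^ j * A.2 x) (A'.1, fun x => F.om ^ j * A'.2 x) =
      F.Δ i A A' := by
  induction j with
  | zero => simp
  | succ j ih =>
    rw [← ih, Nat.cast_succ, ← add_assoc, ← Δ_rot (hA.rot_pow j) (hA'.rot_pow j) (i + j)]
    simp only [pow_succ', mul_assoc]

/-- The relation between crossings and sector counts. -/
lemma N_relation {A A' : (Vec n → Vec n) × (Vec n → ℂ)} {k : ℤ} (hA : F.Good k A)
    (hA' : F.Good k A') (i : ℤ) :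
    F.N i A = F.Δ i A A' + F.N i A' - F.Δ (i + 1) A A' := by
  have := hA.c1; have := hA.c2; have := hA'.c1; have := hA'.c2
  have hη := F.hη
  set a := F.ray i with ha
  set b := F.ray (i + 1) with hb
  have hab : a + 2 * F.η < b := by
    rw [hb, ray_succ, ha]; linarith [F.hLη]
  set up := ramp (a - F.η) (a + F.η) with hup
  set dn := ramp (b - F.η) (b + F.η) with hdn
  let τ : ℝ → ℝ := fun t => up t - dn t
  have hτc : Continuous τ := (continuous_ramp _ _).sub (continuous_ramp _ _)
  have hτ01 : ∀ t, τ t ∈ Icc (0:ℝ) 1 := fun t => by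
    rcases le_total t (b - F.η) with h | h
    · simp only [τ, hdn, ramp_of_le (show b - F.η < b + F.η by linarith) h, sub_zero]
      exact ramp_mem _ _ _
    · simp only [τ, hup, ramp_of_ge (show a - F.η < a + F.η by linarith) (show a + F.η ≤ t by linarith)]
      have := ramp_mem (b - F.η) (b + F.η) t
      exact ⟨by linarith [this.2], by linarith [this.1]⟩
  have hτl : τ (a - F.η) = 0 := by
    simp only [τ, hup, hdn]
    rw [ramp_of_le (by linarith) le_rfl, ramp_of_le (by linarith) (by linarith), sub_zero]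
  have hτr : τ (b + F.η) = 0 := by
    simp only [τ, hup, hdn]
    rw [ramp_of_ge (by linarith) (by linarith), ramp_of_ge (by linarith) le_rfl, sub_self]
  have hτmid : ∀ t, a + F.η ≤ t → t ≤ b - F.η → τ t = 1 := fun t h1 h2 => by
    simp only [τ, hup, hdn]
    rw [ramp_of_ge (by linarith) h1, ramp_of_le (by linarith) h2, sub_zero]
  set α := a - F.η with hα
  set β := b + F.η with hβ
  have eα : |α - F.ray i| ≤ F.η := (F.abs_edge i).1
  have eβ : |β - F.ray (i + 1)| ≤ F.η := (F.abs_edge (i + 1)).2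
  have hsub : ∀ {u w : ℝ}, α ≤ u → w ≤ β → F.win u w ⊆ F.win α β := fun hu hw v hv =>
    ⟨hv.1, hv.2.1, hv.2.2.1, hu.trans_lt hv.2.2.2.1, hv.2.2.2.2.trans_le hw⟩
  -- the left side
  have h0 : F.N i A = deg (mix (fun _ => 0) A A) (F.win α β) := by
    refine (deg_excise (adm_N hA eα eβ) (F.isOpen_win a b) (hsub (by linarith) (by linarith))
      fun v hv h => ?_).symm
    obtain ⟨hU, hr1, hr2, -, -⟩ : v ∈ F.win α β := by_contra fun hW => (adm_N hA eα eβ).ne v hv hW h
    obtain ⟨hx, h1, h2⟩ := F.closure_win hv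
    refine ⟨hU, hr1, hr2, lt_of_not_ge fun hge => ?_, lt_of_not_ge fun hge => ?_⟩
    · exact mix_ne hA hA hx (Or.inl rfl) (i := i) (by rw [abs_le]; constructor <;> linarith) h
    · exact mix_ne hA hA hx (Or.inl rfl) (i := i + 1) (by rw [abs_le]; constructor <;> linarith) h
  have hh : deg (mix (fun _ => 0) A A) (F.win α β) = deg (mix τ A A') (F.win α β) := by
    have key := deg_homotopy (H := fun s => mix (fun t => s * τ t) A A') (W := F.win α β)
      (by simp only [mix, Frame.Q]; exact continuous_jn (by fun_prop) (by fun_prop))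
      (F.isOpen_win _ _) (F.isBounded_win _ _) fun s hs => (adm_mix hA hA' (by fun_prop)
        (fun t => ⟨mul_nonneg hs.1 (hτ01 t).1, mul_le_one₀ hs.2 (hτ01 t).1 (hτ01 t).2⟩) eα eβ
        (Or.inl (by rw [hτl, mul_zero])) (Or.inl (by rw [hτr, mul_zero]))).ne
    simpa [mix, ← add_smul] using key
  have hAdm : Adm (mix τ A A') (F.win α β) :=
    adm_mix hA hA' hτc hτ01 eα eβ (Or.inl hτl) (Or.inl hτr)
  let m₁ := a + F.η
  let m₂ := b - F.η
  have hdisj : ∀ v ∈ closure (F.win α β), mix τ A A' v = 0 →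
      (wp v).im ≠ m₁ ∧ (wp v).im ≠ m₂ := by
    intro v hv h
    constructor <;> intro e
    · exact mix_ne hA hA' (F.closure_win hv).1 (Or.inr (hτmid _ e.ge (by rw [e]; linarith))) (i := i)
        (by rw [e]; exact (F.abs_edge i).2) h
    · exact mix_ne hA hA' (F.closure_win hv).1 (Or.inr (hτmid _ (by rw [e]; linarith) e.le))
        (i := i + 1) (by rw [e]; exact (F.abs_edge (i + 1)).1) h
  have hs1 : deg (mix τ A A') (F.win α β) =
      deg (mix τ A A') (F.win α m₁) + deg (mix τ A A') (F.win m₁ β) := by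
    refine deg_add hAdm (F.isOpen_win _ _) (F.isOpen_win _ _) (hsub le_rfl (by linarith))
      (hsub (by linarith) le_rfl)
      (disjoint_left.mpr fun v h h' => by linarith [h.2.2.2.2, h'.2.2.2.1]) fun v hv h => ?_
    obtain ⟨hU, hr1, hr2, hi1, hi2⟩ : v ∈ F.win α β := by_contra fun hvW => hAdm.ne v hv hvW h
    rcases lt_or_gt_of_ne (hdisj v hv h).1 with h' | h'
    · exact Or.inl ⟨hU, hr1, hr2, hi1, h'⟩
    · exact Or.inr ⟨hU, hr1, hr2, h', hi2⟩
  have hAdm₂ : Adm (mix τ A A') (F.win m₁ β) :=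
    adm_mix hA hA' hτc hτ01 (F.abs_edge i).2 eβ (Or.inr (hτmid m₁ le_rfl (by linarith))) (Or.inl hτr)
  have hs2 : deg (mix τ A A') (F.win m₁ β) =
      deg (mix τ A A') (F.win m₁ m₂) + deg (mix τ A A') (F.win m₂ β) := by
    refine deg_add hAdm₂ (F.isOpen_win _ _) (F.isOpen_win _ _)
      (fun v hv => ⟨hv.1, hv.2.1, hv.2.2.1, hv.2.2.2.1, hv.2.2.2.2.trans_le (by linarith)⟩)
      (fun v hv => ⟨hv.1, hv.2.1, hv.2.2.1, lt_trans (by linarith) hv.2.2.2.1, hv.2.2.2.2⟩)
      (disjoint_left.mpr fun v h h' => by linarith [h.2.2.2.2, h'.2.2.2.1]) fun v hv h => ?_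
    obtain ⟨hU, hr1, hr2, hi1, hi2⟩ : v ∈ F.win m₁ β := by_contra fun hvW => hAdm₂.ne v hv hvW h
    have hne := (hdisj v (closure_mono (hsub (by linarith) le_rfl) hv) h).2
    rcases lt_or_gt_of_ne hne with h' | h'
    · exact Or.inl ⟨hU, hr1, hr2, hi1, h'⟩
    · exact Or.inr ⟨hU, hr1, hr2, h', hi2⟩
  -- the three pieces
  have p1 : deg (mix τ A A') (F.win α m₁) = F.Δ i A A' := by
    refine (Δ_eq hA hA' hτc hτ01 hτl (hτmid m₁ le_rfl (by linarith))).symm
  have p3 : deg (mix τ A A') (F.win m₂ β) = F.Δ (i + 1) A' A := by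
    rw [Δ_eq hA' hA (σ := fun t => 1 - τ t) (by fun_prop)
      (fun t => ⟨by linarith [(hτ01 t).2], by linarith [(hτ01 t).1]⟩)
      (by rw [hτmid m₂ (by linarith) le_rfl, sub_self]) (by rw [hτr, sub_zero])]
    congr 1
    funext v
    simp only [mix, Frame.Q, sub_sub_cancel, add_comm]
  have p2 : deg (mix τ A A') (F.win m₁ m₂) = F.N i A' := by
    have hB := adm_N hA' (F.abs_ray i) (F.abs_ray (i + 1))
    rw [N, deg_excise hB (F.isOpen_win m₁ m₂)
      (fun v hv => ⟨hv.1, hv.2.1, hv.2.2.1, lt_trans (by linarith) hv.2.2.2.1,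
        lt_trans hv.2.2.2.2 (by linarith)⟩) fun v hv h => ?_]
    · have hC : Adm (mix τ A A') (F.win m₁ m₂) := adm_mix hA hA' hτc hτ01 (F.abs_edge i).2
        (F.abs_edge (i + 1)).1 (Or.inr (hτmid m₁ le_rfl (by linarith)))
        (Or.inr (hτmid m₂ (by linarith) le_rfl))
      refine deg_congr hC.cont hB.cont (F.isOpen_win _ _) (F.isBounded_win _ _)
        (fun v hv => ?_) hC.ne
      obtain ⟨-, h1, h2⟩ := F.closure_win hv
      simp [mix, Frame.Q, hτmid _ h1 h2]
    · obtain ⟨hU, hr1, hr2, hi1, hi2⟩ : v ∈ F.win (F.ray i) (F.ray (i + 1)) :=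
        by_contra fun hW => hB.ne v hv hW h
      obtain ⟨hx, -, -⟩ := F.closure_win hv
      refine ⟨hU, hr1, hr2, lt_of_not_ge fun hge => ?_, lt_of_not_ge fun hge => ?_⟩
      · exact mix_ne hA' hA' hx (Or.inl rfl) (i := i) (by rw [abs_le]; constructor <;> linarith) h
      · exact mix_ne hA' hA' hx (Or.inl rfl) (i := i + 1) (by rw [abs_le]; constructor <;> linarith) h
  rw [h0, hh, hs1, hs2, p1, p2, p3, Δ_swap hA hA']
  ring

/-- The main contradiction. -/
theorem no_symm {p : ℕ} (hp2 : 2 ≤ p) (hpL : (p : ℝ) * F.L = 2 * π) (hf : Continuous F.f)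
    {z₀ : Vec n} {R : ℝ} (hzero : ∀ x, F.f x = 0 → x ∈ F.U) (hout : ∀ x, R < ‖x‖ → F.f x = x - z₀)
    {G : Vec n → Vec n} (hG : F.Symm G) {P : (Vec n → Vec n) × (Vec n → ℂ)} (hP : F.Good 0 P)
    {q : ℕ} (hq : 0 < q) {S : Set (Vec n)}
    (hS : ∀ x ∈ closure F.U, ∀ t ∈ Icc (0:ℝ) 1, x + t • (G^[p * q] x - x) ∈ S)
    (hSnear : ∀ x ∈ closure F.U, ∀ t ∈ Icc (0:ℝ) 1,
      F.NearP 0 x (P.1 (x + t • (G^[p * q] x - x))) (P.2 (x + t • (G^[p * q] x - x))))
    (hSavoid : ∀ y ∈ S, P.1 y = 0 → ∀ u : ℂ, P.2 y = Complex.exp u → ∀ i, F.η < |u.im - F.ray i|) :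
    False := by
  have homp : F.om ^ p = 1 := by
    rw [Frame.om, ← Complex.exp_nat_mul, ← mul_assoc, ← Complex.ofReal_natCast, ← Complex.ofReal_mul,
      hpL]
    simp
  set ωP : (Vec n → Vec n) × (Vec n → ℂ) := (P.1, fun x => F.om * P.2 x)
  set PG : (Vec n → Vec n) × (Vec n → ℂ) := (P.1 ∘ G, P.2 ∘ G)
  have hωP : F.Good 1 ωP := by simpa [ωP] using hP.rot
  have hPG : F.Good 1 PG := by simpa [PG] using hP.comp hG
  let b : ℤ → ℤ := fun i => F.Δ i ωP PG
  have hrel : ∀ i, F.N (i - 1) P = b i + F.N i P - b (i + 1) := fun i => by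
    have h := N_relation hωP hPG i
    rw [N_comp hP hG] at h
    have e := N_rot hP (i - 1)
    rw [sub_add_cancel] at e
    rw [← e]
    exact h
  set c := b 1 - F.N 0 P with hc
  have hconst : ∀ i, b (i + 1) - F.N i P = c := by
    intro i
    induction i using Int.induction_on with
    | zero => simp [hc]
    | succ j ih => have := hrel (j + 1); rw [add_sub_cancel_right] at this; linarith
    | pred j ih => have := hrel (-(j:ℤ)); rw [sub_add_cancel]; linarith
  have hblock : ∀ s, ∑ i ∈ Finset.range p, b (s + i) = p * c + 1 := by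
    intro s
    have e : ∀ i : ℕ, b (s + i) = F.N (s - 1 + i) P + c := fun i => by
      have := hconst (s - 1 + i)
      rw [show s - 1 + (i:ℤ) + 1 = s + i by ring] at this
      linarith
    simp only [e, Finset.sum_add_distrib, Finset.sum_const, Finset.card_range, nsmul_eq_mul]
    rw [N_sum_one hP hpL hf hzero hout]
    ring
  let D : ℕ → ℤ → ℤ := fun j i =>
    F.Δ i (P.1, fun x => F.om ^ j * P.2 x) (P.1 ∘ G^[j], P.2 ∘ G^[j])
  have hD0 : ∀ i, D 0 i = 0 := fun i => by simpa [D] using Δ_self hP i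
  have hDs : ∀ j i, D (j + 1) i = b (i - j) + D j i := by
    intro j i
    have h1 : F.Good (j + 1) (P.1, fun x => F.om ^ (j + 1) * P.2 x) := by
      simpa using hP.rot_pow (j + 1)
    have hA : F.Good j (P.1, fun x => F.om ^ j * P.2 x) := by simpa using hP.rot_pow j
    have hB : F.Good j (P.1 ∘ G^[j], P.2 ∘ G^[j]) := by simpa using hG.iterate j hP
    have h2 : F.Good (j + 1) (P.1 ∘ G, fun x => F.om ^ j * P.2 (G x)) := hA.comp hG
    have h3 : F.Good (j + 1) (P.1 ∘ G^[j + 1], P.2 ∘ G^[j + 1]) := by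
      simpa using hG.iterate (j + 1) hP
    have e := Δ_trans h1 h2 h3 i
    have e1 : F.Δ i (P.1, fun x => F.om ^ (j + 1) * P.2 x) (P.1 ∘ G, fun x => F.om ^ j * P.2 (G x)) =
        b (i - j) := by
      have := Δ_rot_pow hωP hPG (i - j) j
      rw [sub_add_cancel] at this
      rw [show b (i - j) = F.Δ (i - j) ωP PG from rfl, ← this]
      simp only [ωP, PG, pow_succ, mul_assoc, Function.comp_apply]
    have e2 : F.Δ i (P.1 ∘ G, fun x => F.om ^ j * P.2 (G x)) (P.1 ∘ G^[j + 1], P.2 ∘ G^[j + 1]) =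
        D j i := by
      rw [show D j i = F.Δ i _ _ from rfl, ← Δ_comp hA hB hG i, Function.iterate_succ]
      rfl
    rw [e1, e2] at e
    exact e
  have hDsum : ∀ j i, D j i = ∑ l ∈ Finset.range j, b (i - l) := by
    intro j
    induction j with
    | zero => simpa using hD0
    | succ j ih => intro i; rw [hDs, Finset.sum_range_succ, ih]; ring
  have hDblock : ∀ (q : ℕ) i, D (p * q) i = q * (p * c + 1) := by
    intro q
    induction q with
    | zero => simpa using hD0
    | succ q ih =>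
      intro i
      rw [hDsum, Nat.mul_succ, Finset.sum_range_add, ← hDsum, ih i]
      have e : ∑ l ∈ Finset.range p, b (i - ((p * q + l : ℕ) : ℤ)) = p * c + 1 := by
        rw [← Finset.sum_range_reflect, ← hblock (i - (p * q : ℕ) - (p - 1 : ℕ))]
        refine Finset.sum_congr rfl fun l hl => ?_
        rw [Finset.mem_range] at hl
        congr 1
        omega
      rw [e]; push_cast; ring
  -- the long loop has no crossings
  have hzeroD : D (p * q) 0 = 0 := by
    have e : (fun x => F.om ^ (p * q) * P.2 x) = P.2 := by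
      funext x; rw [pow_mul, homp, one_pow, one_mul]
    show F.Δ 0 (P.1, fun x => F.om ^ (p * q) * P.2 x) _ = 0
    rw [e]
    set T := G^[p * q]
    set σ := ramp (F.ray 0 - F.η) (F.ray 0 + F.η) with hσ
    have hA' : F.Good 0 (P.1 ∘ T, P.2 ∘ T) := by
      refine ⟨hP.c1.comp (hG.cont.iterate _), hP.c2.comp (hG.cont.iterate _), fun x hx => ?_,
        fun x hx => ?_⟩
      · have := hSnear x hx 1 ⟨zero_le_one, le_rfl⟩
        simpa using this
      · have := hS x hx 1 ⟨zero_le_one, le_rfl⟩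
        simp only [one_smul, add_sub_cancel] at this
        exact hSavoid _ this
    have := hP.c1; have := hP.c2
    have hTc : Continuous T := hG.cont.iterate _
    let y : Vec (n + 2) → Vec n := fun v => xp v + σ (wp v).im • (T (xp v) - xp v)
    have key := deg_win_homotopy (F := F) (k := 0)
      (a := fun t v => (1 - t) • ((1 - σ (wp v).im) • P.1 (xp v) + σ (wp v).im • P.1 (T (xp v)))
        + t • P.1 (y v))
      (b := fun t v => (1 - t) • ((1 - σ (wp v).im) • P.2 (xp v) + σ (wp v).im • P.2 (T (xp v)))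
        + t • P.2 (y v)) (α := F.ray 0 - F.η) (β := F.ray 0 + F.η)
      (by simp only [y, hσ]; fun_prop) (by simp only [y, hσ]; fun_prop)
      (fun t ht v hv => nearP_comb (mix_near hP hA' (ramp_mem _ _) hv)
        (hSnear _ hv _ (ramp_mem _ _ _)) ht) fun t ht v hv he h => by
        obtain ⟨e1, e2⟩ := Q_eq_zero.mp h
        rcases he with e | e
        · have i1 : σ (wp v).im = 0 := ramp_of_le (by linarith [F.hη]) e.le
          simp only [y, i1, sub_zero, one_smul, zero_smul, add_zero, ← add_smul, sub_add_cancel]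
            at e1 e2
          exact hP.pure_ne hv rfl rfl (i := 0) (by rw [e]; exact (F.abs_edge 0).1) ⟨e1, e2⟩
        · have i1 : σ (wp v).im = 1 := ramp_of_ge (by linarith [F.hη]) e.ge
          simp only [y, i1, sub_self, one_smul, zero_smul, zero_add, ← add_smul, sub_add_cancel,
            add_sub_cancel] at e1 e2
          exact hA'.pure_ne hv rfl rfl (i := 0) (by rw [e]; exact (F.abs_edge 0).2) ⟨e1, e2⟩
    have hend : deg (Frame.Q (fun v => P.1 (y v)) (fun v => P.2 (y v)))
        (F.win (F.ray 0 - F.η) (F.ray 0 + F.η)) = 0 := by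
      have hz : ∀ v, xp v ∈ closure F.U → |(wp v).im - F.ray 0| ≤ F.η →
          Frame.Q (fun v => P.1 (y v)) (fun v => P.2 (y v)) v ≠ 0 := fun v hv hi h => by
        obtain ⟨e1, e2⟩ := Q_eq_zero.mp h
        exact absurd (hSavoid _ (hS _ hv _ (ramp_mem _ _ _)) e1 _ e2 0) (not_lt.mpr hi)
      have hy : Continuous y := continuous_xp.add
        (((continuous_ramp _ _).comp (Complex.continuous_im.comp continuous_wp)).smul
          ((hTc.comp continuous_xp).sub continuous_xp))
      refine deg_zero (adm_Q (k := 0) (hP.c1.comp hy) (hP.c2.comp hy)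
        (fun v hv => hSnear _ hv _ (ramp_mem _ _ _)) fun v hv he => hz v hv ?_) fun v hv => ?_
      · rcases he with e | e <;> rw [e]
        exacts [(F.abs_edge 0).1, (F.abs_edge 0).2]
      · obtain ⟨hx, h1, h2⟩ := F.closure_win hv
        exact hz v hx (by rw [abs_le]; constructor <;> linarith)
    simp only [sub_zero, one_smul, zero_smul, add_zero, sub_self, zero_add] at key
    exact key.trans hend
  rw [hDblock] at hzeroD
  have h1 : (p : ℤ) * c + 1 = 0 := by
    rcases mul_eq_zero.mp hzeroD with h | h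
    · omega
    · exact h
  have h2 : (p : ℤ) ∣ 1 := ⟨-c, by linarith⟩
  have := Int.le_of_dvd one_pos h2
  omega

end Frame

end Vale.Agent.P228.Two
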