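import Vale.Agent.P228.Split

/-! An integer local degree for continuous maps of `Vec d`: homotopy invariance, additivity,
composition with a map equal to the identity outside a ball, change of variables. -/

open MeasureTheory Set Metric Filter Topology
open scoped BigOperators

namespace Vale.Agent.P228.Two

variable {d : ℕ}

/-- The pull back integral of a density. -/
noncomputable def pull (F : Vec d → Vec d) (W : Set (Vec d)) (φ : Vec d → ℝ) : ℝ :=
  ∫ x in W, φ (F x) * jac F x

lemma hasCompactSupport_of_small {φ : Vec d → ℝ} {ε : ℝ} (h : ∀ y, φ y ≠ 0 → ‖y‖ < ε) :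
    HasCompactSupport φ :=
  HasCompactSupport.intro (isCompact_closedBall (0 : Vec d) ε) fun y hy => by
    by_contra h0
    exact hy (mem_closedBall.mpr (by rw [dist_zero_right]; exact (h y h0).le))

/-- Extension of a smooth map near a bounded set to a map equal to the identity far away. -/
lemma exists_idOutside {F : Vec d → Vec d} (hF : ContDiff ℝ 1 F) {W : Set (Vec d)}
    (hb : Bornology.IsBounded W) :
    ∃ F' : Vec d → Vec d, ContDiff ℝ 1 F' ∧ (∃ R, ∀ x, R < ‖x‖ → F' x = x) ∧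
      ∀ x ∈ closure W, F' =ᶠ[𝓝 x] F := by
  obtain ⟨R, hR⟩ := hb.closure.subset_closedBall 0
  obtain ⟨χ, hχ, hχs, -, hχ1⟩ := exists_cutoff hb.isCompact_closure (isOpen_ball (x := (0:Vec d))
    (ε := R + 1)) (hR.trans (closedBall_subset_ball (by linarith)))
  refine ⟨fun x => x + χ x • (F x - x), contDiff_id.add (hχ.smul (hF.sub contDiff_id)),
    ⟨R + 1, fun x hx => ?_⟩, fun x hx => (hχ1 x hx).mono fun y hy => by simp [hy]⟩
  have : χ x = 0 := image_eq_zero_of_notMem_tsupport fun h => by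
    have := hχs h
    rw [mem_ball, dist_zero_right] at this
    linarith
  simp [this]

/-- Straight homotopies staying away from small values do not change the integral. -/
theorem pull_congr {F G : Vec d → Vec d} (hF : ContDiff ℝ 1 F) (hG : ContDiff ℝ 1 G)
    {W : Set (Vec d)} (hW : IsOpen W) (hb : Bornology.IsBounded W) {ε : ℝ}
    (h : ∀ x ∈ closure W, ∀ t ∈ Icc (0:ℝ) 1, ‖F x + t • (G x - F x)‖ ≤ ε → x ∈ W)
    {φ : Vec d → ℝ} (hφ : Continuous φ) (hφs : ∀ y, φ y ≠ 0 → ‖y‖ < ε) :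
    pull F W φ = pull G W φ := by
  obtain ⟨F', hF', ⟨R, hR⟩, hFF'⟩ := exists_idOutside hF hb
  set C := Prod.snd '' ((Icc (0:ℝ) 1 ×ˢ closure W) ∩
    (fun q : ℝ × Vec d => ‖F q.2 + q.1 • (G q.2 - F q.2)‖) ⁻¹' Iic ε) with hC
  have hFc := hF.continuous
  have hGc := hG.continuous
  have hCc : IsCompact C :=
    (((isCompact_Icc.prod hb.isCompact_closure).inter_right
      (isClosed_Iic.preimage (by fun_prop))).image continuous_snd)
  have hCW : C ⊆ W := by
    rintro _ ⟨⟨t, x⟩, ⟨⟨ht, hx⟩, hle⟩, rfl⟩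
    exact h x hx t ht hle
  obtain ⟨χ, hχ, hχs, hχ01, hχ1⟩ := exists_cutoff hCc hW hCW
  let H : Vec d → Vec d := fun x => F' x + χ x • (G x - F' x)
  have hH : ContDiff ℝ 1 H := hF'.add (hχ.smul (hG.sub hF'))
  obtain ⟨RW, hRW⟩ := hb.subset_closedBall 0
  have hHid : ∀ x, max R RW < ‖x‖ → H x = x := by
    intro x hx
    rw [max_lt_iff] at hx
    have : χ x = 0 := image_eq_zero_of_notMem_tsupport fun h => by
      have := hRW (hχs h)
      rw [mem_closedBall, dist_zero_right] at this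
      linarith [hx.2]
    simp [H, this, hR x hx.1]
  have hφc := hasCompactSupport_of_small hφs
  have hJ : ∀ {F : Vec d → Vec d}, ContDiff ℝ 1 F → Continuous (jac F) := fun hF =>
    ContinuousLinearMap.continuous_det.comp (hF.continuous_fderiv one_ne_zero)
  have hint : ∀ {F : Vec d → Vec d}, ContDiff ℝ 1 F → ∀ S, (∀ x, S < ‖x‖ → F x = x) →
      Integrable fun x => φ (F x) * jac F x := by
    intro F hF S hS
    refine ((hφ.comp hF.continuous).mul (hJ hF)).integrable_of_hasCompactSupport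
      (HasCompactSupport.intro (isCompact_closedBall (0 : Vec d) (max S ε)) fun x hx => ?_)
    rw [mem_closedBall, dist_zero_right, not_le, max_lt_iff] at hx
    by_contra h0
    have := hφs _ (left_ne_zero_of_mul h0)
    rw [hS x hx.1] at this
    linarith [hx.2]
  have e := (integral_comp_mul_jac hH hHid hφ hφc).trans (integral_comp_mul_jac hF' hR hφ hφc).symm
  have hout : ∀ x ∈ Wᶜ, φ (H x) * jac H x = φ (F' x) * jac F' x := by
    intro x hx
    have h0 : χ =ᶠ[𝓝 x] 0 := notMem_tsupport_iff_eventuallyEq.mp fun h => hx (hχs h)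
    have e : H =ᶠ[𝓝 x] F' := h0.mono fun y hy => by simp [H, hy]
    simp only [jac, e.fderiv_eq, e.eq_of_nhds]
  have hinG : ∀ x ∈ W, φ (H x) * jac H x = φ (G x) * jac G x := by
    intro x hx
    have hF0 := hFF' x (subset_closure hx)
    by_cases hxC : x ∈ C
    · have e : H =ᶠ[𝓝 x] G := (hχ1 x hxC).mono fun y hy => by simp [H, hy]
      simp only [jac, e.fderiv_eq, e.eq_of_nhds]
    · have hbig : ∀ t ∈ Icc (0:ℝ) 1, φ (F x + t • (G x - F x)) = 0 := by
        intro t ht
        by_contra h0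
        exact hxC ⟨(t, x), ⟨⟨ht, subset_closure hx⟩, (hφs _ h0).le⟩, rfl⟩
      have h1 : φ (H x) = 0 := by
        have := hbig (χ x) (hχ01 x)
        simpa only [H, hF0.eq_of_nhds] using this
      have h2 : φ (G x) = 0 := by simpa using hbig 1 ⟨zero_le_one, le_rfl⟩
      rw [h1, h2, zero_mul, zero_mul]
  have hinF : ∀ x ∈ W, φ (F' x) * jac F' x = φ (F x) * jac F x := by
    intro x hx
    have e := hFF' x (subset_closure hx)
    simp only [jac, e.fderiv_eq, e.eq_of_nhds]
  rw [← integral_add_compl hW.measurableSet (hint hH _ hHid),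
    ← integral_add_compl hW.measurableSet (hint hF' _ hR),
    setIntegral_congr_fun hW.measurableSet.compl hout,
    setIntegral_congr_fun hW.measurableSet hinG,
    setIntegral_congr_fun hW.measurableSet hinF] at e
  simp only [pull]
  linarith

/-- `W` is a bounded open set and `f` does not vanish on its boundary. -/
structure Adm (f : Vec d → Vec d) (W : Set (Vec d)) : Prop where
  op : IsOpen W
  bdd : Bornology.IsBounded W
  cont : Continuous f
  ne : ∀ x ∈ closure W, x ∉ W → f x ≠ 0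

theorem Adm.margin {f : Vec d → Vec d} {W : Set (Vec d)} (h : Adm f W) :
    ∃ ε > 0, ∀ x ∈ closure W, ‖f x‖ < ε → x ∈ W := by
  rcases (closure W \ W).eq_empty_or_nonempty with he | hne
  · exact ⟨1, one_pos, fun x hx _ => by_contra fun hxW => (he.subset ⟨hx, hxW⟩).elim⟩
  · obtain ⟨a, ha, hmin⟩ := (h.bdd.isCompact_closure.diff h.op).exists_isMinOn hne
      h.cont.norm.continuousOn
    exact ⟨‖f a‖, norm_pos_iff.mpr (h.ne a ha.1 ha.2), fun x hx hlt => by_contra fun hxW =>
      absurd hlt (not_lt.mpr (hmin ⟨hx, hxW⟩))⟩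

/-- `m` is the degree of `f` on `W` at the value zero. -/
def IsDeg (f : Vec d → Vec d) (W : Set (Vec d)) (m : ℤ) : Prop :=
  ∃ ε > 0, ∀ f' : Vec d → Vec d, ContDiff ℝ 1 f' → (∀ x ∈ closure W, ‖f' x - f x‖ < ε) →
    ∀ φ : Vec d → ℝ, Continuous φ → (∀ y, φ y ≠ 0 → ‖y‖ < ε) →
      pull f' W φ = m * ∫ y, φ y

theorem exists_smooth_close {f : Vec d → Vec d} (hf : Continuous f) {ε : ℝ} (hε : 0 < ε) :
    ∃ f', ContDiff ℝ 1 f' ∧ ∀ x, ‖f' x - f x‖ < ε := by
  obtain ⟨v, hv, hvd, -⟩ := hf.exists_contDiff_approx 1 (continuous_const (y := ε)) fun _ => hε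
  exact ⟨v, hv, fun x => by have h := hvd x; rwa [dist_eq_norm] at h⟩

theorem Adm.exists_isDeg {f : Vec d → Vec d} {W : Set (Vec d)} (h : Adm f W) :
    ∃ m, IsDeg f W m := by
  obtain ⟨ε₀, hε₀, hm⟩ := h.margin
  set ε := ε₀ / 8 with hεdef
  have hε : 0 < ε := by positivity
  have key : ∀ x ∈ closure W, ∀ a : Vec d, ‖a - f x‖ < 7 * ε → ‖a‖ ≤ ε → x ∈ W := by
    intro x hx a ha ha'
    refine hm x hx ?_
    linarith [norm_sub_norm_le (f x) a, norm_sub_rev a (f x)]
  obtain ⟨f₀, hf₀, hf₀d⟩ := exists_smooth_close h.cont hε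
  obtain ⟨F, hF, ⟨R, hR⟩, hFf⟩ := exists_idOutside hf₀ h.bdd
  obtain ⟨φ₀, hφ₀, -, hφ₀s, hφ₀p, m, hm₀⟩ := exists_integral_density hF hR h.op hε (z := 0)
    fun x hx => by
      by_cases hxc : x ∈ closure W
      · refine Or.inl (key x hxc (F x) ?_ ?_)
        · rw [(hFf x hxc).eq_of_nhds]; linarith [hf₀d x]
        · rw [← dist_zero_right]; exact hx.le
      · exact Or.inr hxc
  simp only [dist_zero_right] at hφ₀s
  have hm₀' : pull f₀ W φ₀ = m * ∫ y, φ₀ y := by
    rw [← hm₀]
    refine setIntegral_congr_fun h.op.measurableSet fun x hx => ?_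
    have e := hFf x (subset_closure hx)
    simp only [jac, e.fderiv_eq, e.eq_of_nhds]
  refine ⟨m, ε, hε, fun f' hf' hd φ hφ hφs => ?_⟩
  have hstep : ∀ (a : Vec d) (ψ : Vec d → ℝ), Continuous ψ → (∀ y, ψ y ≠ 0 → ‖y‖ < ε) → ‖a‖ < ε →
      ∫ x in W, ψ (f' x - a) * jac f' x = pull f₀ W ψ := by
    intro a ψ hψ hψs ha
    have e : pull (fun x => f' x - a) W ψ = ∫ x in W, ψ (f' x - a) * jac f' x := by
      refine setIntegral_congr_fun h.op.measurableSet fun x _ => ?_
      simp only [jac, fderiv_sub_const]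
    rw [← e]
    refine pull_congr (hf'.sub contDiff_const) hf₀ h.op h.bdd (ε := ε) (fun x hx t ht hle => ?_)
      hψ hψs
    refine key x hx _ ?_ hle
    have h1 : ‖f' x - a - f x‖ ≤ 2 * ε := by
      have : f' x - a - f x = (f' x - f x) - a := by abel
      rw [this]
      linarith [norm_sub_le (f' x - f x) a, hd x hx]
    have e2 : f' x - a + t • (f₀ x - (f' x - a)) - f x =
        (1 - t) • (f' x - a - f x) + t • (f₀ x - f x) := by module
    rw [e2]
    calc ‖(1 - t) • (f' x - a - f x) + t • (f₀ x - f x)‖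
        ≤ (1 - t) * ‖f' x - a - f x‖ + t * ‖f₀ x - f x‖ := by
          refine (norm_add_le _ _).trans (le_of_eq ?_)
          rw [norm_smul, norm_smul, Real.norm_of_nonneg (by linarith [ht.2]),
            Real.norm_of_nonneg ht.1]
      _ < 7 * ε := by nlinarith [hf₀d x, ht.1, ht.2, norm_nonneg (f' x - a - f x)]
  have hφc := hasCompactSupport_of_small hφs
  have hφ₀c := hasCompactSupport_of_small hφ₀s
  -- translation invariance gives proportionality
  have hsymm : ∀ y, ∫ a, φ₀ a * φ (y - a) = ∫ a, φ a * φ₀ (y - a) := fun y => by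
    rw [← integral_sub_left_eq_self (fun a => φ₀ a * φ (y - a)) volume y]
    simp [mul_comm]
  have hfub : ∀ φ ψ : Vec d → ℝ, Continuous φ → Continuous ψ → (∀ y, φ y ≠ 0 → ‖y‖ < ε) →
      (∀ y, ψ y ≠ 0 → ‖y‖ < ε) →
      (∫ a, ψ a) * pull f₀ W φ = ∫ x in W, (∫ a, ψ a * φ (f' x - a)) * jac f' x := by
    intro φ ψ hφ hψ hφs hψs
    rw [← integral_mul_const]
    have e : ∀ a, ψ a * pull f₀ W φ = ∫ x in W, ψ a * φ (f' x - a) * jac f' x := by
      intro a
      by_cases ha : ψ a = 0
      · simp [ha]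
      · rw [← hstep a φ hφ hφs (hψs a ha), ← integral_const_mul]
        simp [mul_assoc]
    simp only [e, ← integral_mul_const]
    refine integral_integral_swap ?_
    have hc : Continuous fun q : Vec d × Vec d => ψ q.1 * φ (f' q.2 - q.1) * jac f' q.2 := by
      have := hf'.continuous
      have : Continuous (jac f') :=
        ContinuousLinearMap.continuous_det.comp (hf'.continuous_fderiv one_ne_zero)
      fun_prop
    have hK : IsCompact (closedBall (0 : Vec d) ε ×ˢ closure W) :=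
      (isCompact_closedBall _ _).prod h.bdd.isCompact_closure
    have hi : IntegrableOn (Function.uncurry fun a x => ψ a * φ (f' x - a) * jac f' x)
        (univ ×ˢ W) (volume.prod volume) := by
      refine IntegrableOn.of_forall_sdiff_eq_zero
        ((hc.continuousOn.integrableOn_compact hK).mono_set
          (prod_mono (subset_refl (closedBall (0 : Vec d) ε)) subset_closure))
        (MeasurableSet.univ.prod h.op.measurableSet) fun q hq => ?_
      have : ψ q.1 = 0 := by
        by_contra h0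
        exact hq.2 ⟨mem_closedBall.mpr (by rw [dist_zero_right]; exact (hψs _ h0).le), hq.1.2⟩
      simp [Function.uncurry, this]
    rw [IntegrableOn, ← Measure.prod_restrict, Measure.restrict_univ] at hi
    exact hi
  have h1 := hfub φ φ₀ hφ hφ₀ hφs hφ₀s
  have h2 := hfub φ₀ φ hφ₀ hφ hφ₀s hφs
  simp only [hsymm] at h1
  rw [← h2, hm₀'] at h1
  have h3 : pull f' W φ = pull f₀ W φ := by
    have := hstep 0 φ hφ hφs (by simpa using hε)
    simpa [pull] using this
  rw [h3]
  apply mul_left_cancel₀ hφ₀p.ne'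
  rw [h1]
  ring

theorem exists_bump {ε : ℝ} (hε : 0 < ε) :
    ∃ φ : Vec d → ℝ, Continuous φ ∧ (∀ y, φ y ≠ 0 → ‖y‖ < ε) ∧ 0 < ∫ y, φ y := by
  have hs : ∀ y : Vec d, max 0 (ε - ‖y‖) ≠ 0 → ‖y‖ < ε := fun y hy => by
    by_contra h
    exact hy (max_eq_left (by linarith [not_lt.mp h]))
  refine ⟨fun y => max 0 (ε - ‖y‖), by fun_prop, hs, ?_⟩
  apply (show Continuous fun y : Vec d => max 0 (ε - ‖y‖) by fun_prop)
    |>.integral_pos_of_hasCompactSupport_nonneg_nonzero (hasCompactSupport_of_small hs)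
      (fun y => le_max_left _ _) (x := 0)
  simp [hε.ne', hε.le]

theorem IsDeg.unique {f : Vec d → Vec d} {W : Set (Vec d)} (hf : Continuous f) {m m' : ℤ}
    (h : IsDeg f W m) (h' : IsDeg f W m') : m = m' := by
  obtain ⟨ε, hε, he⟩ := h
  obtain ⟨ε', hε', he'⟩ := h'
  obtain ⟨f', hf', hd⟩ := exists_smooth_close hf (lt_min hε hε')
  obtain ⟨φ, hφ, hφs, hφp⟩ := exists_bump (d := d) (lt_min hε hε')
  have h1 := he f' hf' (fun x _ => (hd x).trans_le (min_le_left _ _)) φ hφ
    fun y hy => (hφs y hy).trans_le (min_le_left _ _)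
  have h2 := he' f' hf' (fun x _ => (hd x).trans_le (min_le_right _ _)) φ hφ
    fun y hy => (hφs y hy).trans_le (min_le_right _ _)
  exact_mod_cast mul_right_cancel₀ hφp.ne' (h1.symm.trans h2)

open Classical in
/-- The degree. -/
noncomputable def deg (f : Vec d → Vec d) (W : Set (Vec d)) : ℤ :=
  if h : ∃ m, IsDeg f W m then h.choose else 0

theorem Adm.isDeg {f : Vec d → Vec d} {W : Set (Vec d)} (h : Adm f W) : IsDeg f W (deg f W) := by
  rw [deg, dif_pos h.exists_isDeg]
  exact h.exists_isDeg.choose_spec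

theorem deg_eq {f : Vec d → Vec d} {W : Set (Vec d)} (hf : Continuous f) {m : ℤ}
    (h : IsDeg f W m) : deg f W = m := by
  rw [deg, dif_pos ⟨m, h⟩]
  exact IsDeg.unique hf (Exists.choose_spec (⟨m, h⟩ : ∃ m, IsDeg f W m)) h

/-- Homotopy invariance. -/
theorem deg_homotopy {H : ℝ → Vec d → Vec d} (hH : Continuous fun q : ℝ × Vec d => H q.1 q.2)
    {W : Set (Vec d)} (hW : IsOpen W) (hb : Bornology.IsBounded W)
    (hne : ∀ t ∈ Icc (0:ℝ) 1, ∀ x ∈ closure W, x ∉ W → H t x ≠ 0) :
    deg (H 0) W = deg (H 1) W := by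
  have hc : ∀ t, Continuous (H t) := fun t => hH.comp (continuous_const.prodMk continuous_id)
  refine isPreconnected_Icc.constant (f := fun t => deg (H t) W) (fun t ht => ?_)
    (left_mem_Icc.mpr zero_le_one) (right_mem_Icc.mpr zero_le_one)
  have hA : Adm (H t) W := ⟨hW, hb, hc t, hne t ht⟩
  obtain ⟨ε, hε, he⟩ := hA.isDeg
  obtain ⟨δ, hδ, hu⟩ := Metric.uniformContinuousOn_iff.mp
    ((isCompact_Icc.prod hb.isCompact_closure).uniformContinuousOn_of_continuous hH.continuousOn)
    (ε / 2) (half_pos hε)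
  refine (continuousWithinAt_const (b := deg (H t) W)).congr_of_eventuallyEq ?_ rfl
  filter_upwards [self_mem_nhdsWithin, mem_nhdsWithin_of_mem_nhds (ball_mem_nhds t hδ)] with s hs hst
  have hd : ∀ x ∈ closure W, ‖H s x - H t x‖ < ε / 2 := fun x hx => by
    rw [← dist_eq_norm]
    exact hu (s, x) ⟨hs, hx⟩ (t, x) ⟨ht, hx⟩ (by
      rw [Prod.dist_eq]; simpa [hδ] using mem_ball.mp hst)
  refine deg_eq (hc s) ⟨ε / 2, half_pos hε, fun f' hf' hf'd φ hφ hφs => ?_⟩
  refine he f' hf' (fun x hx => ?_) φ hφ fun y hy => (hφs y hy).trans (half_lt_self hε)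
  have : f' x - H t x = (f' x - H s x) + (H s x - H t x) := by abel
  rw [this]
  linarith [norm_add_le (f' x - H s x) (H s x - H t x), hf'd x hx, hd x hx]

/-- The degree only depends on the values on the closure. -/
theorem deg_congr {f g : Vec d → Vec d} (hf : Continuous f) (hg : Continuous g) {W : Set (Vec d)}
    (hW : IsOpen W) (hb : Bornology.IsBounded W) (heq : ∀ x ∈ closure W, f x = g x)
    (hne : ∀ x ∈ closure W, x ∉ W → f x ≠ 0) : deg f W = deg g W := by
  have key := deg_homotopy (H := fun t x => f x + t • (g x - f x)) (by fun_prop) hW hb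
    fun t _ x hx hxW => by simpa [heq x hx] using (heq x hx ▸ hne x hx hxW :)
  simpa using key

/-- Additivity and excision. -/
theorem deg_add {f : Vec d → Vec d} {W W₁ W₂ : Set (Vec d)} (h : Adm f W) (h₁ : IsOpen W₁)
    (h₂ : IsOpen W₂) (hs₁ : W₁ ⊆ W) (hs₂ : W₂ ⊆ W) (hdis : Disjoint W₁ W₂)
    (hz : ∀ x ∈ closure W, f x = 0 → x ∈ W₁ ∨ x ∈ W₂) :
    deg f W = deg f W₁ + deg f W₂ := by
  have sub : ∀ {U V : Set (Vec d)}, IsOpen U → U ⊆ W → Disjoint U V → IsOpen V →
      (∀ x ∈ closure W, f x = 0 → x ∈ U ∨ x ∈ V) → Adm f U := by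
    intro U V hU hUW hUV hV hz'
    refine ⟨hU, h.bdd.subset hUW, h.cont, fun x hx hxU h0 => ?_⟩
    rcases hz' x (closure_mono hUW hx) h0 with h' | h'
    · exact hxU h'
    · exact disjoint_left.mp (hUV.closure_left hV) hx h'
  have hA₁ := sub h₁ hs₁ hdis h₂ hz
  have hA₂ := sub h₂ hs₂ hdis.symm h₁ fun x hx h0 => (hz x hx h0).symm
  obtain ⟨ε, hε, he⟩ := h.isDeg
  obtain ⟨ε₁, hε₁, he₁⟩ := hA₁.isDeg
  obtain ⟨ε₂, hε₂, he₂⟩ := hA₂.isDeg
  set O := closure W \ (W₁ ∪ W₂) with hO
  obtain ⟨η, hη, hη'⟩ : ∃ η > 0, ∀ x ∈ O, η ≤ ‖f x‖ := by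
    rcases O.eq_empty_or_nonempty with he | hne
    · exact ⟨1, one_pos, by simp [he]⟩
    · obtain ⟨a, ha, hmin⟩ := (h.bdd.isCompact_closure.diff (h₁.union h₂)).exists_isMinOn hne
        h.cont.norm.continuousOn
      exact ⟨_, norm_pos_iff.mpr fun h0 => ha.2 (hz a ha.1 h0), fun x hx => hmin hx⟩
  set τ := min (min ε (η / 2)) (min ε₁ ε₂) with hτdef
  have hτ : 0 < τ := lt_min (lt_min hε (half_pos hη)) (lt_min hε₁ hε₂)
  have t1 : τ ≤ ε := (min_le_left _ _).trans (min_le_left _ _)
  have t2 : τ ≤ η / 2 := (min_le_left _ _).trans (min_le_right _ _)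
  have t3 : τ ≤ ε₁ := (min_le_right _ _).trans (min_le_left _ _)
  have t4 : τ ≤ ε₂ := (min_le_right _ _).trans (min_le_right _ _)
  obtain ⟨f', hf', hd⟩ := exists_smooth_close h.cont hτ
  obtain ⟨φ, hφ, hφs, hφp⟩ := exists_bump (d := d) hτ
  have e := he f' hf' (fun x _ => (hd x).trans_le t1) φ hφ fun y hy => (hφs y hy).trans_le t1
  have e₁ := he₁ f' hf' (fun x _ => (hd x).trans_le t3) φ hφ fun y hy => (hφs y hy).trans_le t3
  have e₂ := he₂ f' hf' (fun x _ => (hd x).trans_le t4) φ hφ fun y hy => (hφs y hy).trans_le t4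
  have hJ : Continuous fun x => φ (f' x) * jac f' x :=
    (hφ.comp hf'.continuous).mul
      (ContinuousLinearMap.continuous_det.comp (hf'.continuous_fderiv one_ne_zero))
  have hi : IntegrableOn (fun x => φ (f' x) * jac f' x) W :=
    (hJ.continuousOn.integrableOn_compact h.bdd.isCompact_closure).mono_set subset_closure
  have hsplit : pull f' W φ = pull f' W₁ φ + pull f' W₂ φ := by
    simp only [pull]
    rw [← setIntegral_union hdis h₂.measurableSet (hi.mono_set hs₁) (hi.mono_set hs₂)]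
    refine setIntegral_eq_of_subset_of_forall_sdiff_eq_zero h.op.measurableSet
      (union_subset hs₁ hs₂) fun x hx => ?_
    by_contra h0
    have h1 := hφs _ (left_ne_zero_of_mul h0)
    have := hη' x ⟨subset_closure hx.1, hx.2⟩
    linarith [norm_sub_norm_le (f x) (f' x), norm_sub_rev (f' x) (f x), hd x]
  rw [e, e₁, e₂, ← add_mul] at hsplit
  exact_mod_cast mul_right_cancel₀ hφp.ne' hsplit

theorem deg_empty {f : Vec d → Vec d} (hf : Continuous f) : deg f ∅ = 0 :=
  deg_eq hf ⟨1, one_pos, fun f' _ _ φ _ _ => by simp [pull]⟩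

theorem deg_excise {f : Vec d → Vec d} {W W₁ : Set (Vec d)} (h : Adm f W) (h₁ : IsOpen W₁)
    (hs₁ : W₁ ⊆ W) (hz : ∀ x ∈ closure W, f x = 0 → x ∈ W₁) : deg f W = deg f W₁ := by
  have := deg_add h h₁ isOpen_empty hs₁ (empty_subset W) (disjoint_empty W₁)
    fun x hx h0 => Or.inl (hz x hx h0)
  rwa [deg_empty h.cont, add_zero] at this

theorem deg_zero {f : Vec d → Vec d} {W : Set (Vec d)} (h : Adm f W)
    (hz : ∀ x ∈ closure W, f x ≠ 0) : deg f W = 0 := by
  rw [deg_excise h isOpen_empty (empty_subset W) fun x hx h0 => absurd h0 (hz x hx),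
    deg_empty h.cont]

/-- Composition with a continuous map equal to the identity far away. -/
theorem deg_comp {f G : Vec d → Vec d} {W : Set (Vec d)} (h : Adm f W) (hG : Continuous G) {R : ℝ}
    (hid : ∀ x, R < ‖x‖ → G x = x) : deg (f ∘ G) (G ⁻¹' W) = deg f W := by
  have hW' : IsOpen (G ⁻¹' W) := h.op.preimage hG
  obtain ⟨RW, hRW⟩ := h.bdd.subset_closedBall 0
  have hb' : Bornology.IsBounded (G ⁻¹' W) := by
    refine (isBounded_closedBall (x := (0 : Vec d)) (r := max R RW)).subset fun x hx => ?_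
    rw [mem_closedBall, dist_zero_right]
    by_contra hlt
    rw [not_le, max_lt_iff] at hlt
    have := hRW hx
    rw [hid x hlt.1, mem_closedBall, dist_zero_right] at this
    linarith [hlt.2]
  have hA' : Adm (f ∘ G) (G ⁻¹' W) := ⟨hW', hb', h.cont.comp hG, fun x hx hxW =>
    h.ne (G x) (hG.closure_preimage_subset W hx) hxW⟩
  obtain ⟨ε, hε, he⟩ := h.isDeg
  obtain ⟨ε', hε', he'⟩ := hA'.isDeg
  obtain ⟨ε₀, hε₀, hm⟩ := h.margin
  set a := min (min ε ε') ε₀ / 4 with hadef
  have ha : 0 < a := by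
    have : 0 < min (min ε ε') ε₀ := lt_min (lt_min hε hε') hε₀
    positivity
  have a1 : 4 * a ≤ ε := by
    linarith [min_le_left (min ε ε') ε₀, min_le_left ε ε']
  have a2 : 4 * a ≤ ε' := by
    linarith [min_le_left (min ε ε') ε₀, min_le_right ε ε']
  have a3 : 4 * a ≤ ε₀ := by linarith [min_le_right (min ε ε') ε₀]
  set K₁ := closure W ∩ (fun y => ‖f y‖) ⁻¹' Iic (3 * a)
  have hK₁ : IsCompact K₁ := h.bdd.isCompact_closure.inter_right
    (isClosed_Iic.preimage h.cont.norm)
  obtain ⟨τ₁, hτ₁, hτ₁'⟩ := hK₁.exists_thickening_subset_open h.op fun y hy =>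
    hm y hy.1 (lt_of_le_of_lt hy.2 (by linarith))
  obtain ⟨τ₂, hτ₂, hτ₂'⟩ := Metric.uniformContinuousOn_iff.mp
    ((h.bdd.isCompact_closure.cthickening (r := 1)).uniformContinuousOn_of_continuous
      h.cont.continuousOn) a ha
  set τ := min (min τ₁ τ₂) 1 with hτdef
  have hτ : 0 < τ := lt_min (lt_min hτ₁ hτ₂) one_pos
  obtain ⟨G', hG', hG'id, hG'd⟩ := exists_smooth_near hG hid hτ
  obtain ⟨f', hf', hd⟩ := exists_smooth_close h.cont ha
  obtain ⟨φ, hφ, hφs, hφp⟩ := exists_bump (d := d) ha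
  have e := he f' hf' (fun x _ => by linarith [hd x]) φ hφ fun y hy => by linarith [hφs y hy]
  set g : Vec d → ℝ := fun y => φ (f' y) * jac f' y
  have hgc : Continuous g := (hφ.comp hf'.continuous).mul
    (ContinuousLinearMap.continuous_det.comp (hf'.continuous_fderiv one_ne_zero))
  have hsmall : ∀ y, φ (f' y) ≠ 0 → ‖f y‖ < 2 * a := fun y hy => by
    linarith [norm_sub_norm_le (f y) (f' y), norm_sub_rev (f' y) (f y), hd y, hφs _ hy]
  set ψ : Vec d → ℝ := W.indicator g
  have hψc : Continuous ψ := by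
    refine continuous_indicator (fun x hx => ?_) hgc.continuousOn
    by_contra h0
    have hxW : x ∈ W := hm x hx.1 (by linarith [hsmall x (left_ne_zero_of_mul h0)])
    exact hx.2 (h.op.interior_eq.symm ▸ hxW)
  have hψs : HasCompactSupport ψ := HasCompactSupport.intro h.bdd.isCompact_closure fun x hx =>
    indicator_of_notMem (fun hxW => hx (subset_closure hxW)) _
  have key := integral_comp_mul_jac hG' hG'id hψc hψs
  rw [integral_indicator h.op.measurableSet, show (∫ x in W, g x) = pull f' W φ from rfl, e] at key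
  have hnear : ∀ x, φ (f' (G' x)) ≠ 0 → G' x ∈ W → G x ∈ W := by
    intro x hx hxW
    exact hτ₁' (mem_thickening_iff.mpr ⟨G' x, ⟨subset_closure hxW, show ‖f (G' x)‖ ≤ 3 * a by linarith [hsmall _ hx]⟩,
      (dist_comm (G x) (G' x)).trans_lt ((hG'd x).trans_le
        ((min_le_left _ _).trans (min_le_left _ _)))⟩)
  have hnear' : ∀ x, φ (f' (G' x)) ≠ 0 → G x ∈ W → G' x ∈ W := by
    intro x hx hxW
    have h1 : G x ∈ cthickening 1 (closure W) :=
      self_subset_cthickening _ (subset_closure hxW)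
    have hd' : dist (G' x) (G x) < τ₂ :=
      (hG'd x).trans_le ((min_le_left _ _).trans (min_le_right _ _))
    have h2 : G' x ∈ cthickening 1 (closure W) :=
      mem_cthickening_of_dist_le _ _ _ _ (subset_closure hxW)
        ((hG'd x).le.trans (min_le_right _ _))
    have h3 := hτ₂' _ h2 _ h1 hd'
    rw [dist_eq_norm, norm_sub_rev] at h3
    exact hτ₁' (mem_thickening_iff.mpr ⟨G x, ⟨subset_closure hxW, show ‖f (G x)‖ ≤ 3 * a by
      linarith [norm_sub_norm_le (f (G x)) (f (G' x)), hsmall _ hx]⟩,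
      (hG'd x).trans_le ((min_le_left _ _).trans (min_le_left _ _))⟩)
  have hcl : ∀ x ∈ closure (G ⁻¹' W), ‖f' (G' x) - (f ∘ G) x‖ < ε' := by
    intro x hx
    have hGx := hG.closure_preimage_subset W hx
    have h2 : G' x ∈ cthickening 1 (closure W) :=
      mem_cthickening_of_dist_le _ _ _ _ hGx ((hG'd x).le.trans (min_le_right _ _))
    have h3 := hτ₂' _ h2 _ (self_subset_cthickening _ hGx)
      ((hG'd x).trans_le ((min_le_left _ _).trans (min_le_right _ _)))
    rw [dist_eq_norm] at h3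
    have : f' (G' x) - f (G x) = (f' (G' x) - f (G' x)) + (f (G' x) - f (G x)) := by abel
    rw [Function.comp_apply, this]
    linarith [norm_add_le (f' (G' x) - f (G' x)) (f (G' x) - f (G x)), hd (G' x)]
  have e' := he' (f' ∘ G') (hf'.comp hG') hcl φ hφ fun y hy => by linarith [hφs y hy]
  have hpt : ∀ x, ψ (G' x) * jac G' x =
      (G ⁻¹' W).indicator (fun x => φ ((f' ∘ G') x) * jac (f' ∘ G') x) x := by
    intro x
    have hj : jac (f' ∘ G') x = jac f' (G' x) * jac G' x := by
      simp only [jac, fderiv_comp x (hf'.differentiable one_ne_zero _)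
        (hG'.differentiable one_ne_zero _)]
      exact LinearMap.det_comp _ _
    by_cases h0 : φ (f' (G' x)) = 0
    · rw [show ψ (G' x) = 0 from indicator_apply_eq_zero.mpr fun _ => by simp [g, h0], zero_mul]
      exact (indicator_apply_eq_zero.mpr fun _ => by simp [h0]).symm
    · by_cases hW : G x ∈ W
      · rw [indicator_of_mem (show x ∈ G ⁻¹' W from hW), show ψ (G' x) = g (G' x) from
          indicator_of_mem (hnear' x h0 hW) _, hj]
        simp only [g, Function.comp_apply]; ring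
      · rw [indicator_of_notMem (show x ∉ G ⁻¹' W from hW), show ψ (G' x) = 0 from
          indicator_of_notMem (fun h => hW (hnear x h0 h)) _, zero_mul]
  simp only [hpt] at key
  rw [integral_indicator hW'.measurableSet] at key
  exact_mod_cast mul_right_cancel₀ hφp.ne' (e'.symm.trans key)

/-- Change of variables by an injective orientation preserving smooth map. -/
theorem deg_comp_inj {f Ψ : Vec d → Vec d} {W W' : Set (Vec d)} (h : Adm f W) (hΨ : ContDiff ℝ 1 Ψ)
    (hW' : Adm (f ∘ Ψ) W') (hinj : InjOn Ψ W') (hpos : ∀ x ∈ W', 0 < jac Ψ x)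
    (himg : Ψ '' W' = W) : deg (f ∘ Ψ) W' = deg f W := by
  obtain ⟨ε, hε, he⟩ := h.isDeg
  obtain ⟨ε', hε', he'⟩ := hW'.isDeg
  obtain ⟨f', hf', hd⟩ := exists_smooth_close h.cont (lt_min hε hε')
  obtain ⟨φ, hφ, hφs, hφp⟩ := exists_bump (d := d) (lt_min hε hε')
  have e := he f' hf' (fun x _ => (hd x).trans_le (min_le_left _ _)) φ hφ fun y hy =>
    (hφs y hy).trans_le (min_le_left _ _)
  have e' := he' (f' ∘ Ψ) (hf'.comp hΨ)
    (fun x _ => (hd (Ψ x)).trans_le (min_le_right _ _)) φ hφ fun y hy =>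
    (hφs y hy).trans_le (min_le_right _ _)
  have h1 := integral_image_eq_integral_abs_det_fderiv_smul volume hW'.op.measurableSet
    (fun x _ => ((hΨ.differentiable one_ne_zero x).hasFDerivAt).hasFDerivWithinAt) hinj
    (fun y => φ (f' y) * jac f' y)
  rw [himg, show (∫ x in W, φ (f' x) * jac f' x) = pull f' W φ from rfl, e] at h1
  have h2 : (∫ x in W', |(fderiv ℝ Ψ x).det| • (φ (f' (Ψ x)) * jac f' (Ψ x))) =
      pull (f' ∘ Ψ) W' φ := by
    refine setIntegral_congr_fun hW'.op.measurableSet fun x hx => ?_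
    have hj : jac (f' ∘ Ψ) x = jac f' (Ψ x) * jac Ψ x := by
      simp only [jac, fderiv_comp x (hf'.differentiable one_ne_zero _)
        (hΨ.differentiable one_ne_zero _)]
      exact LinearMap.det_comp _ _
    show |jac Ψ x| • _ = _
    rw [abs_of_pos (hpos x hx), hj, smul_eq_mul, Function.comp_apply]
    ring
  rw [h2, e'] at h1
  exact_mod_cast mul_right_cancel₀ hφp.ne' h1.symm

/-- The identity has degree one. -/
theorem deg_id {W : Set (Vec d)} (hW : IsOpen W) (h0 : (0 : Vec d) ∈ W)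
    (hb : Bornology.IsBounded W) : deg id W = 1 := by
  obtain ⟨r, hr, hrW⟩ := Metric.isOpen_iff.mp hW 0 h0
  refine deg_eq continuous_id ⟨r / 3, by positivity, fun f' hf' hd φ hφ hφs => ?_⟩
  rw [← pull_congr contDiff_id hf' hW hb (fun x hx t ht hle => hrW ?_) hφ hφs]
  · have hz : ∀ x, x ∉ W → φ x = 0 := fun x hx => by
      by_contra h
      exact hx (hrW (by rw [mem_ball, dist_zero_right]; linarith [hφs x h]))
    simp only [pull, jac, id_eq, fderiv_id, ContinuousLinearMap.det,
      ContinuousLinearMap.coe_id, LinearMap.det_id, mul_one, Int.cast_one, one_mul]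
    exact setIntegral_eq_integral_of_forall_compl_eq_zero hz
  · rw [mem_ball, dist_zero_right]
    have h1 := hd x hx
    simp only [id_eq] at hle h1
    have h2 : ‖t • (f' x - x)‖ ≤ ‖f' x - x‖ := by
      rw [norm_smul, Real.norm_of_nonneg ht.1]
      exact mul_le_of_le_one_left (norm_nonneg _) ht.2
    linarith [norm_le_add_norm_add x (t • (f' x - x))]

end Vale.Agent.P228.Two
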