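import Vale.Agent.P228.Two.Avg
import Vale.Agent.P228.Two.Coord

/-! Equivariant functions on a fibre: maps controlled by orbit averages, an equivariant function not
vanishing at a given unfixed point, and a combination not vanishing on a whole thin fibre. -/

open MeasureTheory Set Metric Filter Topology
open scoped BigOperators Real

namespace Vale.Agent.P228.Act

variable {n : ℕ} {p : ℕ} [Fact p.Prime] {ρ : ℤ_[p] → Vec n → Vec n} {K : Set (Vec n)}

theorem exists_small_displacement (A : Act ρ K) {ε : ℝ} (hε : 0 < ε) :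
    ∃ k : ℕ, ∀ t, ∀ x ∈ K, ‖ρ ((p : ℤ_[p]) ^ k * t) x - x‖ ≤ ε := by
  obtain ⟨δ, hδ, h⟩ := Metric.uniformContinuousOn_iff.mp
    ((isCompact_univ.prod A.cpt).uniformContinuousOn_of_continuous A.cont) ε hε
  obtain ⟨k, hk⟩ := exists_pow_lt_of_lt_one hδ (show (p : ℝ)⁻¹ < 1 from
    inv_lt_one_of_one_lt₀ (by exact_mod_cast (Fact.out : p.Prime).one_lt))
  refine ⟨k, fun t x hx => ?_⟩
  have h1 : dist ((p : ℤ_[p]) ^ k * t) 0 < δ := by
    rw [dist_zero_right, norm_mul, norm_pow, PadicInt.norm_p]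
    exact lt_of_le_of_lt (mul_le_of_le_one_right (by positivity) (PadicInt.norm_le_one t)) hk
  have h2 := h ((p : ℤ_[p]) ^ k * t, x) ⟨mem_univ _, hx⟩ (0, x) ⟨mem_univ _, hx⟩
    (by simpa [Prod.dist_eq, hδ] using h1)
  rw [A.zero x hx, dist_eq_norm] at h2
  exact h2.le

end Vale.Agent.P228.Act

namespace Vale.Agent.P228.Two

variable {n : ℕ} {p : ℕ} [Fact p.Prime]

/-- `φ` is controlled by the average displacement of orbits. -/
def OrbLip (ρ : ℤ_[p] → Vec n → Vec n) (K : Set (Vec n)) {Y : Type*} [PseudoMetricSpace Y]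
    (φ : Vec n → Y) (C : ℝ) : Prop :=
  0 ≤ C ∧ ∀ x ∈ K, ∀ y ∈ K, dist (φ x) (φ y) ≤ C * avgd ρ x y

variable {ρ : ℤ_[p] → Vec n → Vec n} {K : Set (Vec n)}

lemma OrbLip.continuousOn {Y : Type*} [PseudoMetricSpace Y] {φ : Vec n → Y} {C : ℝ}
    (A : Act ρ K) (h : OrbLip ρ K φ C) : ContinuousOn φ K :=
  A.continuousOn_of_orbit_lip h.1 fun x hx y hy _ hd =>
    (h.2 x hx y hy).trans (mul_le_mul_of_nonneg_left (A.avgd_le hx hy hd) h.1)

lemma OrbLip.const {Y : Type*} [PseudoMetricSpace Y] (c : Y) :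
    OrbLip ρ K (fun _ => c) 0 := ⟨le_rfl, fun _ _ _ _ => by simp⟩

lemma OrbLip.add {E : Type*} [SeminormedAddCommGroup E] {φ ψ : Vec n → E} {C C' : ℝ}
    (h : OrbLip ρ K φ C) (h' : OrbLip ρ K ψ C') : OrbLip ρ K (fun y => φ y + ψ y) (C + C') :=
  ⟨add_nonneg h.1 h'.1, fun x hx y hy => (dist_add_add_le _ _ _ _).trans (by
    rw [add_mul]; exact add_le_add (h.2 x hx y hy) (h'.2 x hx y hy))⟩

lemma OrbLip.comp {Y Z : Type*} [PseudoMetricSpace Y] [PseudoMetricSpace Z] {φ : Vec n → Y} {C : ℝ}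
    (h : OrbLip ρ K φ C) {u : Y → Z} {L : ℝ} (hL : 0 ≤ L) (hu : ∀ a b, dist (u a) (u b) ≤ L * dist a b) :
    OrbLip ρ K (fun y => u (φ y)) (L * C) :=
  ⟨mul_nonneg hL h.1, fun x hx y hy => (hu _ _).trans (by
    rw [mul_assoc]; exact mul_le_mul_of_nonneg_left (h.2 x hx y hy) hL)⟩

lemma OrbLip.smul_const {φ : Vec n → ℝ} {C : ℝ} (h : OrbLip ρ K φ C) (c : ℂ) :
    OrbLip ρ K (fun y => (φ y : ℂ) * c) (‖c‖ * C) :=
  h.comp (norm_nonneg c) (u := fun t : ℝ => (t : ℂ) * c) fun a b => by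
    rw [dist_eq_norm, dist_eq_norm, ← sub_mul, ← Complex.ofReal_sub, norm_mul, mul_comm,
      Complex.norm_real]

lemma OrbLip.sum {E : Type*} [SeminormedAddCommGroup E] {ι : Type*} (s : Finset ι)
    {φ : ι → Vec n → E} {C : ι → ℝ} (h : ∀ i ∈ s, OrbLip ρ K (φ i) (C i)) :
    OrbLip ρ K (fun y => ∑ i ∈ s, φ i y) (∑ i ∈ s, C i) := by
  classical
  induction s using Finset.induction_on with
  | empty => simpa using OrbLip.const (ρ := ρ) (K := K) (0 : E)
  | insert a s ha ih =>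
    simp only [Finset.sum_insert ha]
    exact (h a (Finset.mem_insert_self a s)).add (ih fun i hi => h i (Finset.mem_insert_of_mem hi))

lemma OrbLip.mul_bdd (A : Act ρ K) {φ ψ : Vec n → ℂ} {C C' : ℝ} (h : OrbLip ρ K φ C)
    (h' : OrbLip ρ K ψ C') : ∃ C'', OrbLip ρ K (fun y => φ y * ψ y) C'' := by
  obtain ⟨B, hB⟩ := (A.cpt.image_of_continuousOn (h.continuousOn A)).isBounded.subset_closedBall 0
  obtain ⟨B', hB'⟩ := (A.cpt.image_of_continuousOn (h'.continuousOn A)).isBounded.subset_closedBall 0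
  refine ⟨max B 0 * C' + max B' 0 * C,
    add_nonneg (mul_nonneg (le_max_right _ _) h'.1) (mul_nonneg (le_max_right _ _) h.1),
    fun x hx y hy => ?_⟩
  have b1 : ‖φ x‖ ≤ max B 0 :=
    (mem_closedBall_zero_iff.mp (hB ⟨x, hx, rfl⟩)).trans (le_max_left _ _)
  have b2 : ‖ψ y‖ ≤ max B' 0 :=
    (mem_closedBall_zero_iff.mp (hB' ⟨y, hy, rfl⟩)).trans (le_max_left _ _)
  set d := avgd ρ x y
  have d1 := h.2 x hx y hy
  have d2 := h'.2 x hx y hy
  rw [dist_eq_norm] at d1 d2 ⊢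
  have e : φ x * ψ x - φ y * ψ y = φ x * (ψ x - ψ y) + (φ x - φ y) * ψ y := by ring
  calc ‖φ x * ψ x - φ y * ψ y‖ ≤ ‖φ x‖ * ‖ψ x - ψ y‖ + ‖φ x - φ y‖ * ‖ψ y‖ := by
        rw [e]; exact (norm_add_le _ _).trans (by rw [norm_mul, norm_mul])
    _ ≤ max B 0 * (C' * d) + (C * d) * max B' 0 := add_le_add
        (mul_le_mul b1 d2 (norm_nonneg _) (le_max_right _ _))
        (mul_le_mul d1 b2 (norm_nonneg _) ((norm_nonneg _).trans d1))
    _ = _ := by ring

/-- The regularised inverse. -/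
noncomputable def rinv (η : ℝ) (w : ℂ) : ℂ :=
  starRingEnd ℂ w * ((max (‖w‖ ^ 2) (η ^ 2))⁻¹ : ℝ)

lemma rinv_lip {η : ℝ} (hη : 0 < η) (a b : ℂ) :
    dist (rinv η a) (rinv η b) ≤ 3 / η ^ 2 * dist a b := by
  set A := max (‖a‖ ^ 2) (η ^ 2)
  set B := max (‖b‖ ^ 2) (η ^ 2)
  have hA : η ^ 2 ≤ A := le_max_right _ _
  have hB : η ^ 2 ≤ B := le_max_right _ _
  have hη2 : 0 < η ^ 2 := by positivity
  have hA0 : 0 < A := hη2.trans_le hA
  have hB0 : 0 < B := hη2.trans_le hB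
  have hAB : |A - B| ≤ (‖a‖ + ‖b‖) * ‖a - b‖ := by
    refine (abs_max_sub_max_le_max _ _ _ _).trans ?_
    rw [sub_self, abs_zero, max_eq_left (abs_nonneg _)]
    rw [show ‖a‖ ^ 2 - ‖b‖ ^ 2 = (‖a‖ + ‖b‖) * (‖a‖ - ‖b‖) by ring, abs_mul,
      abs_of_nonneg (by positivity)]
    exact mul_le_mul_of_nonneg_left (abs_norm_sub_norm_le a b) (by positivity)
  have hsmall : ∀ c : ℂ, ‖c‖ * η ≤ max (‖c‖ ^ 2) (η ^ 2) := fun c => by
    rcases le_total η ‖c‖ with h | h
    · exact le_trans (by nlinarith [norm_nonneg c]) (le_max_left _ _)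
    · exact le_trans (by nlinarith) (le_max_right _ _)
  have e : rinv η a - rinv η b = (starRingEnd ℂ a - starRingEnd ℂ b) * ((A⁻¹ : ℝ) : ℂ) +
      starRingEnd ℂ b * ((A⁻¹ - B⁻¹ : ℝ) : ℂ) := by simp [rinv, A, B]; ring
  rw [dist_eq_norm, dist_eq_norm, e]
  refine (norm_add_le _ _).trans ?_
  rw [norm_mul, norm_mul, ← map_sub, RCLike.norm_conj, RCLike.norm_conj, Complex.norm_real,
    Complex.norm_real, Real.norm_eq_abs, Real.norm_eq_abs, abs_inv, abs_of_pos hA0]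
  have h1 : ‖a - b‖ * A⁻¹ ≤ 1 / η ^ 2 * ‖a - b‖ := by
    rw [mul_comm, one_div]
    exact mul_le_mul_of_nonneg_right ((inv_le_inv₀ hA0 hη2).mpr hA) (norm_nonneg _)
  have h2 : ‖b‖ * |A⁻¹ - B⁻¹| ≤ 2 / η ^ 2 * ‖a - b‖ := by
    rw [inv_sub_inv hA0.ne' hB0.ne', abs_div, abs_of_pos (mul_pos hA0 hB0), abs_sub_comm,
      ← mul_div_assoc, div_le_iff₀ (mul_pos hA0 hB0)]
    refine (mul_le_mul_of_nonneg_left hAB (norm_nonneg b)).trans ?_
    have k1 : ‖b‖ * (‖a‖ + ‖b‖) * η ^ 2 ≤ 2 * (A * B) := by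
      have i1 : (‖b‖ * η) * (‖a‖ * η) ≤ B * A :=
        mul_le_mul (hsmall b) (hsmall a) (by positivity) hB0.le
      have i2 : ‖b‖ ^ 2 * η ^ 2 ≤ B * A := mul_le_mul (le_max_left _ _) hA hη2.le hB0.le
      nlinarith
    rw [div_mul_eq_mul_div, div_mul_eq_mul_div, le_div_iff₀ hη2]
    nlinarith [mul_le_mul_of_nonneg_right k1 (norm_nonneg (a - b))]
  calc _ ≤ 1 / η ^ 2 * ‖a - b‖ + 2 / η ^ 2 * ‖a - b‖ := add_le_add h1 h2
    _ = _ := by ring

/-- The primitive root of unity. -/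
noncomputable def root (p : ℕ) : ℂ := Complex.exp ((2 * π / p : ℝ) * Complex.I)

lemma root_pow (p : ℕ) [NeZero p] : root p ^ p = 1 := by
  rw [root, ← Complex.exp_nat_mul, ← mul_assoc, ← Complex.ofReal_natCast, ← Complex.ofReal_mul,
    mul_div_cancel₀ _ (Nat.cast_ne_zero.mpr (NeZero.ne p)), Complex.ofReal_mul]
  simp

/-- An equivariant averaged function, nonzero at an unfixed point. -/
theorem exists_equivariant (A : Act ρ K) {x : Vec n} (hx : x ∈ K) (hne : ∃ g, ρ g x ≠ x) :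
    ∃ θ : Vec n → ℂ, ∃ C, OrbLip ρ K θ C ∧ (∀ y ∈ K, θ (ρ 1 y) = root p * θ y) ∧ θ x ≠ 0 := by
  classical
  have : NeZero p := ⟨(Fact.out : p.Prime).ne_zero⟩
  have hroot : root p ≠ 0 := Complex.exp_ne_zero _
  -- the unit cosets keep away from `x`
  obtain ⟨r, hr, hrj⟩ : ∃ r : ℝ, 0 < r ∧ ∀ g, lab g ≠ 0 → r ≤ ‖ρ g x - x‖ := by
    have hc : IsCompact {g : ℤ_[p] | lab g ≠ 0} :=
      (lab_isOpen (p := p)).isClosed_compl.isCompact
    have hne1 : {g : ℤ_[p] | lab g ≠ 0}.Nonempty := ⟨1, by simp [lab]⟩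
    obtain ⟨g, hg, hmin⟩ := hc.exists_isMinOn hne1
      (((A.cont_orbit hx).sub continuous_const).norm.continuousOn (s := _) :
        ContinuousOn (fun g => ‖ρ g x - x‖) _)
    refine ⟨_, norm_pos_iff.mpr fun h0 => hg ?_, fun h hh => hmin hh⟩
    have := A.lab_eq_of_eq hx hx hne (sub_eq_zero.mp h0) (A.zero x hx)
    rw [this]; simp [lab]
  let χ : ZMod p → ℂ := fun j => (root p ^ j.val)⁻¹
  have hχ : ∀ j, χ j = root p * χ (j + 1) := by
    intro j
    have e : root p ^ (j + 1).val = root p ^ (j.val + 1) := by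
      rw [ZMod.val_add, ZMod.val_one_eq_one_mod, Nat.add_mod_mod]
      exact (pow_eq_pow_mod (j.val + 1) (root_pow p)).symm
    simp only [χ]
    rw [e, pow_succ, mul_inv, mul_left_comm, mul_inv_cancel₀ hroot, mul_one]
  have hχc : Continuous fun g : ℤ_[p] => χ (lab g) := by
    refine (IsLocallyConstant.comp (f := fun g : ℤ_[p] => lab g) ?_ χ).continuous
    refine (IsLocallyConstant.iff_exists_open _).mpr fun g => ⟨{h | lab h = lab g}, ?_, rfl,
      fun h hh => hh⟩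
    have e : {h : ℤ_[p] | lab h = lab g} = (fun h => h - g) ⁻¹' {h | lab h = 0} := by
      ext h; simp [lab, map_sub, sub_eq_zero]
    rw [e]
    exact lab_isOpen.preimage (continuous_id.sub continuous_const)
  have hχn : ∀ j, ‖χ j‖ = 1 := fun j => by
    simp only [χ, norm_inv, norm_pow]
    rw [root, Complex.norm_exp_ofReal_mul_I, one_pow, inv_one]
  let b : Vec n → ℝ := fun w => max 0 (r - ‖w - x‖)
  have hb : ∀ w w', |b w - b w'| ≤ ‖w - w'‖ := fun w w' => by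
    refine (abs_max_sub_max_le_max _ _ _ _).trans (max_le (by simp) ?_)
    rw [sub_sub_sub_cancel_left, abs_sub_comm]
    refine (abs_norm_sub_norm_le _ _).trans_eq ?_
    rw [sub_sub_sub_cancel_right]
  have hbc : Continuous b := by fun_prop
  let F : Vec n → ℤ_[p] → ℂ := fun y g => χ (lab g) * (b (ρ g y) : ℂ)
  have hFc : ∀ y ∈ K, Continuous (F y) := fun y hy =>
    hχc.mul (Complex.continuous_ofReal.comp (hbc.comp (A.cont_orbit hy)))
  refine ⟨fun y => ∫ g, F y g ∂haarP p, 1, ⟨zero_le_one, fun u hu w hw => ?_⟩, fun y hy => ?_, ?_⟩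
  · rw [one_mul, dist_eq_norm, ← integral_sub (integrable_haarP (hFc u hu))
      (integrable_haarP (hFc w hw))]
    refine (norm_integral_le_integral_norm _).trans (integral_mono
      (integrable_haarP ((hFc u hu).sub (hFc w hw)).norm)
      (integrable_haarP ((A.cont_orbit hu).sub (A.cont_orbit hw)).norm) fun g => ?_)
    simp only [F]
    rw [← mul_sub, norm_mul, hχn, one_mul, ← Complex.ofReal_sub, Complex.norm_real,
      Real.norm_eq_abs]
    exact hb _ _
  · show ∫ g, F (ρ 1 y) g ∂haarP p = root p * ∫ g, F y g ∂haarP p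
    rw [← integral_const_mul, ← integral_add_right_eq_self (fun g => root p * F y g) (1 : ℤ_[p])]
    refine integral_congr_ae (Eventually.of_forall fun g => ?_)
    simp only [F, lab, map_add, map_one, A.add g 1 y hy]
    rw [hχ]
    ring
  · have e : F x = fun g => ((b (ρ g x) : ℝ) : ℂ) := by
      funext g
      by_cases hg : lab g = 0
      · simp [F, χ, hg]
      · simp [F, b, max_eq_left (show r - ‖ρ g x - x‖ ≤ 0 by linarith [hrj g hg])]
    show ∫ g, F x g ∂haarP p ≠ 0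
    rw [e]
    show ∫ g, ((b (ρ g x) : ℝ) : ℂ) ∂haarP p ≠ 0
    rw [integral_complex_ofReal]
    refine Complex.ofReal_ne_zero.mpr (ne_of_gt ?_)
    refine (hbc.comp (A.cont_orbit hx)).integral_pos_of_hasCompactSupport_nonneg_nonzero
      (HasCompactSupport.of_compactSpace _) (fun g => le_max_left _ _) (x := 0) ?_
    simp [b, A.zero x hx, max_eq_right hr.le, hr.ne']

/-- The plane as `Vec 2`. -/
noncomputable def c2v (w : ℂ) : Vec 2 := ![w.re, w.im]

/-- A nowhere zero equivariant function on a thin fibre without fixed points. -/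
theorem exists_nonvanishing (A : Act ρ K) {P : Set (Vec n)} (hP : IsCompact P) (hPK : P ⊆ K)
    (hfree : ∀ x ∈ P, ∃ g, ρ g x ≠ x)
    (hnull : ∀ (Φ : Vec n → Vec 2) C, OrbLip ρ K Φ C → volume (Φ '' P) = 0) :
    ∃ θ : Vec n → ℂ, ∃ C, OrbLip ρ K θ C ∧ (∀ y ∈ K, θ (ρ 1 y) = root p * θ y) ∧
      ∀ x ∈ P, θ x ≠ 0 := by
  classical
  choose! θ C hlip heq hne using fun x hx => exists_equivariant A (hPK hx) (hfree x hx)
  obtain ⟨s, hsP, hcov⟩ := hP.elim_nhdsWithin_subcover (fun x => {y | θ x y ≠ 0}) fun x hx =>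
    (((hlip x hx).continuousOn A).mono hPK x hx).eventually_ne (hne x hx)
  suffices h : ∀ s : Finset (Vec n), (∀ x ∈ s, x ∈ P) → ∃ φ : Vec n → ℂ, ∃ C, OrbLip ρ K φ C ∧
      (∀ y ∈ K, φ (ρ 1 y) = root p * φ y) ∧ ∀ y ∈ P, (∃ x ∈ s, θ x y ≠ 0) → φ y ≠ 0 by
    obtain ⟨φ, Cφ, h1, h2, h3⟩ := h s hsP
    refine ⟨φ, Cφ, h1, h2, fun y hy => h3 y hy ?_⟩
    obtain ⟨x, hx, hy'⟩ := mem_iUnion₂.mp (hcov hy)
    exact ⟨x, hx, hy'⟩
  intro s
  induction s using Finset.induction_on with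
  | empty => exact fun _ => ⟨fun _ => 0, 0, OrbLip.const 0, by simp, by simp⟩
  | insert a s ha ih =>
    intro hs
    obtain ⟨φ, Cφ, h1, h2, h3⟩ := ih fun x hx => hs x (Finset.mem_insert_of_mem hx)
    have haP := hs a (Finset.mem_insert_self a s)
    have hbad : volume (⋃ m : ℕ,
        (fun y => c2v (-φ y * rinv (1 / (m + 1)) (θ a y))) '' P) = 0 := by
      refine measure_iUnion_null fun m => ?_
      have hη : (0:ℝ) < 1 / (m + 1) := by positivity
      obtain ⟨C1, hC1⟩ := (h1.comp zero_le_one (u := fun w => -w) fun a b => by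
        rw [dist_neg_neg, one_mul]).mul_bdd A
        ((hlip a haP).comp (by positivity) (rinv_lip hη))
      refine hnull _ _ (hC1.comp zero_le_one (u := c2v) fun a b => ?_)
      rw [one_mul, dist_eq_norm, dist_eq_norm]
      refine (pi_norm_le_iff_of_nonneg (norm_nonneg _)).mpr fun l => ?_
      fin_cases l
      · simpa [c2v] using Complex.abs_re_le_norm (a - b)
      · simpa [c2v] using Complex.abs_im_le_norm (a - b)
    obtain ⟨c, hc⟩ : ∃ c : Vec 2, c ∉ ⋃ m : ℕ,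
        (fun y => c2v (-φ y * rinv (1 / (m + 1)) (θ a y))) '' P := by
      by_contra! h
      have h' : volume (univ : Set (Vec 2)) = 0 := measure_mono_null (fun c _ => h c) hbad
      exact absurd h' (isOpen_univ.measure_pos volume univ_nonempty).ne'
    set w : ℂ := ⟨c 0, c 1⟩
    obtain ⟨C', hC'⟩ : ∃ C', OrbLip ρ K (fun y => φ y + w * θ a y) C' :=
      ⟨_, h1.add ((hlip a haP).comp (norm_nonneg w) (u := fun b => w * b) fun b b' => by
        rw [dist_eq_norm, dist_eq_norm, ← mul_sub, norm_mul])⟩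
    refine ⟨_, C', hC', fun y hy => ?_, fun y hy hex => ?_⟩
    · rw [h2 y hy, heq a haP y hy]; ring
    · intro h0
      by_cases ht : θ a y = 0
      · rw [ht, mul_zero, add_zero] at h0
        obtain ⟨x, hx, hx'⟩ := hex
        rcases Finset.mem_insert.mp hx with rfl | hx
        · exact hx' ht
        · exact h3 y hy ⟨x, hx, hx'⟩ h0
      · obtain ⟨m, hm⟩ := exists_nat_one_div_lt (norm_pos_iff.mpr ht)
        refine hc (mem_iUnion.mpr ⟨m, y, hy, ?_⟩)
        have e : rinv (1 / (m + 1)) (θ a y) = (θ a y)⁻¹ := by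
          rw [rinv, max_eq_left (pow_le_pow_left₀ (by positivity) hm.le 2),
            ← Complex.normSq_eq_norm_sq, Complex.inv_def]
        have e2 : -φ y * (θ a y)⁻¹ = w := by
          rw [eq_neg_of_add_eq_zero_left h0]; field_simp
        simp only [e, e2]
        funext l; fin_cases l <;> simp [c2v, w]

end Vale.Agent.P228.Two
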