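import Vale.Agent.P228.Two.Core
import Vale.Agent.P228.Two.Equiv

/-! A fibre of an invariant map, thin in the plane, contains a fixed point. -/

open MeasureTheory Set Metric Filter Topology
open scoped BigOperators Real

namespace Vale.Agent.P228.Two

variable {n : ℕ} {p : ℕ} [Fact p.Prime]

lemma jac_eq_zero_of_invariant {d : ℕ} {Φ : Vec d → Vec d} (hΦ : ContDiff ℝ 1 Φ) (e : Vec d)
    (he : e ≠ 0) (h : ∀ v, ∀ t : ℝ, Φ (v + t • e) = Φ v) (v : Vec d) : jac Φ v = 0 := by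
  have h1 := ((hΦ.differentiable one_ne_zero v).hasFDerivAt).hasLineDerivAt e
  have h2 : HasLineDerivAt ℝ Φ (0 : Vec d) v e := by
    show HasDerivAt (fun t : ℝ => Φ (v + t • e)) 0 0
    simp only [h]
    exact hasDerivAt_const _ _
  have h3 : fderiv ℝ Φ v e = 0 := h1.unique h2
  rw [jac, ContinuousLinearMap.det]
  refine LinearMap.det_eq_zero_iff_ker_ne_bot.mpr fun hbot => he ?_
  have : e ∈ LinearMap.ker ((fderiv ℝ Φ v : Vec d →L[ℝ] Vec d) : Vec d →ₗ[ℝ] Vec d) :=
    LinearMap.mem_ker.mpr h3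
  rw [hbot] at this
  exact (Submodule.mem_bot ℝ).mp this

/-- Generic avoidance: a value `w` near zero whose `p` rays meet no point of a given smooth curve of
planes. -/
lemma exists_avoid {f : Vec n → Vec n} {θ : Vec n → ℂ} (hf : ContDiff ℝ 1 f) (hθ : ContDiff ℝ 1 θ)
    (p : ℕ) {τ : ℝ} (hτ : 0 < τ) :
    ∃ z : Vec n, ∃ w : ℂ, ‖z‖ < τ ∧ w ≠ 0 ∧
      ∀ x, f x = z → ∀ i < p, ∀ l : ℝ, root p ^ i * (l • θ x) ≠ w := by
  let e : Vec (n + 2) := jn 0 Complex.I
  have he : e ≠ 0 := fun h => Complex.I_ne_zero (jn_eq_zero.mp h).2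
  have hxe : ∀ v, ∀ t : ℝ, xp (v + t • e) = xp v := fun v t => by funext l; simp [e, xp, jn]
  have hre : ∀ v, ∀ t : ℝ, (wp (v + t • e)).re = (wp v).re := fun v t => by simp [e, wp, jn]
  let Φ : ℕ → Vec (n + 2) → Vec (n + 2) := fun i v =>
    jn (f (xp v)) (root p ^ i * ((wp v).re • θ (xp v)))
  let Ψ : Vec (n + 2) → Vec (n + 2) := fun v => jn (xp v) 0
  have hcd : ∀ i, ContDiff ℝ 1 (Φ i) := fun i => contDiff_jn (hf.comp contDiff_xp)
    (contDiff_const.mul ((Complex.reCLM.contDiff.comp contDiff_wp).smul (hθ.comp contDiff_xp)))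
  have hΨ : ContDiff ℝ 1 Ψ := contDiff_jn contDiff_xp contDiff_const
  have hnull : ∀ {Λ : Vec (n + 2) → Vec (n + 2)}, ContDiff ℝ 1 Λ →
      (∀ v, ∀ t : ℝ, Λ (v + t • e) = Λ v) → volume (range Λ) = 0 := fun {Λ} hΛ h => by
    rw [← image_univ]
    exact addHaar_image_eq_zero_of_det_fderivWithin_eq_zero volume
      (fun x _ => ((hΛ.differentiable one_ne_zero x).hasFDerivAt).hasFDerivWithinAt)
      fun x _ => jac_eq_zero_of_invariant hΛ e he h x
  have hbad : volume ((⋃ i : ℕ, range (Φ i)) ∪ range Ψ) = 0 :=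
    measure_union_null (measure_iUnion_null fun i => hnull (hcd i) fun v t => by
      simp [Φ, hxe, hre]) (hnull hΨ fun v t => by simp [Ψ, hxe])
  have hopen : IsOpen {v : Vec (n + 2) | ‖xp v‖ < τ} := isOpen_lt continuous_xp.norm continuous_const
  obtain ⟨v, hv, hvbad⟩ : ∃ v ∈ {v : Vec (n + 2) | ‖xp v‖ < τ},
      v ∉ (⋃ i : ℕ, range (Φ i)) ∪ range Ψ := by
    by_contra! h
    exact (hopen.measure_pos volume ⟨jn 0 0, by simp [hτ]⟩).ne' (measure_mono_null h hbad)
  refine ⟨xp v, wp v, hv, fun h => hvbad (Or.inr ⟨v, ?_⟩), fun x hx i _ l hl => hvbad (Or.inl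
    (mem_iUnion.mpr ⟨i, jn x (l : ℂ), ?_⟩))⟩
  · conv_rhs => rw [← jn_xp_wp v, h]
  · conv_rhs => rw [← jn_xp_wp v, ← hl, ← hx]
    simp [Φ]

/-- A small displacement and a thin fibre force a fixed point. -/
theorem exists_fixed_thin {ρ : ℤ_[p] → Vec n → Vec n} {K : Set (Vec n)} (A : Act ρ K) {v z : Vec n}
    {R R' δ m : ℝ} (hR : R < R') (hδ : δ < R) (hmR : m ≤ R) (hball : closedBall v R' ⊆ K)
    {f : Vec n → Vec n} (hfc : ContinuousOn f K) (hfinv : ∀ g, ∀ y ∈ K, f (ρ g y) = f y)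
    (hfd : ∀ y ∈ closedBall v R', ‖f y - y‖ ≤ δ) (hgd : ∀ y ∈ closedBall v R', ‖ρ 1 y - y‖ ≤ δ)
    (hfm : ∀ y, R ≤ ‖y - v‖ → ‖y - v‖ ≤ R' → m ≤ ‖f y - v‖)
    (hgm : ∀ y, R ≤ ‖y - v‖ → ‖y - v‖ ≤ R' → m ≤ ‖ρ 1 y - v‖)
    (hz : ‖z - v‖ < m) (hin : ∀ u ∈ K, f u = z → ‖u - v‖ < m)
    (hnull : ∀ (Φ : Vec n → Vec 2) C, OrbLip ρ K Φ C → volume (Φ '' {u ∈ K | f u = z}) = 0) :
    ∃ u ∈ K, f u = z ∧ ∀ g, ρ g u = u := by
  classical
  by_contra hno
  have hp : p.Prime := Fact.out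
  have : NeZero p := ⟨hp.ne_zero⟩
  set P := {u ∈ K | f u = z} with hPdef
  have hPc : IsCompact P :=
    A.cpt.of_isClosed_subset (hfc.preimage_isClosed_of_isClosed A.cpt.isClosed isClosed_singleton)
      fun u hu => hu.1
  have hPinv : ∀ g, MapsTo (ρ g) P P := fun g u hu =>
    ⟨A.maps g hu.1, by rw [hfinv g u hu.1]; exact hu.2⟩
  obtain ⟨θ₀, Cθ, hθlip, hθeq, hθne⟩ := exists_nonvanishing A hPc (fun u hu => hu.1)
    (fun x hx => by_contra fun h => hno ⟨x, hx.1, hx.2, fun g => by_contra fun hg => h ⟨g, hg⟩⟩) hnull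
  obtain ⟨θe, hθe⟩ := ContinuousMap.exists_restrict_eq A.cpt.isClosed
    ⟨fun x : K => θ₀ x, continuousOn_iff_continuous_domRestrict.mp (hθlip.continuousOn A)⟩
  have hθK : ∀ x ∈ K, θe x = θ₀ x := fun x hx => by
    have := congrArg (fun u : C(K, ℂ) => u ⟨x, hx⟩) hθe
    exact this
  -- the domain
  have hballK : closedBall v R ⊆ K := (closedBall_subset_closedBall hR.le).trans hball
  set M : Vec n → ℝ := fun y => ⨆ g, ‖ρ g y - v‖ with hMdef
  have hMb : ∀ y ∈ K, BddAbove (range fun g => ‖ρ g y - v‖) := fun y hy =>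
    (isCompact_range ((A.cont_orbit hy).sub continuous_const).norm).bddAbove
  have hMc : ContinuousOn M K := by
    refine A.continuousOn_of_orbit_lip (C := 1) zero_le_one fun x hx y hy d hd => ?_
    have hi : ∀ g, |‖ρ g x - v‖ - ‖ρ g y - v‖| ≤ d := fun g =>
      (abs_norm_sub_norm_le _ _).trans (by rw [sub_sub_sub_cancel_right]; exact hd g)
    rw [Real.dist_eq, one_mul, abs_sub_le_iff]
    constructor
    · have : M x ≤ M y + d := ciSup_le fun g => by
        linarith [(abs_le.mp (hi g)).2, le_ciSup (hMb y hy) g]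
      linarith
    · have : M y ≤ M x + d := ciSup_le fun g => by
        linarith [(abs_le.mp (hi g)).1, le_ciSup (hMb x hx) g]
      linarith
  set U := ball v R ∩ M ⁻¹' Iio R with hUdef
  have hUo : IsOpen U :=
    (hMc.mono (ball_subset_closedBall.trans hballK)).isOpen_inter_preimage isOpen_ball isOpen_Iio
  have hUb : Bornology.IsBounded U := isBounded_ball.subset inter_subset_left
  set T := closedBall v R ∩ M ⁻¹' Iic R with hTdef
  have hclT : closure U ⊆ T := closure_minimal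
    (fun y hy => ⟨ball_subset_closedBall hy.1, (le_of_lt hy.2 : M y ≤ R)⟩)
    ((hMc.mono hballK).preimage_isClosed_of_isClosed isClosed_closedBall isClosed_Iic)
  have hTorb : ∀ y ∈ T, y ∈ K ∧ ∀ g, ‖ρ g y - v‖ ≤ R := fun y hy =>
    ⟨hballK hy.1, fun g => (le_ciSup (hMb y (hballK hy.1)) g).trans hy.2⟩
  have hPU : P ⊆ U := fun y hy => by
    refine ⟨mem_ball.mpr (by rw [dist_eq_norm]; exact (hin y hy.1 hy.2).trans_le hmR), ?_⟩
    obtain ⟨g, -, hg⟩ := (isCompact_univ (X := ℤ_[p])).exists_isMaxOn univ_nonempty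
      (((A.cont_orbit hy.1).sub continuous_const (g := fun _ => v)).norm.continuousOn)
    show M y < R
    exact (ciSup_le fun h => hg (mem_univ h)).trans_lt
      (lt_of_lt_of_le (hin _ (hPinv g hy).1 (hPinv g hy).2) hmR)
  -- the two extensions
  set G := ext v R R' (ρ 1) with hGdef
  have hGc : Continuous G := continuous_ext hR hδ hgd ((A.cont_g 1).mono hball)
  have hGid : ∀ x, ‖v‖ + R' < ‖x‖ → G x = x := fun x hx => by
    have : R' < ‖x - v‖ := by linarith [norm_sub_norm_le x v]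
    rw [hGdef, ext, if_neg (by linarith), if_neg (by linarith)]
  set f₁ : Vec n → Vec n := fun y => ext v R R' f y - z with hf₁def
  have hf₁c : Continuous f₁ := (continuous_ext hR hδ hfd (hfc.mono hball)).sub continuous_const
  have hf₁out : ∀ x, ‖v‖ + R' < ‖x‖ → f₁ x = x - z := fun x hx => by
    have : R' < ‖x - v‖ := by linarith [norm_sub_norm_le x v]
    rw [hf₁def]; dsimp only
    rw [ext, if_neg (by linarith), if_neg (by linarith)]
  have hin1 : ∀ y, ‖y - v‖ ≤ R → f₁ y = f y - z ∧ G y = ρ 1 y := fun y hy => by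
    simp [hf₁def, hGdef, ext, if_pos hy]
  have hf₁zero : ∀ x, f₁ x = 0 → x ∈ P := by
    intro y hy
    rcases le_or_gt ‖y - v‖ R with h | h
    · rw [(hin1 y h).1, sub_eq_zero] at hy
      exact ⟨hballK (mem_closedBall.mpr (by rwa [dist_eq_norm])), hy⟩
    · rw [hf₁def] at hy
      dsimp only at hy
      rw [sub_eq_zero] at hy
      have := ext_norm hR hδ hfd hmR hfm h
      rw [hy] at this
      linarith
  have hTG : ∀ y ∈ T, ∀ j : ℕ, G^[j] y = ρ j y := by
    intro y hy j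
    induction j with
    | zero => simp [A.zero y (hTorb y hy).1]
    | succ j ih =>
      rw [Function.iterate_succ_apply', ih, (hin1 _ ((hTorb y hy).2 _)).2,
        ← A.add _ _ y (hTorb y hy).1, Nat.cast_succ, add_comm]
  have hGU : MapsTo G U U := by
    intro y hy
    have hyT : y ∈ T := hclT (subset_closure hy)
    have e : G y = ρ 1 y := (hin1 y (by simpa [dist_eq_norm] using mem_closedBall.mp hyT.1)).2
    have hMlt : ∀ g, ‖ρ g y - v‖ ≤ M y := fun g => le_ciSup (hMb y (hTorb y hyT).1) g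
    rw [e]
    refine ⟨mem_ball.mpr (by rw [dist_eq_norm]; exact (hMlt 1).trans_lt hy.2), ?_⟩
    show M (ρ 1 y) < R
    refine lt_of_le_of_lt (ciSup_le fun g => ?_) hy.2
    rw [← A.add _ _ y (hTorb y hyT).1]
    exact hMlt _
  -- the constants
  have hclc : IsCompact (closure U) := hUb.isCompact_closure
  obtain ⟨μ, hμ, hμP⟩ : ∃ μ > 0, ∀ x ∈ P, μ ≤ ‖θe x‖ := by
    rcases P.eq_empty_or_nonempty with he | hne
    · exact ⟨1, one_pos, by simp [he]⟩
    · obtain ⟨a, ha, hmin⟩ := hPc.exists_isMinOn hne θe.continuous.norm.continuousOn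
      exact ⟨_, norm_pos_iff.mpr (by rw [hθK a ha.1]; exact hθne a ha), fun x hx => hmin hx⟩
  obtain ⟨δ₁, hδ₁, hδ₁'⟩ : ∃ δ₁ > 0, ∀ x ∈ closure U, ‖f₁ x‖ < δ₁ → x ∈ U ∧ μ / 2 < ‖θe x‖ := by
    set B := closure U \ {x | x ∈ U ∧ μ / 2 < ‖θe x‖}
    have hB : IsCompact B :=
      hclc.diff (hUo.inter (isOpen_lt continuous_const θe.continuous.norm))
    rcases B.eq_empty_or_nonempty with he | hne
    · exact ⟨1, one_pos, fun x hx _ => by_contra fun h => (he.subset ⟨hx, h⟩).elim⟩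
    · obtain ⟨a, ha, hmin⟩ := hB.exists_isMinOn hne hf₁c.norm.continuousOn
      refine ⟨‖f₁ a‖, norm_pos_iff.mpr fun h0 => ha.2 ⟨hPU (hf₁zero a h0), by
        linarith [hμP a (hf₁zero a h0)]⟩, fun x hx hlt => by_contra fun h =>
          absurd hlt (not_lt.mpr (hmin ⟨hx, h⟩))⟩
  obtain ⟨δ₂, hδ₂, hδ₂'⟩ : ∃ δ₂ > 0, ∀ x, G x ∈ closure U → ‖f₁ (G x)‖ < δ₂ → x ∈ U := by
    obtain ⟨RU, hRU⟩ := hclc.isBounded.subset_closedBall 0
    have hsub : G ⁻¹' closure U ⊆ closedBall 0 (max (‖v‖ + R') RU) := fun x hx => by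
      rw [mem_closedBall, dist_zero_right]
      by_contra h
      rw [not_le, max_lt_iff] at h
      have := hRU hx
      rw [hGid x h.1, mem_closedBall, dist_zero_right] at this
      linarith [h.2]
    have hc : IsCompact ((G ⁻¹' closure U) \ U) :=
      ((isCompact_closedBall _ _).of_isClosed_subset (isClosed_closure.preimage hGc) hsub).diff hUo
    rcases ((G ⁻¹' closure U) \ U).eq_empty_or_nonempty with he | hne
    · exact ⟨1, one_pos, fun x hx _ => by_contra fun h => (he.subset ⟨hx, h⟩).elim⟩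
    · obtain ⟨a, ha, hmin⟩ := hc.exists_isMinOn hne (hf₁c.comp hGc).norm.continuousOn
      refine ⟨‖f₁ (G a)‖, norm_pos_iff.mpr fun h0 => ha.2 (hPU ?_), fun x hx hlt =>
        by_contra fun h => absurd hlt (not_lt.mpr (hmin ⟨hx, h⟩))⟩
      have hGP := hf₁zero _ h0
      rcases le_or_gt ‖a - v‖ R with h | h
      · have haK : a ∈ K := hballK (mem_closedBall.mpr (by rwa [dist_eq_norm]))
        rw [(hin1 a h).2] at hGP
        exact ⟨haK, by rw [← hfinv 1 a haK]; exact hGP.2⟩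
      · have h1 := ext_norm hR hδ hgd hmR hgm h
        linarith [hin _ hGP.1 hGP.2]
  set dl := min (min δ₁ δ₂) (μ / 4) with hdldef
  have hdl : 0 < dl := lt_min (lt_min hδ₁ hδ₂) (by linarith)
  have dl1 : dl ≤ δ₁ := (min_le_left _ _).trans (min_le_left _ _)
  have dl2 : dl ≤ δ₂ := (min_le_left _ _).trans (min_le_right _ _)
  have dl3 : dl ≤ μ / 4 := min_le_right _ _
  obtain ⟨Θ, hΘ⟩ := (hclc.image θe.continuous).isBounded.subset_closedBall 0
  set hi := Real.log (max Θ 0 + dl + 1)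
  have hhi : Real.exp hi = max Θ 0 + dl + 1 := Real.exp_log (by positivity)
  -- continuity margins and the long loop
  have hcth : IsCompact (cthickening 1 (closure U)) := hclc.cthickening
  obtain ⟨τ, hτ, hτu⟩ := Metric.uniformContinuousOn_iff.mp
    (hcth.uniformContinuousOn_of_continuous (hf₁c.prodMk θe.continuous).continuousOn) (dl / 2)
    (half_pos hdl)
  set τ' := min τ 1 / 2 with hτ'def
  have hτ' : 0 < τ' := by have := lt_min hτ one_pos; positivity
  obtain ⟨k, hk⟩ := A.exists_small_displacement hτ'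
  set q := p ^ k with hqdef
  have hdisp : ∀ x ∈ closure U, ‖G^[p * q] x - x‖ ≤ τ' := fun x hx => by
    rw [hTG x (hclT hx), hqdef]
    have h := hk (p : ℤ_[p]) x (hTorb x (hclT hx)).1
    rwa [Nat.cast_mul, Nat.cast_pow, mul_comm]
  have hseg : ∀ x ∈ closure U, ∀ t ∈ Icc (0:ℝ) 1,
      x + t • (G^[p * q] x - x) ∈ cthickening 1 (closure U) ∧
        dist (x + t • (G^[p * q] x - x)) x < τ := fun x hx t ht => by
    have h : dist (x + t • (G^[p * q] x - x)) x ≤ τ' := by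
      rw [dist_eq_norm, add_sub_cancel_left, norm_smul, Real.norm_of_nonneg ht.1]
      exact (mul_le_of_le_one_left (norm_nonneg _) ht.2).trans (hdisp x hx)
    exact ⟨mem_cthickening_of_dist_le _ x _ _ hx (h.trans (by linarith [min_le_right τ 1])),
      h.trans_lt (by linarith [min_le_left τ 1])⟩
  -- the generic smooth maps
  obtain ⟨F₁, hF₁, hF₁d⟩ := exists_smooth_close hf₁c (show 0 < dl / 8 by positivity)
  obtain ⟨Θ₁, hΘ₁, hΘ₁d'⟩ := θe.continuous.exists_contDiff_approx 1 (continuous_const (y := dl / 8))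
    (fun _ => by positivity)
  have hΘ₁d : ∀ x, ‖Θ₁ x - θe x‖ < dl / 8 := fun x => by
    rw [← dist_eq_norm]; exact hΘ₁d'.1 x
  obtain ⟨z', w, hz', hw, havoid⟩ := exists_avoid hF₁ hΘ₁ p (show 0 < dl / 8 by positivity)
  let P1 : Vec n → Vec n := fun x => F₁ x - z'
  have hP1c : Continuous P1 := hF₁.continuous.sub continuous_const
  have hclose : ∀ x, ‖P1 x - f₁ x‖ < dl / 2 ∧ ‖Θ₁ x - θe x‖ < dl / 2 := fun x => by
    refine ⟨?_, (hΘ₁d x).trans (by linarith)⟩
    rw [show P1 x - f₁ x = (F₁ x - f₁ x) - z' by simp [P1]; abel]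
    linarith [norm_sub_le (F₁ x - f₁ x) z', hF₁d x]
  have hnear : ∀ x ∈ closure U, ∀ y ∈ cthickening 1 (closure U), dist y x < τ →
      ‖P1 y - f₁ x‖ < dl ∧ ‖Θ₁ y - θe x‖ < dl := fun x hx y hy hd => by
    have h := hτu y hy x (self_subset_cthickening _ hx) hd
    rw [Prod.dist_eq, max_lt_iff, dist_eq_norm, dist_eq_norm] at h
    constructor
    · rw [show P1 y - f₁ x = (P1 y - f₁ y) + (f₁ y - f₁ x) by abel]
      linarith [norm_add_le (P1 y - f₁ y) (f₁ y - f₁ x), (hclose y).1, h.1]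
    · rw [show Θ₁ y - θe x = (Θ₁ y - θe y) + (θe y - θe x) by abel]
      linarith [norm_add_le (Θ₁ y - θe y) (θe y - θe x), (hclose y).2, h.2]
  -- the half width
  set a₀ := w.arg
  set L := 2 * π / p with hLdef
  have hL : 0 < L := by
    have : (0:ℝ) < p := Nat.cast_pos.mpr hp.pos
    positivity
  set dd := Complex.exp (-(a₀ : ℝ) * Complex.I)
  have hdd : Complex.exp ((a₀ : ℝ) * Complex.I) * dd = 1 := by
    rw [← Complex.exp_add]; simp
  set Zs := cthickening 1 (closure U) ∩ {y | P1 y = 0 ∧ μ / 4 ≤ ‖Θ₁ y‖}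
  have hZs : IsCompact Zs := hcth.inter_right
    ((isClosed_eq hP1c continuous_const).inter (isClosed_le continuous_const hΘ₁.continuous.norm))
  have hline : ∀ y ∈ Zs, ∀ i < p, (Θ₁ y * dd * root p ^ i).im ≠ 0 := by
    intro y hy i hi h0
    set r := (Θ₁ y * dd * root p ^ i).re
    have hr : Θ₁ y * dd * root p ^ i = (r : ℂ) := Complex.ext (by simp [r]) (by simp [h0])
    have hy0 : Θ₁ y ≠ 0 := fun h => by
      have h2 : μ / 4 ≤ ‖Θ₁ y‖ := hy.2.2
      rw [h, norm_zero] at h2; linarith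
    have hr0 : r ≠ 0 := fun h => by
      rw [h] at hr
      simp [hy0, dd, root, Complex.exp_ne_zero] at hr
    refine havoid y (sub_eq_zero.mp hy.2.1) i hi (‖w‖ / r) ?_
    have hrC : (r : ℂ) ≠ 0 := Complex.ofReal_ne_zero.mpr hr0
    rw [Complex.real_smul, Complex.ofReal_div]
    conv_rhs => rw [← Complex.norm_mul_exp_arg_mul_I w]
    field_simp
    rw [← hr]
    linear_combination (-((‖w‖ : ℂ) * root p ^ i * Θ₁ y)) * hdd
  obtain ⟨β, hβ, hβ'⟩ : ∃ β > 0, ∀ y ∈ Zs, ∀ i < p, β ≤ |(Θ₁ y * dd * root p ^ i).im| := by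
    have : ∀ i : Fin p, ∃ β > 0, ∀ y ∈ Zs, β ≤ |(Θ₁ y * dd * root p ^ (i:ℕ)).im| := by
      intro i
      rcases Zs.eq_empty_or_nonempty with he | hne
      · exact ⟨1, one_pos, by simp [he]⟩
      · obtain ⟨a, ha, hmin⟩ := hZs.exists_isMinOn hne
          (f := fun y => |(Θ₁ y * dd * root p ^ (i:ℕ)).im|)
          ((Complex.continuous_im.comp ((hΘ₁.continuous.mul continuous_const).mul
            continuous_const)).abs.continuousOn)
        exact ⟨_, abs_pos.mpr (hline a ha i i.2), fun y hy => hmin hy⟩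
    choose β hβ hβ' using this
    obtain ⟨i₀, -, hi₀⟩ := Finset.exists_min_image Finset.univ β ⟨⟨0, hp.pos⟩, Finset.mem_univ _⟩
    exact ⟨β i₀, hβ i₀, fun y hy i hi =>
      (hi₀ ⟨i, hi⟩ (Finset.mem_univ _)).trans (hβ' ⟨i, hi⟩ y hy)⟩
  obtain ⟨CΘ, hCΘ⟩ := (hZs.image hΘ₁.continuous).isBounded.subset_closedBall 0
  set η := min (β / (max CΘ 0 + 1)) (L / 2) / 2 with hηdef
  have hη : 0 < η := by
    have : 0 < min (β / (max CΘ 0 + 1)) (L / 2) := lt_min (by positivity) (half_pos hL)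
    positivity
  let F : Frame n :=
    { f := f₁, θ := θe, U := U, L := L, a₀ := a₀, η := η, δ := dl, lo := Real.log (μ / 4), hi := hi
      hU := hUo, hUb := hUb, hη := hη
      hLη := by
        have := min_le_right (β / (max CΘ 0 + 1)) (L / 2)
        linarith
      inner := fun x hx h => (hδ₁' x hx (h.trans_le dl1)).1
      low := fun x hx h => by
        rw [Real.exp_log (by positivity)]
        linarith [(hδ₁' x hx (h.trans_le dl1)).2]
      high := fun x hx _ => by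
        rw [hhi]
        have := mem_closedBall_zero_iff.mp (hΘ ⟨x, hx, rfl⟩)
        linarith [le_max_left Θ 0] }
  have hom : F.om = root p := by simp only [Frame.om, root, F, hLdef]
  set S := cthickening 1 (closure U) ∩ {y | P1 y = 0 → μ / 4 ≤ ‖Θ₁ y‖}
  have havoidS : ∀ y ∈ S, P1 y = 0 → ∀ u : ℂ, Θ₁ y = Complex.exp u → ∀ i, F.η < |u.im - F.ray i| := by
    intro y hy h0 u hu i
    have hyZ : y ∈ Zs := ⟨hy.1, h0, hy.2 h0⟩
    show η < |u.im - F.ray i|
    by_contra hle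
    set l := ((-i) % (p : ℤ)).toNat
    have hp0 : (0 : ℤ) < p := by exact_mod_cast hp.pos
    have hl : (l : ℤ) = (-i) % (p : ℤ) := Int.toNat_of_nonneg (Int.emod_nonneg _ hp0.ne')
    have hlp : l < p := by
      have := Int.emod_lt_of_pos (-i) hp0
      omega
    have hpow : root p ^ l = Complex.exp (-((i : ℝ) * L : ℝ) * Complex.I) := by
      have hne : root p ≠ 0 := Complex.exp_ne_zero _
      have e1 : root p ^ l = root p ^ (-i) := by
        rw [← zpow_natCast, hl]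
        have h' : root p ^ (-i) = root p ^ ((p : ℤ) * (-i / (p : ℤ)) + -i % (p : ℤ)) := by
          rw [Int.mul_ediv_add_emod]
        rw [h', zpow_add₀ hne, zpow_mul, zpow_natCast, root_pow, one_zpow, one_mul]
      rw [e1, root, ← Complex.exp_int_mul, hLdef]
      push_cast; ring_nf
    have hval : Θ₁ y * dd * root p ^ l =
        Complex.exp ((u.re : ℂ) + ((u.im - F.ray i : ℝ) : ℂ) * Complex.I) := by
      rw [hu, hpow, ← Complex.exp_add, ← Complex.exp_add]
      congr 1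
      conv_lhs => rw [← Complex.re_add_im u]
      simp only [Frame.ray, F]
      push_cast; ring
    have hb := hβ' y hyZ l hlp
    rw [hval, Complex.exp_im, abs_mul, abs_of_pos (Real.exp_pos _)] at hb
    simp only [Complex.add_im, Complex.ofReal_im, Complex.mul_im, Complex.ofReal_re, Complex.I_re,
      Complex.I_im, mul_zero, mul_one, zero_add, add_zero, Complex.add_re, Complex.mul_re,
      sub_zero] at hb
    have hre : Real.exp u.re ≤ max CΘ 0 := by
      have := mem_closedBall_zero_iff.mp (hCΘ ⟨y, hyZ, rfl⟩)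
      rw [hu, Complex.norm_exp] at this
      exact this.trans (le_max_left _ _)
    have hsin : |Real.sin (u.im - F.ray i)| ≤ |u.im - F.ray i| := Real.abs_sin_le_abs
    have h1 : β ≤ max CΘ 0 * η :=
      hb.trans (mul_le_mul hre (hsin.trans (not_lt.mp hle)) (abs_nonneg _) (le_max_right _ _))
    have h2 : η * (max CΘ 0 + 1) ≤ β / 2 := by
      have := min_le_left (β / (max CΘ 0 + 1)) (L / 2)
      rw [le_div_iff₀ (by positivity)] at this
      rw [hηdef]
      linarith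
    nlinarith
  have hnearP : ∀ x ∈ closure U, ∀ y ∈ cthickening 1 (closure U), dist y x < τ →
      F.NearP 0 x (P1 y) (Θ₁ y) ∧ y ∈ S := by
    intro x hx y hy hd
    obtain ⟨h1, h2⟩ := hnear x hx y hy hd
    refine ⟨⟨h1, by simpa using h2⟩, hy, fun h0 => ?_⟩
    rw [h0, zero_sub, norm_neg] at h1
    have := (hδ₁' x hx (h1.trans_le dl1)).2
    linarith [norm_sub_norm_le (θe x) (Θ₁ y), norm_sub_rev (θe x) (Θ₁ y)]
  have hPgood : F.Good 0 (P1, Θ₁) := by
    have hxx : ∀ x ∈ closure U, F.NearP 0 x (P1 x) (Θ₁ x) ∧ x ∈ S := fun x hx =>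
      hnearP x hx x (self_subset_cthickening _ hx) (by rwa [dist_self])
    exact ⟨hP1c, hΘ₁.continuous, fun x hx => (hxx x hx).1, fun x hx => havoidS x (hxx x hx).2⟩
  have hsymm : F.Symm G := by
    refine ⟨hGc, ⟨_, hGid⟩, hGU, fun x hx => ?_, fun x hx h => hδ₂' x hx (h.trans_le dl2)⟩
    obtain ⟨hxK, hxorb⟩ := hTorb x (hclT hx)
    have hxR : ‖x - v‖ ≤ R := by simpa [dist_eq_norm] using mem_closedBall.mp (hclT hx).1
    show f₁ (G x) = f₁ x ∧ θe (G x) = F.om * θe x
    rw [(hin1 x hxR).2, (hin1 _ (hxorb 1)).1, (hin1 x hxR).1, hfinv 1 x hxK, hom, hθK x hxK,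
      hθK _ (A.maps 1 hxK), hθeq x hxK]
    exact ⟨rfl, rfl⟩
  refine Frame.no_symm (F := F) hp.two_le ?_ hf₁c (z₀ := z) (fun x hx => hPU (hf₁zero x hx)) hf₁out
    hsymm hPgood (q := q) (pow_pos hp.pos k) (S := S)
    (fun x hx t ht => ?_) (fun x hx t ht => ?_) havoidS
  · show (p : ℝ) * L = 2 * π
    rw [hLdef, mul_div_cancel₀ _ (Nat.cast_ne_zero.mpr hp.ne_zero)]
  · exact (hnearP x hx _ (hseg x hx t ht).1 (hseg x hx t ht).2).2
  · exact (hnearP x hx _ (hseg x hx t ht).1 (hseg x hx t ht).2).1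

end Vale.Agent.P228.Two
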