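import Vale.Agent.P228.Two.Manifold

/-! Pointwise Hoelder maps of exponent above `n/(n+2)` are countably piecewise of finite variation
of an exponent below `n+2`. -/

open Set Metric Filter Topology Asymptotics MeasureTheory
open scoped Manifold

namespace Vale.Agent.P228

variable {n : ℕ}

/-- Separated points in a ball are few. -/
theorem card_separated {m : ℕ} {t R : ℝ} (ht : 0 < t) (htR : t ≤ R) {x : Fin m → Vec n}
    (hx : ∀ i, ‖x i‖ ≤ R) (hsep : ∀ i j, i ≠ j → t < ‖x i - x j‖) :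
    (m : ℝ) * t ^ n ≤ (4 * R) ^ n := by
  classical
  have hdisj : (↑(Finset.univ : Finset (Fin m)) : Set (Fin m)).PairwiseDisjoint
      fun i => closedBall (x i) (t / 2) := fun i _ j _ hij =>
    closedBall_disjoint_closedBall (by rw [dist_eq_norm]; linarith [hsep i j hij])
  have hsub : (⋃ i ∈ (Finset.univ : Finset (Fin m)), closedBall (x i) (t / 2)) ⊆
      closedBall (0 : Vec n) (2 * R) := by
    refine iUnion₂_subset fun i _ y hy => ?_
    rw [mem_closedBall, dist_zero_right]
    rw [mem_closedBall, dist_eq_norm] at hy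
    linarith [norm_sub_norm_le y (x i), hx i]
  have h := (measure_biUnion_finset hdisj fun i _ => measurableSet_closedBall).symm.trans_le
    (measure_mono (μ := volume) hsub)
  simp only [Real.volume_pi_closedBall _ (show 0 ≤ t / 2 by linarith),
    Real.volume_pi_closedBall _ (show 0 ≤ 2 * R by linarith), Fintype.card_fin, Finset.sum_const,
    Finset.card_univ, nsmul_eq_mul] at h
  rw [← ENNReal.ofReal_natCast, ← ENNReal.ofReal_mul (Nat.cast_nonneg _),
    ENNReal.ofReal_le_ofReal_iff (pow_nonneg (by linarith) n)] at h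
  rw [show 2 * (t / 2) = t by ring, show 2 * (2 * R) = 4 * R by ring] at h
  exact h

variable {p : ℕ} [Fact p.Prime] {M : Type*} [TopologicalSpace M] [ChartedSpace (Vec n) M]

theorem chart_change [IsManifold 𝓘(ℝ, Vec n) 1 M] {c y : M}
    (hy : y ∈ (chartAt (Vec n) c).source) :
    ((fun q => chartV (n := n) c q - chartV c y) =O[𝓝 y] fun q =>
      chartAt (Vec n) y q - chartAt (Vec n) y y) ∧
    ((fun q => chartAt (Vec n) y q - chartAt (Vec n) y y)
      =O[𝓝 y] fun q => chartV (n := n) c q - chartV c y) := by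
  set ec := chartAt (Vec n) c
  set ey := chartAt (Vec n) y
  have key : ∀ (e e' : OpenPartialHomeomorph M (Vec n)),
      e ∈ atlas (Vec n) M → e' ∈ atlas (Vec n) M →
      y ∈ e.source → y ∈ e'.source →
      (fun q => e' q - e' y) =O[𝓝 y] fun q => e q - e y := by
    intro e e' he he' hye hye'
    have h1 := mdifferentiableAt_atlas_symm (I := 𝓘(ℝ, Vec n)) he
      (e.map_source hye)
    have h2 : MDifferentiableAt 𝓘(ℝ, Vec n) 𝓘(ℝ, Vec n) e'
        (e.symm (e y)) := by
      rw [e.left_inv hye]; exact mdifferentiableAt_atlas he' hye'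
    have h3 := (h2.comp (e y) h1).differentiableAt
    have h4 := h3.hasFDerivAt.isBigO_sub.comp_tendsto (e.continuousAt hye).tendsto
    refine IsBigO.congr' h4 ?_ EventuallyEq.rfl
    filter_upwards [e.open_source.mem_nhds hye] with q hq
    simp only [Function.comp_apply, e.left_inv hq, e.left_inv hye]
  have hcy := key ey ec (chart_mem_atlas _ y) (chart_mem_atlas _ c) (mem_chart_source _ y) hy
  have hyc := key ec ey (chart_mem_atlas _ c) (chart_mem_atlas _ y) hy (mem_chart_source _ y)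
  exact ⟨hcy, hyc⟩

theorem varAction_of_holder [IsManifold 𝓘(ℝ, Vec n) 1 M] [AddAction ℤ_[p] M]
    [ContinuousVAdd ℤ_[p] M]
    (hreg : ∀ (g : ℤ_[p]) (x : M), ∃ α : ℝ, (n : ℝ) / (n + 2) < α ∧
      (fun y : M => chartAt (Vec n) (g +ᵥ x) (g +ᵥ y) - chartAt (Vec n) (g +ᵥ x) (g +ᵥ x)) =O[𝓝 x]
        fun y : M => ‖chartAt (Vec n) x y - chartAt (Vec n) x x‖ ^ α) :
    VarAction n p M := by
  intro g c
  set e := chartV (n := n) c
  set D := e.target ∩ {u | g +ᵥ e.symm u ∈ e.source} with hD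
  set φ : Vec n → Vec n := fun u => e (g +ᵥ e.symm u) with hφ
  let ex : ℕ → ℝ := fun N => (n : ℝ) / (n + 2) + 1 / (N + 1)
  have hex : ∀ N, 0 < ex N := fun N => by simp only [ex]; positivity
  let S : ℕ → Set (Vec n) := fun N => {u | u ∈ D ∧ ‖u‖ ≤ N ∧
    ∀ w ∈ D, ‖w - u‖ < 1 / (N + 1) → ‖φ w - φ u‖ ≤ (N + 1) * ‖w - u‖ ^ ex N}
  refine ⟨S, fun N => n / ex N, fun N => ((N : ℝ) + 1) ^ ((n : ℝ) / ex N) * (4 * ((N : ℝ) + 1)) ^ n,
    fun N => 1 / ((N : ℝ) + 1), fun u hu => ?_, fun N => ⟨?_, by positivity, ?_⟩⟩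
  · obtain ⟨hut, hus⟩ := hu
    set a := e.symm u
    have has : a ∈ (chartAt (Vec n) c).source := e.map_target hut
    obtain ⟨α, hα, hO⟩ := hreg g a
    have hα0 : 0 ≤ α := le_trans (by positivity) hα.le
    have h1 := (chart_change (n := n) (c := c) (y := g +ᵥ a) hus).1
    have h2 := (chart_change (n := n) (c := c) (y := a) has).2
    have h4 := IsBigO.rpow hα0 (Eventually.of_forall fun q => norm_nonneg _) h2.norm_norm
    have h5 := ((h1.comp_tendsto ((continuous_const_vadd g).tendsto a)).trans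
      (hO.trans h4)).comp_tendsto (e.continuousAt_symm hut).tendsto
    have h6 : (fun w => φ w - φ u) =O[𝓝 u] fun w => ‖w - u‖ ^ α := by
      refine h5.congr' (Eventually.of_forall fun w => rfl) ?_
      filter_upwards [e.open_target.mem_nhds hut] with w hw
      show ‖e (e.symm w) - e (e.symm u)‖ ^ α = _
      rw [e.right_inv hw, e.right_inv hut]
    obtain ⟨C, hC⟩ := h6.bound
    rw [Metric.eventually_nhds_iff] at hC
    obtain ⟨δ, hδ, hC⟩ := hC
    obtain ⟨N, hN⟩ := exists_nat_gt
      (max (max C ‖u‖) (max (1 / δ) (1 / (α - (n : ℝ) / (n + 2)))))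
    simp only [max_lt_iff] at hN
    obtain ⟨⟨hNC, hNu⟩, hNδ, hNα⟩ := hN
    have hN1 : (0:ℝ) < N + 1 := by positivity
    have hα' : ex N ≤ α := by
      rw [div_lt_iff₀ (by linarith)] at hNα
      have : 1 / ((N : ℝ) + 1) ≤ α - (n : ℝ) / (n + 2) := by
        rw [div_le_iff₀ hN1]; nlinarith
      simp only [ex]; linarith
    refine mem_iUnion.mpr ⟨N, ⟨hut, hus⟩, hNu.le, fun w hw hd => ?_⟩
    have hd1 : ‖w - u‖ ≤ 1 := hd.le.trans (by
      rw [div_le_one hN1]; linarith [N.cast_nonneg (α := ℝ)])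
    have hdδ : dist w u < δ := by
      rw [dist_eq_norm]
      refine hd.trans_le ?_
      rw [div_le_iff₀ hN1]
      rw [div_lt_iff₀ hδ] at hNδ
      nlinarith
    have h := hC hdδ
    rw [Real.norm_of_nonneg (Real.rpow_nonneg (norm_nonneg _) _)] at h
    refine h.trans (mul_le_mul (by linarith) ?_ (Real.rpow_nonneg (norm_nonneg _) _) hN1.le)
    rcases eq_or_lt_of_le (norm_nonneg (w - u)) with h0 | h0
    · rw [← h0, Real.zero_rpow (hex N).ne', Real.zero_rpow (show α ≠ 0 by linarith [hex N])]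
    · exact Real.rpow_le_rpow_of_exponent_ge h0 hd1 hα'
  · show (n : ℝ) / ex N < n + 2
    rw [div_lt_iff₀ (hex N)]
    have h0 : (0:ℝ) < 1 / (N + 1) * (n + 2) := by positivity
    simp only [ex]
    rw [mul_add, mul_div_cancel₀ _ (by positivity)]
    linarith
  · intro m t x y ht htr hP
    set s := (n : ℝ) / ex N
    have hs0 : 0 ≤ s := by have := hex N; positivity
    have hN1 : (0:ℝ) < N + 1 := by positivity
    have hterm : ∀ i, ‖φ (x i) - φ (y i)‖ ^ s ≤ ((N : ℝ) + 1) ^ s * t ^ n := by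
      intro i
      obtain ⟨hxi, hyi, hd⟩ := hP.1 i
      have h := hxi.2.2 (y i) hyi.1 (by rw [norm_sub_rev]; exact hd.trans htr)
      rw [norm_sub_rev (y i), norm_sub_rev (φ (y i))] at h
      have h' : ‖φ (x i) - φ (y i)‖ ≤ ((N : ℝ) + 1) * t ^ ex N := h.trans
        (mul_le_mul_of_nonneg_left (Real.rpow_le_rpow (norm_nonneg _) hd.le (hex N).le) hN1.le)
      refine (Real.rpow_le_rpow (norm_nonneg _) h' hs0).trans_eq ?_
      rw [Real.mul_rpow hN1.le (Real.rpow_nonneg ht.le _), ← Real.rpow_mul ht.le,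
        mul_div_cancel₀ _ (hex N).ne', Real.rpow_natCast]
    have hcard := card_separated ht
      (R := (N : ℝ) + 1) (htr.le.trans (by
        rw [div_le_iff₀ hN1]; nlinarith [N.cast_nonneg (α := ℝ)]))
      (fun i => by linarith [(hP.1 i).1.2.1]) hP.2
    refine (Finset.sum_le_sum fun i _ => hterm i).trans ?_
    rw [Finset.sum_const, Finset.card_univ, Fintype.card_fin, nsmul_eq_mul, mul_left_comm]
    exact mul_le_mul_of_nonneg_left hcard (Real.rpow_nonneg hN1.le _)

end Vale.Agent.P228
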