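import Vale.Agent.P228.Key
import Vale.Agent.P228.Two.Avg

/-! Covering estimate: over almost every value, the fibre of a map with thin control has null
image under every plane valued map with the same control. -/

open MeasureTheory Set Metric Filter Topology
open scoped BigOperators ENNReal

namespace Vale.Agent.P228.Two

variable {n : ℕ}

theorem ae_small_fibres {S : Set (Vec n)} {L : ℕ} (hS : S ⊆ closedBall 0 L) {F : Vec n → Vec n}
    {D : Vec n → Vec n → ℝ} (hD0 : ∀ x ∈ S, ∀ y ∈ S, 0 ≤ D x y) (hD : Thin D S)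
    {M : ℝ} (hM : 0 ≤ M) (hF : ∀ x ∈ S, ∀ y ∈ S, dist (F x) (F y) ≤ M * D x y) :
    ∀ᵐ z : Vec n ∂volume, ∀ q : Vec n → Vec 2,
      (∀ x ∈ S, ∀ y ∈ S, dist (q x) (q y) ≤ M * D x y) →
        volume (q '' (S ∩ F ⁻¹' {z})) = 0 := by
  classical
  have hε : ∀ k : ℕ, (0:ℝ) < (1 / 2) ^ k := fun k => by positivity
  choose rk hrk hthin using fun k => hD _ (hε k)
  choose mk hmk using fun k => exists_pow_lt_of_lt_one (hrk k) (show (1 / 2 : ℝ) < 1 by norm_num)
  let r : ℕ → ℝ := fun k => (1 / 2 : ℝ) ^ mk k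
  have hr : ∀ k, 0 < r k := fun k => by positivity
  let idx : ℕ → Finset (Fin n → ℤ) := fun k =>
    Fintype.piFinset fun _ => Finset.Icc (-((L * 2 ^ mk k : ℕ) : ℤ)) ((L * 2 ^ mk k : ℕ) : ℤ)
  let cell : ℕ → (Fin n → ℤ) → Set (Vec n) := fun k i => S ∩ {x | ∀ l, ⌊x l / r k⌋ = i l}
  let c : ℕ → (Fin n → ℤ) → Vec n := fun k i =>
    if h : (cell k i).Nonempty then h.choose else 0
  have hc : ∀ k i, (cell k i).Nonempty → c k i ∈ cell k i := fun k i h => by
    simp only [c, dif_pos h]; exact h.choose_spec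
  have hclose : ∀ k i, ∀ x ∈ cell k i, ∀ y ∈ cell k i, ‖x - y‖ < r k := by
    intro k i x hx y hy
    refine (pi_norm_lt_iff (hr k)).mpr fun l => ?_
    have h := Int.abs_sub_lt_one_of_floor_eq_floor ((hx.2 l).trans (hy.2 l).symm)
    rw [div_sub_div_same, abs_div, abs_of_pos (hr k), div_lt_one (hr k)] at h
    simpa [Real.norm_eq_abs] using h
  have hidx : ∀ k, ∀ x ∈ S, (fun l => ⌊x l / r k⌋) ∈ idx k := by
    intro k x hx
    refine Fintype.mem_piFinset.mpr fun l => Finset.mem_Icc.mpr ?_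
    have h : |x l| ≤ L := by
      have := hS hx
      rw [mem_closedBall, dist_zero_right] at this
      exact (norm_le_pi_norm x l).trans this
    have e : x l / r k = x l * 2 ^ mk k := by
      simp only [r, one_div, inv_pow, div_inv_eq_mul]
    rw [abs_le] at h
    have h2 : (0:ℝ) < 2 ^ mk k := by positivity
    constructor
    · rw [Int.le_floor, e]; push_cast; nlinarith
    · rw [← Int.lt_add_one_iff, Int.floor_lt, e]; push_cast; nlinarith
  -- a nearly farthest point in each cell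
  have hbdd : ∀ k i, BddAbove (D (c k i) '' cell k i) := by
    intro k i
    refine ⟨max 1 ((1 / 2 : ℝ) ^ k), ?_⟩
    rintro _ ⟨x, hx, rfl⟩
    have hcm := hc k i ⟨x, hx⟩
    obtain ⟨t, ht, htr⟩ : ∃ t, max ‖c k i - x‖ 0 < t ∧ t < rk k := by
      refine exists_between (max_lt ?_ (hrk k))
      exact (hclose k i _ hcm x hx).trans (hmk k)
    have h := hthin k 1 t (fun _ => c k i) (fun _ => x) (lt_of_le_of_lt (le_max_right _ _) ht) htr
      ⟨fun _ => ⟨hcm.1, hx.1, lt_of_le_of_lt (le_max_left _ _) ht⟩,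
        fun a b hab => absurd (Subsingleton.elim a b) hab⟩
    simp only [Finset.univ_unique, Finset.sum_singleton] at h
    rcases le_or_gt (D (c k i) x) 1 with h1 | h1
    · exact h1.trans (le_max_left _ _)
    · exact ((le_self_pow₀ h1.le (by omega)).trans h).trans (le_max_right _ _)
  let a : ℕ → (Fin n → ℤ) → ℝ := fun k i => sSup (D (c k i) '' cell k i)
  have hDa : ∀ k i, ∀ x ∈ cell k i, D (c k i) x ≤ a k i := fun k i x hx =>
    le_csSup (hbdd k i) ⟨x, hx, rfl⟩
  have ha0 : ∀ k i, 0 ≤ a k i := fun k i => Real.sSup_nonneg <| by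
    rintro _ ⟨x, hx, rfl⟩
    exact hD0 _ (hc k i ⟨x, hx⟩).1 _ hx.1
  have hhalf : ∀ k i, ∃ y, 0 < a k i → y ∈ cell k i ∧ a k i ≤ 2 * D (c k i) y := by
    intro k i
    by_cases ha : 0 < a k i
    · have hne : (cell k i).Nonempty := by
        by_contra h
        rw [not_nonempty_iff_eq_empty] at h
        simp [a, h] at ha
      obtain ⟨_, ⟨y, hy, rfl⟩, hlt⟩ :=
        exists_lt_of_lt_csSup (hne.image _) (show a k i / 2 < sSup _ from half_lt_self ha)
      exact ⟨y, fun _ => ⟨hy, by linarith⟩⟩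
    · exact ⟨0, fun h => absurd h ha⟩
  choose yk hyk using hhalf
  have hsum : ∀ k, ∑ i ∈ idx k, a k i ^ (n + 2) ≤
      2 ^ n * 2 ^ (n + 2) * (1 / 2 : ℝ) ^ k := by
    intro k
    let par : (Fin n → ℤ) → (Fin n → ZMod 2) := fun i l => (i l : ZMod 2)
    rw [← Finset.sum_fiberwise (idx k) par]
    calc ∑ ν : Fin n → ZMod 2, ∑ i ∈ (idx k).filter (fun i => par i = ν), a k i ^ (n + 2)
        ≤ ∑ _ν : Fin n → ZMod 2, 2 ^ (n + 2) * (1 / 2 : ℝ) ^ k :=
          Finset.sum_le_sum fun ν _ => ?_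
      _ = _ := by simp [mul_assoc]
    set T := ((idx k).filter fun i => par i = ν).filter fun i => 0 < a k i
    have hT : ∑ i ∈ (idx k).filter (fun i => par i = ν), a k i ^ (n + 2) =
        ∑ i ∈ T, a k i ^ (n + 2) := by
      refine (Finset.sum_filter_of_ne fun i _ hi => ?_).symm
      exact (ha0 k i).lt_of_ne fun h => hi (by rw [← h, zero_pow (by omega)])
    let e := T.equivFin
    let u : Fin T.card → (Fin n → ℤ) := fun j => (e.symm j : Fin n → ℤ)
    have hu : ∀ j, par (u j) = ν ∧ 0 < a k (u j) := fun j => by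
      have h := (e.symm j).2
      simp only [T, Finset.mem_filter] at h
      exact ⟨h.1.2, h.2⟩
    have hpair : Pairs S (r k) (fun j => c k (u j)) (fun j => yk k (u j)) := by
      refine ⟨fun j => ?_, fun i j hij => ?_⟩
      · obtain ⟨hy, -⟩ := hyk k (u j) (hu j).2
        have hcm := hc k (u j) ⟨_, hy⟩
        exact ⟨hcm.1, hy.1, hclose k _ _ hcm _ hy⟩
      · have hne : u i ≠ u j := fun h => hij (e.symm.injective (Subtype.ext h))
        obtain ⟨l, hl⟩ := Function.ne_iff.mp hne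
        have hmod : ((u i l : ℤ) : ZMod 2) = (u j l : ℤ) :=
          congrFun ((hu i).1.trans (hu j).1.symm) l
        rw [ZMod.intCast_eq_intCast_iff_dvd_sub] at hmod
        have hci := (hc k (u i) ⟨_, (hyk k (u i) (hu i).2).1⟩).2 l
        have hcj := (hc k (u j) ⟨_, (hyk k (u j) (hu j).2).1⟩).2 l
        refine lt_of_lt_of_le ?_ (norm_le_pi_norm (c k (u i) - c k (u j)) l)
        rw [Pi.sub_apply, Real.norm_eq_abs]
        have h1 := Int.floor_le (c k (u i) l / r k)
        have h2 := Int.lt_floor_add_one (c k (u i) l / r k)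
        have h3 := Int.floor_le (c k (u j) l / r k)
        have h4 := Int.lt_floor_add_one (c k (u j) l / r k)
        rw [hci] at h1 h2
        rw [hcj] at h3 h4
        rw [le_div_iff₀ (hr k)] at h1 h3
        rw [div_lt_iff₀ (hr k)] at h2 h4
        obtain ⟨w, hw⟩ := hmod
        rcases lt_trichotomy w 0 with hw0 | hw0 | hw0
        · have : (u j l : ℝ) + 2 ≤ u i l := by exact_mod_cast (show u j l + 2 ≤ u i l by omega)
          exact lt_of_lt_of_le (by nlinarith [hr k]) (le_abs_self _)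
        · exact absurd (by omega) hl
        · have : (u i l : ℝ) + 2 ≤ u j l := by exact_mod_cast (show u i l + 2 ≤ u j l by omega)
          exact lt_of_lt_of_le (by nlinarith [hr k]) (neg_le_abs _)
    rw [hT, ← T.sum_coe_sort (fun i => a k i ^ (n + 2)), ← e.symm.sum_comp]
    calc ∑ j, a k (u j) ^ (n + 2)
        ≤ ∑ j, 2 ^ (n + 2) * D (c k (u j)) (yk k (u j)) ^ (n + 2) :=
          Finset.sum_le_sum fun j _ => by
            rw [← mul_pow]
            exact pow_le_pow_left₀ (ha0 _ _) (hyk k (u j) (hu j).2).2 _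
      _ ≤ _ := by
          rw [← Finset.mul_sum]
          exact mul_le_mul_of_nonneg_left (hthin k _ (r k) _ _ (hr k) (hmk k) hpair) (by positivity)
  -- the estimate
  let B : ℕ → (Fin n → ℤ) → Set (Vec n) := fun k i => closedBall (F (c k i)) (M * a k i)
  let Lm : ℕ → Vec n → ℝ≥0∞ := fun k z =>
    ∑ i ∈ idx k, (B k i).indicator (fun _ => ENNReal.ofReal ((2 * (M * a k i)) ^ 2)) z
  have hmeas : ∀ k, Measurable (Lm k) := fun k =>
    Finset.measurable_sum _ fun i _ => measurable_const.indicator measurableSet_closedBall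
  set K : ℝ := (2 * M) ^ (n + 2) * (2 ^ n * 2 ^ (n + 2))
  have hint : ∀ k, ∫⁻ z, Lm k z ≤ ENNReal.ofReal (K * (1 / 2 : ℝ) ^ k) := by
    intro k
    have hnn : ∀ i, 0 ≤ M * a k i := fun i => mul_nonneg hM (ha0 k i)
    have e1 : ∫⁻ z, Lm k z = ENNReal.ofReal (∑ i ∈ idx k, (2 * (M * a k i)) ^ (n + 2)) := by
      rw [lintegral_finsetSum _ fun i _ => measurable_const.indicator measurableSet_closedBall,
        ENNReal.ofReal_sum_of_nonneg fun i _ => by have := hnn i; positivity]
      refine Finset.sum_congr rfl fun i _ => ?_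
      simp only [lintegral_indicator_const measurableSet_closedBall, B,
        Real.volume_pi_closedBall _ (hnn i), Fintype.card_fin]
      rw [← ENNReal.ofReal_mul (by positivity), pow_add]
      congr 1; ring
    rw [e1]
    refine ENNReal.ofReal_le_ofReal ?_
    calc ∑ i ∈ idx k, (2 * (M * a k i)) ^ (n + 2)
        = (2 * M) ^ (n + 2) * ∑ i ∈ idx k, a k i ^ (n + 2) := by
          rw [Finset.mul_sum]; exact Finset.sum_congr rfl fun i _ => by rw [← mul_assoc, mul_pow]
      _ ≤ (2 * M) ^ (n + 2) * (2 ^ n * 2 ^ (n + 2) * (1 / 2 : ℝ) ^ k) :=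
          mul_le_mul_of_nonneg_left (hsum k) (by positivity)
      _ = K * (1 / 2 : ℝ) ^ k := by ring
  have hfin : ∫⁻ z, ∑' k, Lm k z ≠ ∞ := by
    rw [lintegral_tsum fun k => (hmeas k).aemeasurable]
    refine ne_top_of_le_ne_top ?_ (ENNReal.tsum_le_tsum hint)
    rw [← ENNReal.ofReal_tsum_of_nonneg (fun k => by positivity)
      ((summable_geometric_of_lt_one (by norm_num) (by norm_num)).mul_left K)]
    exact ENNReal.ofReal_ne_top
  filter_upwards [ae_lt_top (Measurable.ennreal_tsum hmeas) hfin] with z hz q hq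
  have htend : Tendsto (fun k => Lm k z) atTop (𝓝 0) :=
    ENNReal.tendsto_atTop_zero_of_tsum_ne_top hz.ne
  refine le_antisymm (ge_of_tendsto htend (Eventually.of_forall fun k => ?_)) zero_le
  let T : Finset (Fin n → ℤ) := (idx k).filter fun i => z ∈ B k i
  have hsub : q '' (S ∩ F ⁻¹' {z}) ⊆ ⋃ i ∈ T, closedBall (q (c k i)) (M * a k i) := by
    rintro _ ⟨x, ⟨hxS, hxF⟩, rfl⟩
    have hx : x ∈ cell k (fun l => ⌊x l / r k⌋) := ⟨hxS, fun l => rfl⟩
    have hcm := hc k _ ⟨x, hx⟩
    have hd := mul_le_mul_of_nonneg_left (hDa k _ x hx) hM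
    refine mem_iUnion₂.mpr ⟨_, Finset.mem_filter.mpr ⟨hidx k x hxS, ?_⟩, ?_⟩
    · have h := (hF _ hcm.1 x hxS).trans hd
      rw [show F x = z from hxF, dist_comm] at h
      exact mem_closedBall.mpr h
    · have h := (hq _ hcm.1 x hxS).trans hd
      rw [dist_comm] at h
      exact mem_closedBall.mpr h
  calc volume (q '' (S ∩ F ⁻¹' {z}))
      ≤ ∑ i ∈ T, volume (closedBall (q (c k i)) (M * a k i)) :=
        (measure_mono hsub).trans (measure_biUnion_finset_le _ _)
    _ = Lm k z := by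
        simp only [Lm, T, Finset.sum_filter, Set.indicator_apply,
          Real.volume_pi_closedBall _ (mul_nonneg hM (ha0 k _)), Fintype.card_fin]

end Vale.Agent.P228.Two
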