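import Vale.Agent.P228.Two.Fibre
import Vale.Agent.P228.Two.Null

/-! The two local steps: an action by maps that are countably piecewise of finite variation of
exponent below `n+2` is locally trivial on an open subgroup, and the fixed balls of such an action
grow. -/

open MeasureTheory Set Metric Filter Topology

namespace Vale.Agent.P228

open Two (OrbLip exists_fixed_thin)

variable {n : ℕ} {p : ℕ} [Fact p.Prime]

/-- Each map is, on countably many pieces covering `K`, of finite variation of an exponent below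
`n + 2`. -/
def PwVar (ρ : ℤ_[p] → Vec n → Vec n) (K : Set (Vec n)) : Prop :=
  ∀ g, ∃ (S : ℕ → Set (Vec n)) (s C r : ℕ → ℝ), K ⊆ ⋃ j, S j ∧
    ∀ j, s j < n + 2 ∧ 0 < r j ∧ VarBd (ρ g) (S j) (s j) (C j) (r j)

theorem PwVar.pieces {ρ : ℤ_[p] → Vec n → Vec n} {K : Set (Vec n)} (A : Act ρ K)
    (hH : PwVar ρ K) (g : ℤ_[p]) : ∃ (T : ℕ → Set (Vec n)) (N : ℕ → ℕ), K ⊆ ⋃ j, T j ∧
      ∀ j, T j ⊆ K ∧ VarBd (ρ g) (T j) (sexp n (N j)) (N j + 1) (1 / (N j + 1)) := by
  obtain ⟨S, s, C, r, hcov, hv⟩ := hH g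
  choose N hN using fun j => ((hv j).2.2.mono_set (inter_subset_left (t := K))).normalise A.cpt
    (A.cont_g g) inter_subset_right (hv j).1 (hv j).2.1
  refine ⟨fun j => S j ∩ K, N, fun x hx => ?_, fun j => ⟨inter_subset_right, hN j⟩⟩
  obtain ⟨j, hj⟩ := mem_iUnion.mp (hcov hx)
  exact mem_iUnion.mpr ⟨j, hj, hx⟩

theorem Act.scale {ρ : ℤ_[p] → Vec n → Vec n} {K : Set (Vec n)} (A : Act ρ K) (a : ℤ_[p]) :
    Act (fun t => ρ (a * t)) K where
  cpt := A.cpt
  cont := A.cont.comp (f := fun q : ℤ_[p] × Vec n => (a * q.1, q.2))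
    ((continuous_const.mul continuous_fst).prodMk continuous_snd).continuousOn
    fun q hq => ⟨mem_univ _, hq.2⟩
  maps t := A.maps _
  zero x hx := by simp only [mul_zero]; exact A.zero x hx
  add g h x hx := by simp only [mul_add]; exact A.add _ _ x hx

theorem Act.restrict {ρ : ℤ_[p] → Vec n → Vec n} {K K' : Set (Vec n)} (A : Act ρ K)
    (hsub : K' ⊆ K) (hc : IsCompact K') (hm : ∀ g, MapsTo (ρ g) K' K') : Act ρ K' where
  cpt := hc
  cont := A.cont.mono (prod_mono subset_rfl hsub)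
  maps := hm
  zero x hx := A.zero x (hsub hx)
  add g h x hx := A.add g h x (hsub hx)

/-- Invariant map: in every coordinate, the outermost value along the orbit relative to `v`. -/
noncomputable def outer (ρ : ℤ_[p] → Vec n → Vec n) (v y : Vec n) : Vec n := fun i =>
  v i + ((⨆ g, max 0 (ρ g y i - v i)) + ⨅ g, min 0 (ρ g y i - v i))

namespace Act

variable {ρ : ℤ_[p] → Vec n → Vec n} {K : Set (Vec n)}

theorem bdd (A : Act ρ K) {y : Vec n} (hy : y ∈ K) (v : Vec n) (i : Fin n) :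
    BddAbove (range fun g => max 0 (ρ g y i - v i)) ∧
      BddBelow (range fun g => min 0 (ρ g y i - v i)) :=
  ⟨(isCompact_range (continuous_const.max
      (((continuous_apply i).comp (A.cont_orbit hy)).sub continuous_const))).bddAbove,
    (isCompact_range (continuous_const.min
      (((continuous_apply i).comp (A.cont_orbit hy)).sub continuous_const))).bddBelow⟩

theorem outer_lip (A : Act ρ K) (v : Vec n) {x y : Vec n} (hx : x ∈ K) (hy : y ∈ K) {d : ℝ}
    (h : ∀ g, ‖ρ g x - ρ g y‖ ≤ d) : dist (outer ρ v x) (outer ρ v y) ≤ 2 * d := by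
  have hd : 0 ≤ d := (norm_nonneg _).trans (h 0)
  refine (dist_pi_le_iff (by linarith)).mpr fun i => ?_
  have hi : ∀ g, |(ρ g x i - v i) - (ρ g y i - v i)| ≤ d := fun g => by
    rw [sub_sub_sub_cancel_right, ← Pi.sub_apply, ← Real.norm_eq_abs]
    exact (norm_le_pi_norm _ i).trans (h g)
  have h1 : |(⨆ g, max 0 (ρ g x i - v i)) - ⨆ g, max 0 (ρ g y i - v i)| ≤ d := by
    rw [abs_sub_le_iff]
    constructor
    · have : (⨆ g, max 0 (ρ g x i - v i)) ≤ (⨆ g, max 0 (ρ g y i - v i)) + d :=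
        ciSup_le fun g => by
          have := le_ciSup (A.bdd hy v i).1 g
          refine max_le (by linarith [le_max_left 0 (ρ g y i - v i)]) ?_
          linarith [(abs_le.mp (hi g)).2, le_max_right 0 (ρ g y i - v i)]
      linarith
    · have : (⨆ g, max 0 (ρ g y i - v i)) ≤ (⨆ g, max 0 (ρ g x i - v i)) + d :=
        ciSup_le fun g => by
          have := le_ciSup (A.bdd hx v i).1 g
          refine max_le (by linarith [le_max_left 0 (ρ g x i - v i)]) ?_
          linarith [(abs_le.mp (hi g)).1, le_max_right 0 (ρ g x i - v i)]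
      linarith
  have h2 := abs_iInf_sub_le (A.bdd hx v i).2 (A.bdd hy v i).2 (d := d) fun g => by
    refine (abs_min_sub_min_le_max _ _ _ _).trans (max_le (by simpa using hd) (hi g))
  rw [Real.dist_eq]
  simp only [outer]
  rw [abs_le] at h1 h2 ⊢
  constructor <;> linarith

theorem outer_continuousOn (A : Act ρ K) (v : Vec n) : ContinuousOn (outer ρ v) K :=
  A.continuousOn_of_orbit_lip zero_le_two fun _ hx _ hy _ h => A.outer_lip v hx hy h

theorem outer_inv (A : Act ρ K) (v : Vec n) (g : ℤ_[p]) {y : Vec n} (hy : y ∈ K) :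
    outer ρ v (ρ g y) = outer ρ v y := by
  funext i
  simp only [outer, ← A.add _ g y hy]
  congr 2
  · exact (Equiv.addRight g).iSup_comp (g := fun h => max 0 (ρ h y i - v i))
  · exact (Equiv.addRight g).iInf_comp (g := fun h => min 0 (ρ h y i - v i))

theorem outer_fixed (v : Vec n) {y : Vec n} (h : ∀ g, ρ g y = y) : outer ρ v y = y := by
  funext i
  simp only [outer, h, ciSup_const, ciInf_const]
  rw [max_add_min, zero_add, add_sub_cancel]

theorem outer_bounds (A : Act ρ K) (v : Vec n) {u : Vec n} (hu : u ∈ K) {δ : ℝ}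
    (hδ : ∀ g, ‖ρ g u - u‖ ≤ δ) :
    ‖outer ρ v u - u‖ ≤ δ ∧ (δ < ‖u - v‖ → ‖u - v‖ ≤ ‖outer ρ v u - v‖) := by
  have hδ0 : 0 ≤ δ := (norm_nonneg _).trans (hδ 0)
  have hgi : ∀ g i, |ρ g u i - u i| ≤ δ := fun g i => by
    rw [← Pi.sub_apply, ← Real.norm_eq_abs]
    exact (norm_le_pi_norm _ i).trans (hδ g)
  have key : ∀ i, |outer ρ v u i - u i| ≤ δ ∧
      (δ < |u i - v i| → |u i - v i| ≤ |outer ρ v u i - v i|) := by
    intro i
    set S := ⨆ g, max 0 (ρ g u i - v i)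
    set I := ⨅ g, min 0 (ρ g u i - v i)
    have e : outer ρ v u i = v i + (S + I) := rfl
    have hS1 : max 0 (u i - v i) ≤ S := by
      have := le_ciSup (A.bdd hu v i).1 0
      rwa [A.zero u hu] at this
    have hI1 : I ≤ min 0 (u i - v i) := by
      have := ciInf_le (A.bdd hu v i).2 0
      rwa [A.zero u hu] at this
    have hS2 : S ≤ max 0 (u i - v i + δ) := ciSup_le fun g =>
      max_le_max le_rfl (by linarith [(abs_le.mp (hgi g i)).2])
    have hI2 : min 0 (u i - v i - δ) ≤ I := le_ciInf fun g =>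
      min_le_min le_rfl (by linarith [(abs_le.mp (hgi g i)).1])
    rw [e]
    rcases le_total 0 (u i - v i) with h | h
    · rw [max_eq_right h] at hS1
      rw [min_eq_left h] at hI1
      rw [max_eq_right (by linarith)] at hS2
      have : -δ ≤ I := le_trans (le_min (by linarith) (by linarith)) hI2
      refine ⟨abs_le.mpr ⟨by linarith, by linarith⟩, fun hlt => ?_⟩
      rw [abs_of_nonneg h] at hlt ⊢
      rw [min_eq_left (by linarith)] at hI2
      exact le_trans (by linarith) (le_abs_self _)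
    · rw [max_eq_left h] at hS1
      rw [min_eq_right h] at hI1
      rw [min_eq_right (by linarith)] at hI2
      have : S ≤ δ := le_trans hS2 (max_le (by linarith) (by linarith))
      refine ⟨abs_le.mpr ⟨by linarith, by linarith⟩, fun hlt => ?_⟩
      rw [abs_of_nonpos h] at hlt ⊢
      rw [max_eq_left (by linarith)] at hS2
      exact le_trans (by linarith) (neg_le_abs _)
  refine ⟨(pi_norm_le_iff_of_nonneg hδ0).mpr fun i => (key i).1, fun hlt => ?_⟩
  obtain ⟨i, hi⟩ : ∃ i, δ < |u i - v i| := by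
    by_contra! h
    exact absurd hlt (not_lt.mpr ((pi_norm_le_iff_of_nonneg hδ0).mpr h))
  refine (pi_norm_le_iff_of_nonneg (norm_nonneg _)).mpr fun j => ?_
  rw [Pi.sub_apply, Real.norm_eq_abs]
  rcases le_or_gt |u j - v j| δ with hj | hj
  · refine (hj.trans hi.le).trans (((key i).2 hi).trans ?_)
    exact norm_le_pi_norm (outer ρ v u - v) i
  · exact ((key j).2 hj).trans (norm_le_pi_norm (outer ρ v u - v) j)


end Act

/-- Invariant map: the Haar average along the orbit. -/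
noncomputable def mean (ρ : ℤ_[p] → Vec n → Vec n) (y : Vec n) : Vec n :=
  ∫ t, ρ t y ∂haarP p

namespace Act

variable {ρ : ℤ_[p] → Vec n → Vec n} {K : Set (Vec n)}

theorem mean_lip (A : Act ρ K) {x y : Vec n} (hx : x ∈ K) (hy : y ∈ K) :
    dist (mean ρ x) (mean ρ y) ≤ avgd ρ x y := by
  rw [dist_eq_norm, mean, mean, ← integral_sub (integrable_haarP (A.cont_orbit hx))
    (integrable_haarP (A.cont_orbit hy))]
  exact norm_integral_le_integral_norm _

theorem mean_continuousOn (A : Act ρ K) : ContinuousOn (mean ρ) K :=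
  A.continuousOn_of_orbit_lip zero_le_one fun x hx y hy d h => by
    rw [one_mul]; exact (A.mean_lip hx hy).trans (A.avgd_le hx hy h)

theorem mean_inv (A : Act ρ K) (g : ℤ_[p]) {y : Vec n} (hy : y ∈ K) :
    mean ρ (ρ g y) = mean ρ y := by
  simp only [mean, ← A.add _ g y hy]
  exact integral_add_right_eq_self (fun t => ρ t y) g

theorem mean_fixed {y : Vec n} (h : ∀ g, ρ g y = y) : mean ρ y = y := by
  simp [mean, h]

theorem mean_disp (A : Act ρ K) {y : Vec n} (hy : y ∈ K) {δ : ℝ} (h : ∀ t, ‖ρ t y - y‖ ≤ δ) :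
    ‖mean ρ y - y‖ ≤ δ := by
  have e : mean ρ y - y = ∫ t, (ρ t y - y) ∂haarP p := by
    rw [integral_sub (integrable_haarP (A.cont_orbit hy)) (integrable_const y)]
    simp [mean]
  rw [e]
  refine (norm_integral_le_of_norm_le_const (C := δ) (Eventually.of_forall h)).trans_eq ?_
  simp

end Act

/-- A point has a neighbourhood in `K` fixed by an open subgroup. -/
def LocTriv (ρ : ℤ_[p] → Vec n → Vec n) (K : Set (Vec n)) (x : Vec n) : Prop :=
  ∃ l : ℕ, ∀ᶠ y in 𝓝[K] x, ∀ t, ρ ((p : ℤ_[p]) ^ l * t) y = y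

/-- The locally trivial points are covered by countably many pieces, each with a thin control
dominating all group elements. -/
theorem Act.triv_cover {ρ : ℤ_[p] → Vec n → Vec n} {K : Set (Vec n)} (A : Act ρ K)
    (hH : PwVar ρ K) :
    ∃ (S : (Σ l : ℕ, Fin (p ^ l) → ℕ) → Set (Vec n))
      (D : (Σ l : ℕ, Fin (p ^ l) → ℕ) → Vec n → Vec n → ℝ),
      (∀ i, S i ⊆ K) ∧ (∀ i, Thin (D i) (S i)) ∧
      (∀ i, ∀ x ∈ S i, ∀ y ∈ S i, ∀ g, ‖ρ g x - ρ g y‖ ≤ D i x y) ∧
      ∀ x ∈ K, LocTriv ρ K x → ∃ i, x ∈ S i := by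
  choose T N hcov hT using fun a : ℕ => hH.pieces A (a : ℤ_[p])
  refine ⟨fun i => {x ∈ K | (∀ t, ρ ((p : ℤ_[p]) ^ i.1 * t) x = x) ∧ ∀ a, x ∈ T a.1 (i.2 a)},
    fun i x y => ∑ a : Fin (p ^ i.1), ‖ρ (a.1 : ℤ_[p]) x - ρ (a.1 : ℤ_[p]) y‖,
    fun i x hx => hx.1, fun i => ?_, ?_, ?_⟩
  · refine Thin.sum Finset.univ (fun a _ => ?_) fun a _ x _ y _ => norm_nonneg _
    exact thin_single A.cpt (A.cont_g _) (fun x hx => hx.1)
      ((hT a.1 (i.2 a)).2.mono_set fun x hx => hx.2.2 a)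
  · intro i x hx y hy g
    obtain ⟨u, hu⟩ := Ideal.mem_span_singleton'.mp (PadicInt.appr_spec i.1 g)
    have hg : g = (PadicInt.appr g i.1 : ℤ_[p]) + (p : ℤ_[p]) ^ i.1 * u := by linear_combination -hu
    set a : ℤ_[p] := (PadicInt.appr g i.1 : ℤ_[p]) with ha
    have e : ∀ w ∈ K, (∀ t, ρ ((p : ℤ_[p]) ^ i.1 * t) w = w) → ρ g w = ρ a w := fun w hw hw' => by
      rw [hg, A.add a ((p : ℤ_[p]) ^ i.1 * u) w hw, hw' u]
    have key : ∀ (N : ℕ) (F : Fin N → ℝ), (∀ j, 0 ≤ F j) → ∀ j, F j ≤ ∑ j, F j :=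
      fun N F hF j => Finset.single_le_sum (fun j _ => hF j) (Finset.mem_univ j)
    have h1 := key (p ^ i.1) (fun j => ‖ρ (j.1 : ℤ_[p]) x - ρ (j.1 : ℤ_[p]) y‖)
      (fun j => norm_nonneg _) ⟨PadicInt.appr g i.1, PadicInt.appr_lt g i.1⟩
    have h2 : ‖ρ g x - ρ g y‖ = ‖ρ a x - ρ a y‖ := by rw [e x hx.1 hx.2.1, e y hy.1 hy.2.1]
    beta_reduce at h1 ⊢
    rw [h2, ha]
    exact h1
  · intro x hx hx'
    obtain ⟨l, hl⟩ := hx'
    choose J hJ using fun a : Fin (p ^ l) => mem_iUnion.mp (hcov a.1 hx)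
    exact ⟨⟨l, J⟩, hx, mem_of_mem_nhdsWithin hx hl, hJ⟩

/-- Almost every fibre of a map with thin control has null images in the plane. -/
theorem ae_null_fibres {ι : Type*} [Countable ι] {σ : ℤ_[p] → Vec n → Vec n}
    {γ : Vec n → Vec n} {f : Vec n → Vec n} {C : ℝ} (hC : 1 ≤ C) {S : ι → Set (Vec n)}
    (hS : ∀ j, Bornology.IsBounded (S j)) (D : ι → Vec n → Vec n → ℝ)
    (hD : ∀ j, Thin (D j) (S j))
    (hU : ∀ j, ∀ x ∈ S j, ∀ y ∈ S j, avgd σ (γ x) (γ y) ≤ D j x y)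
    (hf : ∀ j, ∀ x ∈ S j, ∀ y ∈ S j, dist (f (γ x)) (f (γ y)) ≤ C * D j x y)
    (K' : Set (Vec n)) :
    ∀ᵐ z : Vec n ∂volume, ∀ (Φ : Vec n → Vec 2) CΦ, OrbLip σ K' Φ CΦ → ∀ P : Set (Vec n),
      P ⊆ K' → (P ⊆ ⋃ j, γ '' S j) → (∀ u ∈ P, f u = z) → volume (Φ '' P) = 0 := by
  let S' : ι → Set (Vec n) := fun j => S j ∩ γ ⁻¹' K'
  have hD0 : ∀ j, ∀ x ∈ S' j, ∀ y ∈ S' j, 0 ≤ D j x y := fun j x hx y hy =>
    (avgd_nonneg σ _ _).trans (hU j x hx.1 y hy.1)
  have hD' : ∀ j, Thin (D j) (S' j) := fun j ε hε => by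
    obtain ⟨r, hr, h⟩ := hD j ε hε
    exact ⟨r, hr, fun m t x y h1 h2 h3 => h m t x y h1 h2 (h3.mono inter_subset_left)⟩
  have h : ∀ q : ι × ℕ, ∀ᵐ z : Vec n ∂volume, ∀ Φ : Vec n → Vec 2,
      (∀ x ∈ S' q.1, ∀ y ∈ S' q.1, dist (Φ x) (Φ y) ≤ (C + q.2) * D q.1 x y) →
      volume (Φ '' (S' q.1 ∩ (f ∘ γ) ⁻¹' {z})) = 0 := by
    rintro ⟨j, M⟩
    obtain ⟨L, hL⟩ := ((hS j).subset (inter_subset_left : S' j ⊆ S j)).subset_closedBall 0
    obtain ⟨L', hL'⟩ := exists_nat_ge L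
    exact Two.ae_small_fibres (L := L') (hL.trans (closedBall_subset_closedBall hL'))
      (hD0 j) (hD' j) (M := C + (M : ℝ)) (by positivity) fun x hx y hy =>
        (hf j x hx.1 y hy.1).trans
          (mul_le_mul_of_nonneg_right (le_add_of_nonneg_right M.cast_nonneg) (hD0 j x hx y hy))
  rw [← ae_all_iff] at h
  filter_upwards [h] with z hz Φ CΦ hΦ P hPK hP hPz
  obtain ⟨M, hM⟩ := exists_nat_ge CΦ
  have hsub : Φ '' P ⊆ ⋃ j, (Φ ∘ γ) '' (S' j ∩ (f ∘ γ) ⁻¹' {z}) := by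
    rintro _ ⟨u, hu, rfl⟩
    obtain ⟨j, a, ha, rfl⟩ := mem_iUnion.mp (hP hu)
    exact mem_iUnion.mpr ⟨j, a, ⟨⟨ha, hPK hu⟩, hPz _ hu⟩, rfl⟩
  refine measure_mono_null hsub (measure_iUnion_null fun j => hz (j, M) _ fun a ha b hb => ?_)
  exact (hΦ.2 _ ha.2 _ hb.2).trans ((mul_le_mul_of_nonneg_left (hU j a ha.1 b hb.1) hΦ.1).trans
    (mul_le_mul_of_nonneg_right (by linarith) (hD0 j a ha b hb)))

theorem exists_mem_ball_of_ae {P : Vec n → Prop} (h : ∀ᵐ z : Vec n ∂volume, P z) (c : Vec n)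
    {r : ℝ} (hr : 0 < r) : ball c r ⊆ closure (ball c r ∩ {z | P z}) := by
  have hd : Dense {z : Vec n | P z} := Measure.dense_of_ae h
  exact fun y hy => hd.open_subset_closure_inter isOpen_ball hy

/-- The Baire step. -/
theorem exists_locTriv {ρ : ℤ_[p] → Vec n → Vec n} {K : Set (Vec n)} (A : Act ρ K)
    (hH : PwVar ρ K) {v : Vec n} {R : ℝ} (hR : 0 < R) (hball : closedBall v R ⊆ K)
    {F : Set (Vec n)} (hF : IsClosed F) (hvF : v ∈ F)
    (htriv : ∀ x ∈ K, x ∉ F → LocTriv ρ K x) (hdisp : ∀ t, ∀ x ∈ K, ‖ρ t x - x‖ ≤ R / 4) :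
    ∃ y ∈ F ∩ ball v R, LocTriv ρ K y := by
  set C := closure (F ∩ ball v (R / 2)) with hCdef
  have hCF : C ⊆ F := closure_minimal inter_subset_left hF
  have hCb : C ⊆ closedBall v (R / 2) :=
    closure_minimal (inter_subset_right.trans ball_subset_closedBall) isClosed_closedBall
  have hCK : C ⊆ K := hCb.trans ((closedBall_subset_closedBall (by linarith)).trans hball)
  have hCc : IsCompact C := (isCompact_closedBall v (R / 2)).of_isClosed_subset isClosed_closure hCb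
  have : CompactSpace C := isCompact_iff_compactSpace.mp hCc
  have : Nonempty C := ⟨⟨v, subset_closure ⟨hvF, mem_ball_self (half_pos hR)⟩⟩⟩
  let u : ℕ → C := TopologicalSpace.denseSeq C
  let W : ℕ → ℕ → Set (Vec n) := fun i k => C ∩ ball (u i : Vec n) (1 / (k + 1))
  let E : ℕ × ℕ × ℕ → Set ℤ_[p] := fun q =>
    {g | VarBd (ρ g) (W q.1 q.2.1) (sexp n q.2.2) (q.2.2 + 1) (1 / (q.2.2 + 1))}
  have hEc : ∀ q, IsClosed (E q) := by
    intro q
    simp only [E, VarBd, Set.ofPred_forall]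
    refine isClosed_iInter fun m => isClosed_iInter fun t => isClosed_iInter fun x =>
      isClosed_iInter fun y => isClosed_iInter fun _ => isClosed_iInter fun _ =>
      isClosed_iInter fun hP => isClosed_le (continuous_finsetSum _ fun k _ => ?_) continuous_const
    exact ((A.cont_orbit (hCK (hP.1 k).1.1)).sub (A.cont_orbit (hCK (hP.1 k).2.1.1))).norm.rpow_const
      fun _ => Or.inr (sexp_pos n _).le
  have hEU : ∀ g, ∃ q, g ∈ E q := by
    intro g
    obtain ⟨T, N, hcov, hT⟩ := hH.pieces A g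
    obtain ⟨j, w, hw⟩ := nonempty_interior_of_iUnion_of_closed
      (f := fun j => ((↑) : C → Vec n) ⁻¹' closure (T j))
      (fun j => isClosed_closure.preimage continuous_subtype_val) (eq_univ_of_forall fun x => by
        obtain ⟨j, hj⟩ := mem_iUnion.mp (hcov (hCK x.2))
        exact mem_iUnion.mpr ⟨j, subset_closure hj⟩)
    obtain ⟨η, hη, hηT⟩ := Metric.mem_nhds_iff.mp (mem_interior_iff_mem_nhds.mp hw)
    obtain ⟨i, hi⟩ := (TopologicalSpace.denseRange_denseSeq C).exists_dist_lt w (half_pos hη)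
    obtain ⟨k, hk⟩ := exists_nat_one_div_lt (half_pos hη)
    refine ⟨(i, k, N j), ((hT j).2.closure A.cpt.isClosed (A.cont_g g) (hT j).1
      (sexp_pos n _)).mono_set ?_⟩
    rintro x ⟨hxC, hxd⟩
    exact hηT (show (⟨x, hxC⟩ : C) ∈ ball w η by
      have h2 := mem_ball.mp hxd
      have h3 : dist (u i : Vec n) (w : Vec n) < η / 2 := by rw [dist_comm]; exact hi
      rw [mem_ball, Subtype.dist_eq]
      linarith [dist_triangle x (u i : Vec n) (w : Vec n)])
  obtain ⟨⟨i₀, k₀, N₀⟩, g₀, hint⟩ := nonempty_interior_of_iUnion_of_closed hEc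
    (eq_univ_of_forall fun g => mem_iUnion.mpr (hEU g))
  obtain ⟨ε, hε, hεE⟩ := Metric.mem_nhds_iff.mp (mem_interior_iff_mem_nhds.mp hint)
  have hk₀ : (0:ℝ) < 1 / (k₀ + 1) := by positivity
  obtain ⟨x₀, ⟨hx₀F, hx₀b⟩, hx₀d⟩ := Metric.mem_closure_iff.mp (u i₀).2 _ hk₀
  rw [dist_comm] at hx₀d
  have hx₀C : x₀ ∈ C := subset_closure ⟨hx₀F, hx₀b⟩
  set c := ρ g₀ x₀ with hc
  have hx₀K := hCK hx₀C
  have hcK : c ∈ K := A.maps g₀ hx₀K
  by_contra hno
  have hxv : dist x₀ v < R / 2 := hx₀b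
  have hnotriv : ¬ LocTriv ρ K x₀ := fun h =>
    hno ⟨x₀, ⟨hx₀F, mem_ball.mpr (by linarith)⟩, h⟩
  -- radius around `c`
  obtain ⟨r, hr, hrball, hrW, hrv⟩ : ∃ r > 0, ball x₀ r ⊆ K ∧ C ∩ ball x₀ r ⊆ W i₀ k₀ ∧
      ball x₀ r ⊆ ball v (R / 2) := by
    set a := 1 / ((k₀ : ℝ) + 1) - dist x₀ (u i₀ : Vec n) with ha
    refine ⟨min a (R / 2 - dist x₀ v), lt_min (by linarith) (by linarith), ?_, ?_, ?_⟩
    · intro y hy
      exact hball (mem_closedBall.mpr (by
        linarith [dist_triangle y x₀ v, mem_ball.mp hy, min_le_right a (R / 2 - dist x₀ v)]))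
    · rintro y ⟨hyC, hy⟩
      exact ⟨hyC, mem_ball.mpr (by
        linarith [dist_triangle y x₀ (u i₀ : Vec n), mem_ball.mp hy, min_le_left a (R / 2 - dist x₀ v)])⟩
    · intro y hy
      exact mem_ball.mpr (by
        linarith [dist_triangle y x₀ v, mem_ball.mp hy, min_le_right a (R / 2 - dist x₀ v)])
  obtain ⟨s₁, hs₁, hs₁'⟩ := Metric.continuousWithinAt_iff.mp ((A.cont_g (-g₀)) c hcK) r hr
  rw [show ρ (-g₀) c = x₀ from A.inv_add g₀ hx₀K] at hs₁'
  -- a ball around `c` inside `K`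
  have hs₂' : closedBall c (R / 4) ⊆ K := by
    intro y hy
    refine hball (mem_closedBall.mpr ?_)
    have h := hdisp g₀ x₀ hx₀K
    rw [← dist_eq_norm, ← hc] at h
    linarith [dist_triangle y c v, dist_triangle c x₀ v, mem_closedBall.mp hy]
  set s := min s₁ (R / 4) with hsdef
  have hs : 0 < s := lt_min hs₁ (by linarith)
  obtain ⟨k₁, hk₁⟩ : ∃ k : ℕ, ∀ t : ℤ_[p], dist (g₀ + (p : ℤ_[p]) ^ k * t) g₀ < ε := by
    obtain ⟨k, hk⟩ := exists_pow_lt_of_lt_one hε (show (p : ℝ)⁻¹ < 1 from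
      inv_lt_one_of_one_lt₀ (by exact_mod_cast (Fact.out : p.Prime).one_lt))
    refine ⟨k, fun t => ?_⟩
    rw [dist_eq_norm, add_sub_cancel_left, norm_mul, norm_pow, PadicInt.norm_p]
    exact lt_of_le_of_lt (mul_le_of_le_one_right (by positivity) (PadicInt.norm_le_one t)) hk
  obtain ⟨k₂, hk₂⟩ := A.exists_small_displacement (show (0:ℝ) < s / 20 by linarith)
  let σ : ℤ_[p] → Vec n → Vec n := fun t => ρ ((p : ℤ_[p]) ^ (k₁ + k₂) * t)
  have B : Act σ K := A.scale _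
  have hdσ : ∀ t, ∀ x ∈ K, ‖σ t x - x‖ ≤ s / 20 := fun t x hx => by
    have h := hk₂ ((p : ℤ_[p]) ^ k₁ * t) x hx
    rwa [← mul_assoc, ← pow_add, add_comm] at h
  -- saturation of the small ball
  set R' := s / 2 with hR'def
  set K₁ := {u ∈ K | orbDist σ c u ≤ R'} with hK₁
  have hK₁c : IsCompact K₁ := A.cpt.of_isClosed_subset
    ((B.orbDist_continuousOn c).preimage_isClosed_of_isClosed A.cpt.isClosed isClosed_Iic)
    fun u hu => hu.1
  have B₁ : Act σ K₁ := B.restrict (fun u hu => hu.1) hK₁c fun g u hu =>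
    ⟨B.maps g hu.1, by rw [B.orbDist_inv c g hu.1]; exact hu.2⟩
  have hK₁ball : ∀ u ∈ K₁, dist u c < s := by
    intro u hu
    obtain ⟨g, hg⟩ : ∃ g, ‖σ g u - c‖ < R' + s / 20 := exists_lt_of_ciInf_lt
      (lt_of_le_of_lt hu.2 (show R' < R' + s / 20 by linarith))
    have h := hdσ g u hu.1
    rw [dist_eq_norm]
    calc ‖u - c‖ = ‖(σ g u - c) - (σ g u - u)‖ := by rw [sub_sub_sub_cancel_left]
      _ ≤ ‖σ g u - c‖ + ‖σ g u - u‖ := norm_sub_le _ _
      _ < s := by linarith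
  have hballK₁ : closedBall c R' ⊆ K₁ := by
    intro u hu
    have huK : u ∈ K := hs₂' (closedBall_subset_closedBall
      (by linarith [min_le_right s₁ (R / 4)]) hu)
    refine ⟨huK, (ciInf_le ⟨0, by rintro _ ⟨g, rfl⟩; exact norm_nonneg _⟩ 0).trans ?_⟩
    rw [B.zero u huK, ← dist_eq_norm]
    exact mem_closedBall.mp hu
  -- the pieces
  obtain ⟨S₁, D₁, hS₁K, hD₁, hdom₁, hcov₁⟩ := A.triv_cover hH
  let S : Option (Σ l : ℕ, Fin (p ^ l) → ℕ) → Set (Vec n) := fun j => match j with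
    | none => C ∩ ball x₀ r
    | some i => S₁ i ∩ ball x₀ r
  let D : Option (Σ l : ℕ, Fin (p ^ l) → ℕ) → Vec n → Vec n → ℝ := fun j => match j with
    | none => fun x y => avgd σ (ρ g₀ x) (ρ g₀ y)
    | some i => D₁ i
  have hSb : ∀ j, S j ⊆ ball x₀ r := by rintro (_ | i) <;> exact inter_subset_right
  have hγK : ∀ j, ∀ x ∈ S j, ρ g₀ x ∈ K := fun j x hx => A.maps g₀ (hrball (hSb j hx))
  have eσ : ∀ t, ∀ w ∈ K, σ t (ρ g₀ w) = ρ ((p : ℤ_[p]) ^ (k₁ + k₂) * t + g₀) w := fun t w hw =>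
    (A.add _ _ w hw).symm
  have hD : ∀ j, Thin (D j) (S j) := by
    rintro (_ | i)
    · refine thin_avgd (σ := σ) (γ := ρ g₀) (S := C ∩ ball x₀ r) B (fun x hx => hγK none x hx)
        (thin_sums (ψ := fun t w => σ t (ρ g₀ w)) (S := C ∩ ball x₀ r) (N := N₀) (fun t => ?_) ?_)
      · intro m τ x y hτ hτr hP
        have hmem : VarBd (ρ ((p : ℤ_[p]) ^ (k₁ + k₂) * t + g₀)) (W i₀ k₀) (sexp n N₀) (N₀ + 1)
            (1 / (N₀ + 1)) := hεE (show (p : ℤ_[p]) ^ (k₁ + k₂) * t + g₀ ∈ ball g₀ ε by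
          rw [mem_ball, add_comm, pow_add, mul_assoc]; exact hk₁ _)
        refine le_of_eq_of_le (Finset.sum_congr rfl fun k _ => ?_)
          (hmem m τ x y hτ hτr (hP.mono hrW))
        simp only [eσ t _ (hrball (hP.1 k).1.2), eσ t _ (hrball (hP.1 k).2.1.2)]
      · intro η hη
        obtain ⟨δ, hδ, hδ'⟩ := A.uniform hη
        refine ⟨δ, hδ, fun x hx y hy hd t => ?_⟩
        rw [eσ t x (hrball hx.2), eσ t y (hrball hy.2), ← dist_eq_norm]
        exact (hδ' x (hrball hx.2) y (hrball hy.2) (by rwa [dist_eq_norm]) _).le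
    · intro η hη
      obtain ⟨ρ', hρ', h⟩ := hD₁ i η hη
      exact ⟨ρ', hρ', fun m t x y h1 h2 h3 => h m t x y h1 h2 (h3.mono inter_subset_left)⟩
  have hU : ∀ j, ∀ x ∈ S j, ∀ y ∈ S j, avgd σ (ρ g₀ x) (ρ g₀ y) ≤ D j x y := by
    rintro (_ | i) x hx y hy
    · exact le_rfl
    · refine B.avgd_le (hγK (some i) x hx) (hγK (some i) y hy) fun t => ?_
      rw [eσ t x (hrball hx.2), eσ t y (hrball hy.2)]
      exact hdom₁ i x hx.1 y hy.1 _
  have hae := ae_null_fibres (σ := σ) (γ := ρ g₀) (f := mean σ) le_rfl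
    (fun j => isBounded_ball.subset (hSb j)) D hD hU
    (fun j x hx y hy => by
      rw [one_mul]
      exact (B.mean_lip (hγK j x hx) (hγK j y hy)).trans (hU j x hx y hy)) K₁
  have hcover : ∀ u ∈ K₁, u ∈ ⋃ j, ρ g₀ '' S j := by
    intro u hu
    have hw : ρ (-g₀) u ∈ ball x₀ r :=
      mem_ball.mpr (hs₁' hu.1 ((hK₁ball u hu).trans_le (min_le_left _ _)))
    have heq : ρ g₀ (ρ (-g₀) u) = u := by
      rw [← A.add _ _ u hu.1, add_neg_cancel, A.zero u hu.1]
    by_cases hwF : ρ (-g₀) u ∈ F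
    · exact mem_iUnion.mpr ⟨none, _, ⟨subset_closure ⟨hwF, ball_subset_ball le_rfl (hrv hw)⟩, hw⟩,
        heq⟩
    · obtain ⟨i, hi⟩ := hcov₁ _ (hrball hw) (htriv _ (hrball hw) hwF)
      exact mem_iUnion.mpr ⟨some i, _, ⟨hi, hw⟩, heq⟩
  have hfix : ∀ᵐ z : Vec n ∂volume, z ∈ ball c (s / 10) → ∀ t, σ t z = z := by
    filter_upwards [hae] with z hz hzb
    have hbd : ∀ u ∈ K₁, ‖mean σ u - u‖ ≤ s / 20 := fun u hu =>
      B.mean_disp hu.1 fun g => hdσ g u hu.1
    have hzc : ‖z - c‖ < s / 10 := by rw [← dist_eq_norm]; exact hzb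
    obtain ⟨u, hu, huz, hufix⟩ := exists_fixed_thin B₁ (v := c) (z := z) (f := mean σ)
      (R := 2 * s / 5) (R' := R') (δ := s / 20) (m := 3 * s / 10) (by linarith) (by linarith)
      (by linarith) hballK₁ B₁.mean_continuousOn (fun g y hy => B₁.mean_inv g hy)
      (fun y hy => hbd y (hballK₁ hy)) (fun y hy => hdσ 1 y (hballK₁ hy).1)
      (fun y h1 h2 => by
        have := hbd y (hballK₁ (mem_closedBall.mpr (by rwa [dist_eq_norm])))
        have := norm_sub_norm_le (y - c) (mean σ y - c)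
        rw [sub_sub_sub_cancel_right, norm_sub_rev y (mean σ y)] at this
        linarith)
      (fun y h1 h2 => by
        have := hdσ 1 y (hballK₁ (mem_closedBall.mpr (by rwa [dist_eq_norm]))).1
        have := norm_sub_norm_le (y - c) (σ 1 y - c)
        rw [sub_sub_sub_cancel_right, norm_sub_rev y (σ 1 y)] at this
        linarith)
      (by linarith)
      (fun u hu huz => by
        have := hbd u hu
        have h2 := norm_sub_norm_le (u - c) (mean σ u - c)
        rw [sub_sub_sub_cancel_right, norm_sub_rev u (mean σ u), huz] at h2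
        rw [huz] at this
        linarith)
      (fun Φ CΦ hΦ => hz Φ CΦ hΦ _ (fun u hu => hu.1) (fun u hu => hcover u hu.1) fun u hu => hu.2)
    have e : mean σ u = u := Act.mean_fixed hufix
    rw [huz] at e
    exact fun t => by rw [e]; exact hufix t
  apply hnotriv
  refine ⟨k₁ + k₂, ?_⟩
  have hcl : ∀ z ∈ ball c (s / 10), ∀ t, σ t z = z := by
    intro z hz t
    have hsub : closedBall c (s / 10) ⊆ K :=
      (closedBall_subset_closedBall (by linarith [min_le_right s₁ (R / 4)])).trans hs₂'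
    have hcls : IsClosed (closedBall c (s / 10) ∩ (fun w => σ t w - w) ⁻¹' {0}) :=
      (((B.cont_g t).mono hsub).sub continuousOn_id).preimage_isClosed_of_isClosed
        isClosed_closedBall isClosed_singleton
    have hsubset : ball c (s / 10) ∩ {w | w ∈ ball c (s / 10) → ∀ t, σ t w = w} ⊆
        closedBall c (s / 10) ∩ (fun w => σ t w - w) ⁻¹' {0} := fun w hw =>
      ⟨ball_subset_closedBall hw.1, sub_eq_zero.mpr (hw.2 hw.1 t)⟩
    have := closure_minimal hsubset hcls (exists_mem_ball_of_ae hfix c (by linarith) hz)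
    exact sub_eq_zero.mp this.2
  obtain ⟨d, hd, hd'⟩ := Metric.continuousWithinAt_iff.mp ((A.cont_g g₀) x₀ hx₀K) (s / 10) (by linarith)
  rw [eventually_nhdsWithin_iff, Metric.eventually_nhds_iff]
  refine ⟨d, hd, fun y hyd hyK t => ?_⟩
  have h1 := hcl (ρ g₀ y) (mem_ball.mpr (hd' hyK hyd)) t
  have h2 : ρ g₀ (ρ ((p : ℤ_[p]) ^ (k₁ + k₂) * t) y) = ρ g₀ y := by
    rw [← A.add _ _ y hyK, add_comm, A.add _ _ y hyK]; exact h1
  have h3 := congrArg (ρ (-g₀)) h2
  rwa [A.inv_add g₀ (A.maps _ hyK), A.inv_add g₀ hyK] at h3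

/-- The Newman step: fixed closed balls grow. -/
theorem fixed_ball_grows {ρ : ℤ_[p] → Vec n → Vec n} {K : Set (Vec n)} (A : Act ρ K)
    (hH : PwVar ρ K) {v : Vec n} {R₀ R : ℝ} (hR₀ : 0 < R₀) (hR : R₀ < R)
    (hball : closedBall v R ⊆ K) (htriv : ∀ x ∈ K, LocTriv ρ K x)
    (hfixed : ∀ t, ∀ x ∈ closedBall v R₀, ρ t x = x) :
    ∃ θ > 0, ∀ t, ∀ x ∈ ball v (R₀ + θ), ρ t x = x := by
  have hb0 : closedBall v R₀ ⊆ K := (closedBall_subset_closedBall hR.le).trans hball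
  obtain ⟨δ, hδ, hδ'⟩ := A.uniform (show (0:ℝ) < R₀ / 16 by linarith)
  set η := min (min (δ / 2) (R₀ / 16)) (R - R₀) with hηdef
  have hη : 0 < η := lt_min (lt_min (half_pos hδ) (by linarith)) (by linarith)
  have hbR : closedBall v (R₀ + η) ⊆ K := (closedBall_subset_closedBall
    (by linarith [min_le_right (min (δ / 2) (R₀ / 16)) (R - R₀)])).trans hball
  have hdisp : ∀ y ∈ closedBall v (R₀ + η), ∀ t, ‖ρ t y - y‖ ≤ R₀ / 8 := by
    intro y hy t
    rw [mem_closedBall, dist_eq_norm] at hy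
    obtain ⟨y₀, hy₀, hyy₀⟩ : ∃ y₀ ∈ closedBall v R₀, dist y y₀ ≤ η := by
      rcases le_or_gt ‖y - v‖ R₀ with h | h
      · exact ⟨y, mem_closedBall.mpr (by rwa [dist_eq_norm]), by rw [dist_self]; exact hη.le⟩
      · have hn : 0 < ‖y - v‖ := by linarith
        refine ⟨v + (R₀ / ‖y - v‖) • (y - v), ?_, ?_⟩
        · rw [mem_closedBall, dist_eq_norm, add_sub_cancel_left, norm_smul, norm_div, norm_norm,
            Real.norm_of_nonneg hR₀.le, div_mul_cancel₀ _ hn.ne']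
        · have e : y - (v + (R₀ / ‖y - v‖) • (y - v)) = (1 - R₀ / ‖y - v‖) • (y - v) := by module
          rw [dist_eq_norm, e, norm_smul, Real.norm_eq_abs,
            abs_of_nonneg (by linarith [(div_le_one hn).mpr h.le]), sub_mul, one_mul,
            div_mul_cancel₀ _ hn.ne']
          linarith
    have h1 := hδ' y (hbR (mem_closedBall.mpr (by rwa [dist_eq_norm]))) y₀ (hb0 hy₀) (by
      linarith [min_le_left (min (δ / 2) (R₀ / 16)) (R - R₀), min_le_left (δ / 2) (R₀ / 16)]) t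
    rw [hfixed t y₀ hy₀] at h1
    rw [← dist_eq_norm]
    linarith [dist_triangle (ρ t y) y₀ y, dist_comm y y₀,
      min_le_left (min (δ / 2) (R₀ / 16)) (R - R₀), min_le_right (δ / 2) (R₀ / 16)]
  set K₁ := {u ∈ K | orbDist ρ v u ≤ R₀ + η} with hK₁
  have hK₁c : IsCompact K₁ := A.cpt.of_isClosed_subset
    ((A.orbDist_continuousOn v).preimage_isClosed_of_isClosed A.cpt.isClosed isClosed_Iic)
    fun u hu => hu.1
  have A₁ : Act ρ K₁ := A.restrict (fun u hu => hu.1) hK₁c fun g u hu =>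
    ⟨A.maps g hu.1, by rw [A.orbDist_inv v g hu.1]; exact hu.2⟩
  have hdisp₁ : ∀ u ∈ K₁, ∀ t, ‖ρ t u - u‖ ≤ R₀ / 4 := by
    intro u hu t
    obtain ⟨g, hg⟩ := ((isCompact_univ (X := ℤ_[p])).exists_isMinOn univ_nonempty
      (((A.cont_orbit hu.1).sub continuous_const (g := fun _ => v)).norm.continuousOn))
    have hg1 : ‖ρ g u - v‖ ≤ R₀ + η :=
      (le_ciInf fun h => hg.2 (mem_univ h)).trans hu.2
    have hy : ρ g u ∈ closedBall v (R₀ + η) := mem_closedBall.mpr (by rwa [dist_eq_norm])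
    have h1 := hdisp _ hy (t - g)
    have h2 := hdisp _ hy (-g)
    rw [← A.add _ _ u hu.1, sub_add_cancel] at h1
    rw [A.inv_add g hu.1] at h2
    calc ‖ρ t u - u‖ = ‖(ρ t u - ρ g u) - (u - ρ g u)‖ := by rw [sub_sub_sub_cancel_right]
      _ ≤ ‖ρ t u - ρ g u‖ + ‖u - ρ g u‖ := norm_sub_le _ _
      _ ≤ R₀ / 4 := by linarith
  have hballK₁ : closedBall v (R₀ + η) ⊆ K₁ := by
    intro u hu
    refine ⟨hbR hu, (ciInf_le ⟨0, by rintro _ ⟨g, rfl⟩; exact norm_nonneg _⟩ 0).trans ?_⟩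
    rw [A.zero u (hbR hu), ← dist_eq_norm]
    exact mem_closedBall.mp hu
  -- a positive margin outside the fixed ball
  set D := closedBall v (R₀ + η) \ ball v (R₀ + η / 2) with hD
  have hDc : IsCompact D := (isCompact_closedBall _ _).diff isOpen_ball
  have hac : ContinuousOn (orbDist ρ v) D :=
    (A.orbDist_continuousOn v).mono (sdiff_subset.trans hbR)
  have hapos : ∀ y ∈ D, R₀ < orbDist ρ v y := by
    intro y hy
    by_contra hle
    obtain ⟨g, hg⟩ := ((isCompact_univ (X := ℤ_[p])).exists_isMinOn univ_nonempty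
      (((A.cont_orbit (hbR hy.1)).sub continuous_const (g := fun _ => v)).norm.continuousOn))
    have hg1 : ‖ρ g y - v‖ ≤ R₀ := (le_ciInf fun h => hg.2 (mem_univ h)).trans (not_lt.mp hle)
    have hmem : ρ g y ∈ closedBall v R₀ := mem_closedBall.mpr (by rwa [dist_eq_norm])
    have hyfix : y = ρ g y := by
      have := hfixed (-g) _ hmem
      rwa [A.inv_add g (hbR hy.1)] at this
    apply hy.2
    rw [← hyfix, mem_closedBall] at hmem
    exact mem_ball.mpr (by linarith)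
  obtain ⟨m, hm0, hm1, hm⟩ : ∃ m, R₀ < m ∧ m ≤ R₀ + η / 2 ∧ ∀ y ∈ D, m ≤ orbDist ρ v y := by
    rcases D.eq_empty_or_nonempty with he | hne
    · exact ⟨R₀ + η / 2, by linarith, le_rfl, by simp [he]⟩
    · obtain ⟨y₀, hy₀, hmin⟩ := hDc.exists_isMinOn hne hac
      exact ⟨min (R₀ + η / 2) (orbDist ρ v y₀), lt_min (by linarith) (hapos y₀ hy₀),
        min_le_left _ _, fun y hy => (min_le_right _ _).trans (hmin hy)⟩
  refine ⟨m - R₀, by linarith, ?_⟩
  rw [add_sub_cancel]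
  obtain ⟨S₁, D₁, hS₁K, hD₁, hdom₁, hcov₁⟩ := A.triv_cover hH
  let S := fun i => K₁ ∩ S₁ i
  have hS : ∀ j, Bornology.IsBounded (S j) := fun j => hK₁c.isBounded.subset inter_subset_left
  have hD : ∀ j, Thin (D₁ j) (S j) := fun j ε hε => by
    obtain ⟨ρ', hρ', h⟩ := hD₁ j ε hε
    exact ⟨ρ', hρ', fun m t x y h1 h2 h3 => h m t x y h1 h2 (h3.mono inter_subset_right)⟩
  have hae := ae_null_fibres (σ := ρ) (γ := id) (f := outer ρ v) one_le_two hS D₁ hD
    (fun j x hx y hy => A.avgd_le (hS₁K j hx.2) (hS₁K j hy.2) (hdom₁ j x hx.2 y hy.2))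
    (fun j x hx y hy => A₁.outer_lip v hx.1 hy.1 (hdom₁ j x hx.2 y hy.2)) K₁
  have hfix : ∀ᵐ z : Vec n ∂volume, z ∈ ball v m → ∀ t, ρ t z = z := by
    filter_upwards [hae] with z hz hzb
    have hbd : ∀ u ∈ K₁, ‖outer ρ v u - u‖ ≤ R₀ / 4 ∧
        (R₀ / 4 < ‖u - v‖ → ‖u - v‖ ≤ ‖outer ρ v u - v‖) := fun u hu =>
      A.outer_bounds v hu.1 (hdisp₁ u hu)
    have hzc : ‖z - v‖ < m := by rw [← dist_eq_norm]; exact hzb
    obtain ⟨u, hu, huz, hufix⟩ := exists_fixed_thin A₁ (v := v) (z := z) (f := outer ρ v)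
      (R := R₀ + η / 2) (R' := R₀ + η) (δ := R₀ / 4) (m := m) (by linarith) (by linarith)
      hm1 hballK₁ (A₁.outer_continuousOn v) (fun g y hy => A₁.outer_inv v g hy)
      (fun y hy => (hbd y (hballK₁ hy)).1) (fun y hy => hdisp₁ y (hballK₁ hy) 1)
      (fun y h1 h2 => by
        have := (hbd y (hballK₁ (mem_closedBall.mpr (by rwa [dist_eq_norm])))).2 (by linarith)
        linarith)
      (fun y h1 h2 => by
        have hyD : y ∈ D := ⟨mem_closedBall.mpr (by rwa [dist_eq_norm]), fun h => by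
          rw [mem_ball, dist_eq_norm] at h; linarith⟩
        exact (hm y hyD).trans (ciInf_le ⟨0, by rintro _ ⟨g, rfl⟩; exact norm_nonneg _⟩ 1))
      hzc
      (fun u hu huz => by
        rcases le_or_gt ‖u - v‖ (R₀ / 4) with h | h
        · linarith
        · have := (hbd u hu).2 h
          rw [huz] at this
          linarith)
      (fun Φ CΦ hΦ => hz Φ CΦ hΦ _ (fun u hu => hu.1) (fun u hu => by
        obtain ⟨i, hi⟩ := hcov₁ u hu.1.1 (htriv u hu.1.1)
        exact mem_iUnion.mpr ⟨i, u, ⟨hu.1, hi⟩, rfl⟩) fun u hu => hu.2)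
    have e : outer ρ v u = u := Act.outer_fixed v hufix
    rw [huz] at e
    exact fun t => by rw [e]; exact hufix t
  intro t x hx
  have hsub : closedBall v m ⊆ K := (closedBall_subset_closedBall (by linarith)).trans hbR
  have hcls : IsClosed (closedBall v m ∩ (fun w => ρ t w - w) ⁻¹' {0}) :=
    (((A.cont_g t).mono hsub).sub continuousOn_id).preimage_isClosed_of_isClosed
      isClosed_closedBall isClosed_singleton
  have hsubset : ball v m ∩ {w | w ∈ ball v m → ∀ t, ρ t w = w} ⊆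
      closedBall v m ∩ (fun w => ρ t w - w) ⁻¹' {0} := fun w hw =>
    ⟨ball_subset_closedBall hw.1, sub_eq_zero.mpr (hw.2 hw.1 t)⟩
  have := closure_minimal hsubset hcls (exists_mem_ball_of_ae hfix v (by linarith) hx)
  exact sub_eq_zero.mp this.2

end Vale.Agent.P228
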