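import Vale.Agent.P228.Two.Local

/-! Passing from charts to manifolds. -/

open Set Metric Filter Topology

namespace Vale.Agent.P228

variable {n : ℕ} {p : ℕ} [Fact p.Prime] {M : Type*} [TopologicalSpace M]
  [ChartedSpace (Vec n) M]

/-- The chart at `c`. -/
noncomputable def chartV (c : M) : OpenPartialHomeomorph M (Vec n) := chartAt (Vec n) c

variable [AddAction ℤ_[p] M]

/-- Every group element is, in every chart, countably piecewise of finite variation of an exponent
below `n + 2`. -/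
def VarAction (n : ℕ) (p : ℕ) [Fact p.Prime] (M : Type*) [TopologicalSpace M]
    [ChartedSpace (Vec n) M] [AddAction ℤ_[p] M] : Prop :=
  ∀ (g : ℤ_[p]) (c : M), ∃ (S : ℕ → Set (Vec n)) (s C r : ℕ → ℝ),
    (chartV (n := n) c).target ∩
        {u | g +ᵥ (chartV (n := n) c).symm u ∈ (chartV (n := n) c).source} ⊆ ⋃ j, S j ∧
    ∀ j, s j < n + 2 ∧ 0 < r j ∧
      VarBd (fun u => chartV (n := n) c (g +ᵥ (chartV (n := n) c).symm u)) (S j) (s j) (C j) (r j)

/-- A point has a neighbourhood fixed by the subgroup `p^l ℤ_[p]`. -/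
def FixNear (p : ℕ) [Fact p.Prime] [AddAction ℤ_[p] M] (l : ℕ) (x : M) : Prop :=
  ∀ᶠ y in 𝓝 x, ∀ t : ℤ_[p], ((p : ℤ_[p]) ^ l * t) +ᵥ y = y

theorem isOpen_fixNear (l : ℕ) : IsOpen {x : M | FixNear p l x} := by
  rw [isOpen_iff_mem_nhds]
  exact fun x hx => eventually_eventually_nhds.mpr hx

theorem FixNear.mono {l m : ℕ} {x : M} (h : FixNear p l x) (hlm : l ≤ m) : FixNear p m x := by
  refine Filter.Eventually.mono h fun y hy t => ?_
  rw [← Nat.add_sub_cancel' hlm, pow_add, mul_assoc]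
  exact hy _

/-- The action of `p^k ℤ_[p]` in a chart. -/
noncomputable def chartRho (c : M) (k : ℕ) (t : ℤ_[p]) (u : Vec n) : Vec n :=
  chartV c (((p : ℤ_[p]) ^ k * t) +ᵥ (chartV (n := n) c).symm u)

/-- The saturation of a set under `p^k ℤ_[p]`. -/
def sat (p : ℕ) [Fact p.Prime] [AddAction ℤ_[p] M] (k : ℕ) (S : Set M) : Set M :=
  (fun q : ℤ_[p] × M => ((p : ℤ_[p]) ^ k * q.1) +ᵥ q.2) '' (univ ×ˢ S)

theorem subset_sat (k : ℕ) (S : Set M) : S ⊆ sat p k S := fun q hq =>
  ⟨(0, q), ⟨mem_univ _, hq⟩, by simp⟩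

theorem sat_invariant {k : ℕ} {S : Set M} {q : M} (hq : q ∈ sat p k S) (t : ℤ_[p]) :
    ((p : ℤ_[p]) ^ k * t) +ᵥ q ∈ sat p k S := by
  obtain ⟨⟨s, a⟩, ⟨-, ha⟩, rfl⟩ := hq
  exact ⟨(t + s, a), ⟨mem_univ _, ha⟩, by simp only [mul_add, add_vadd]⟩

variable [T2Space M] [ContinuousVAdd ℤ_[p] M]

theorem isCompact_sat {k : ℕ} {S : Set M} (hS : IsCompact S) : IsCompact (sat p k S) :=
  (isCompact_univ.prod hS).image ((continuous_const.mul continuous_fst).vadd continuous_snd)

theorem act_chart {c : M} {k : ℕ} {L : Set M} (hL : IsCompact L)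
    (hLs : L ⊆ (chartV (n := n) c).source)
    (hLi : ∀ q ∈ L, ∀ t : ℤ_[p], ((p : ℤ_[p]) ^ k * t) +ᵥ q ∈ L) :
    Act (chartRho (p := p) (n := n) c k) (chartV (n := n) c '' L) where
  cpt := hL.image_of_continuousOn ((chartV c).continuousOn.mono hLs)
  cont := by
    have h1 : ContinuousOn (fun q : ℤ_[p] × Vec n => (chartV (n := n) c).symm q.2)
        (univ ×ˢ (chartV (n := n) c '' L)) :=
      (chartV c).continuousOn_symm.comp continuousOn_snd fun q hq => by
        obtain ⟨a, ha, e⟩ := hq.2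
        rw [← e]; exact (chartV c).map_source (hLs ha)
    have h2 : ContinuousOn (fun q : ℤ_[p] × Vec n =>
        ((p : ℤ_[p]) ^ k * q.1) +ᵥ (chartV (n := n) c).symm q.2)
        (univ ×ˢ (chartV (n := n) c '' L)) :=
      continuous_vadd.comp_continuousOn (f := fun q : ℤ_[p] × Vec n =>
        (((p : ℤ_[p]) ^ k * q.1), (chartV (n := n) c).symm q.2))
        ((continuous_const.mul continuous_fst).continuousOn.prodMk h1)
    refine (chartV c).continuousOn.comp h2 fun q hq => hLs ?_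
    obtain ⟨a, ha, e⟩ := hq.2
    rw [← e, (chartV c).left_inv (hLs ha)]
    exact hLi a ha _
  maps t := by
    rintro _ ⟨a, ha, rfl⟩
    exact ⟨_, hLi a ha t, by rw [chartRho, (chartV c).left_inv (hLs ha)]⟩
  zero := by
    rintro _ ⟨a, ha, rfl⟩
    rw [chartRho, (chartV c).left_inv (hLs ha), mul_zero, zero_vadd]
  add g h := by
    rintro _ ⟨a, ha, rfl⟩
    simp only [chartRho, (chartV c).left_inv (hLs ha), (chartV c).left_inv (hLs (hLi a ha h)),
      mul_add, add_vadd]

theorem pwVar_chart (hreg : VarAction n p M) {c : M} {k : ℕ} {L : Set M}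
    (hLs : L ⊆ (chartV (n := n) c).source)
    (hLi : ∀ q ∈ L, ∀ t : ℤ_[p], ((p : ℤ_[p]) ^ k * t) +ᵥ q ∈ L) :
    PwVar (chartRho (p := p) (n := n) c k) (chartV (n := n) c '' L) := by
  intro t
  obtain ⟨S, s, C, r, hcov, hv⟩ := hreg ((p : ℤ_[p]) ^ k * t) c
  refine ⟨S, s, C, r, ?_, hv⟩
  rintro _ ⟨a, ha, rfl⟩
  exact hcov ⟨(chartV c).map_source (hLs ha), by
    show ((p : ℤ_[p]) ^ k * t) +ᵥ (chartV (n := n) c).symm (chartV (n := n) c a) ∈
      (chartV (n := n) c).source
    rw [(chartV c).left_inv (hLs ha)]; exact hLs (hLi a ha t)⟩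

omit [T2Space M] in
/-- A small closed chart ball around `c` whose saturation stays in the chart. -/
theorem exists_chart_ball {c : M} {k : ℕ}
    (hc : ∀ t : ℤ_[p], ((p : ℤ_[p]) ^ k * t) +ᵥ c ∈ (chartV (n := n) c).source) :
    ∃ R > 0, closedBall (chartV (n := n) c c) R ⊆ (chartV (n := n) c).target ∧
      sat p k ((chartV (n := n) c).symm '' closedBall (chartV (n := n) c c) R) ⊆
        (chartV (n := n) c).source := by
  have hcs : c ∈ (chartV (n := n) c).source := mem_chart_source _ c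
  obtain ⟨U, V, -, hVo, hU, hcV, hUV⟩ := generalized_tube_lemma
    (isCompact_univ (X := ℤ_[p])) (isCompact_singleton (x := c))
    ((chartV (n := n) c).open_source.preimage
      (show Continuous fun q : ℤ_[p] × M => ((p : ℤ_[p]) ^ k * q.1) +ᵥ q.2 from
        (continuous_const.mul continuous_fst).vadd continuous_snd))
    (by rintro ⟨t, y⟩ ⟨-, hy⟩; rw [mem_singleton_iff] at hy; subst hy; exact hc t)
  have hnhds : (chartV (n := n) c).target ∩ (chartV (n := n) c).symm ⁻¹' V ∈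
      𝓝 (chartV (n := n) c c) :=
    inter_mem ((chartV c).open_target.mem_nhds ((chartV c).map_source hcs))
      ((chartV c).tendsto_symm hcs (hVo.mem_nhds (hcV rfl)))
  obtain ⟨R, hR, hRsub⟩ := Metric.nhds_basis_closedBall.mem_iff.mp hnhds
  refine ⟨R, hR, fun u hu => (hRsub hu).1, ?_⟩
  rintro _ ⟨⟨t, q⟩, ⟨-, u, hu, rfl⟩, rfl⟩
  exact hUV (show (t, (chartV (n := n) c).symm u) ∈ U ×ˢ V from ⟨hU (mem_univ _), (hRsub hu).2⟩)

/-- Local triviality of the action near every point. -/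
theorem exists_fixNear (hreg : VarAction n p M) (x : M) : ∃ l, FixNear p l x := by
  by_contra hx
  set e := chartV (n := n) x
  have hxs : x ∈ e.source := mem_chart_source _ x
  -- a subgroup keeping the point in the chart
  obtain ⟨k₀, hk₀⟩ : ∃ k : ℕ, ∀ t : ℤ_[p], ((p : ℤ_[p]) ^ k * t) +ᵥ x ∈ e.source := by
    have hopen : IsOpen {g : ℤ_[p] | g +ᵥ x ∈ e.source} :=
      e.open_source.preimage (continuous_id.vadd continuous_const)
    obtain ⟨ε, hε, hεs⟩ := Metric.isOpen_iff.mp hopen 0 (by simpa using hxs)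
    obtain ⟨k, hk⟩ := exists_pow_lt_of_lt_one hε (show (p : ℝ)⁻¹ < 1 from
      inv_lt_one_of_one_lt₀ (by exact_mod_cast (Fact.out : p.Prime).one_lt))
    refine ⟨k, fun t => hεs ?_⟩
    rw [mem_ball, dist_zero_right, norm_mul, norm_pow, PadicInt.norm_p]
    exact lt_of_le_of_lt (mul_le_of_le_one_right (by positivity) (PadicInt.norm_le_one t)) hk
  obtain ⟨R, hR, hRt, hRs⟩ := exists_chart_ball (n := n) hk₀
  set L := sat p k₀ (e.symm '' closedBall (e x) R) with hL
  have hLc : IsCompact L := isCompact_sat ((isCompact_closedBall _ _).image_of_continuousOn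
    (e.continuousOn_symm.mono hRt))
  have hLi := fun q (hq : q ∈ L) t => sat_invariant hq t
  set K := e '' L
  have hball : closedBall (e x) R ⊆ K := fun u hu =>
    ⟨e.symm u, subset_sat _ _ ⟨u, hu, rfl⟩, e.right_inv (hRt hu)⟩
  have A₀ : Act (chartRho (p := p) (n := n) x k₀) K := act_chart hLc hRs hLi
  have hH₀ : PwVar (chartRho (p := p) (n := n) x k₀) K := pwVar_chart hreg hRs hLi
  obtain ⟨k₁, hk₁⟩ := A₀.exists_small_displacement (show (0:ℝ) < R / 4 by linarith)
  let ρ : ℤ_[p] → Vec n → Vec n := fun t => chartRho (p := p) (n := n) x k₀ ((p : ℤ_[p]) ^ k₁ * t)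
  have A : Act ρ K := A₀.scale _
  have hH : PwVar ρ K := fun g => hH₀ _
  have hρ : ∀ t u, ρ t u = e (((p : ℤ_[p]) ^ (k₀ + k₁) * t) +ᵥ e.symm u) := fun t u => by
    simp only [ρ, chartRho, pow_add, mul_assoc, e]
  set F := {y : M | ¬ ∃ l, FixNear p l y}
  have hFc : IsClosed F := by
    rw [← isOpen_compl_iff]
    have : Fᶜ = ⋃ l, {y : M | FixNear p l y} := by ext y; simp [F]
    rw [this]
    exact isOpen_iUnion fun l => isOpen_fixNear l
  have hF'c : IsClosed (e '' (L ∩ F)) :=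
    ((hLc.inter_right hFc).image_of_continuousOn
      (e.continuousOn.mono (inter_subset_left.trans hRs))).isClosed
  have hxF' : e x ∈ e '' (L ∩ F) := ⟨x, ⟨subset_sat _ _ ⟨e x, mem_closedBall_self hR.le,
    e.left_inv hxs⟩, hx⟩, rfl⟩
  obtain ⟨y, ⟨hyF, hyb⟩, l, hl⟩ := exists_locTriv A hH hR hball hF'c hxF' (fun u hu huF => by
    obtain ⟨a, ha, rfl⟩ := hu
    obtain ⟨l, hl⟩ : ∃ l, FixNear p l a := not_not.mp fun h => huF ⟨a, ⟨ha, h⟩, rfl⟩
    refine ⟨l, ?_⟩
    have hev := ((e.tendsto_symm (hRs ha)).mono_left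
      (nhdsWithin_le_nhds (s := K))).eventually hl
    filter_upwards [hev, self_mem_nhdsWithin] with w hw hwK t
    obtain ⟨b, hb, rfl⟩ := hwK
    rw [hρ, ← mul_assoc, ← pow_add, add_comm, pow_add, mul_assoc, hw _, e.left_inv (hRs hb)])
    hk₁
  obtain ⟨a, ⟨haL, haF⟩, rfl⟩ := hyF
  apply haF
  refine ⟨k₀ + k₁ + l, ?_⟩
  rw [nhdsWithin_eq_nhds.mpr (mem_of_superset (isOpen_ball.mem_nhds hyb)
    (ball_subset_closedBall.trans hball))] at hl
  have hev := (e.continuousAt (hRs haL)).eventually (hl.and (isOpen_ball.mem_nhds hyb))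
  filter_upwards [hev, e.open_source.mem_nhds (hRs haL)] with q hq hqs t
  obtain ⟨b, hb, hbe⟩ := hball (ball_subset_closedBall hq.2)
  obtain rfl : b = q := e.injOn (hRs hb) hqs hbe
  have h := hq.1 t
  rw [hρ, e.left_inv hqs, ← mul_assoc, ← pow_add] at h
  refine e.injOn (hRs ?_) hqs h
  rw [add_assoc, pow_add, mul_assoc]
  exact hLi _ hb _

/-- The set of points fixed near by a given subgroup is closed. -/
theorem isClosed_fixNear (hreg : VarAction n p M) (k : ℕ) : IsClosed {x : M | FixNear p k x} := by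
  refine isClosed_of_closure_subset fun x hx => ?_
  have hfixed : ∀ t : ℤ_[p], ((p : ℤ_[p]) ^ k * t) +ᵥ x = x := fun t =>
    closure_minimal (fun y hy => (mem_of_mem_nhds hy : y ∈ {y | ∀ t : ℤ_[p],
        ((p : ℤ_[p]) ^ k * t) +ᵥ y = y}) t)
      (isClosed_eq (continuous_const_vadd _) continuous_id) hx
  set e := chartV (n := n) x
  have hxs : x ∈ e.source := mem_chart_source _ x
  obtain ⟨R, hR, hRt, hRs⟩ := exists_chart_ball (n := n) (c := x) (k := k)
    fun t => by rw [hfixed t]; exact hxs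
  set L := sat p k (e.symm '' closedBall (e x) R) with hL
  have hLc : IsCompact L := isCompact_sat ((isCompact_closedBall _ _).image_of_continuousOn
    (e.continuousOn_symm.mono hRt))
  have hLi := fun q (hq : q ∈ L) t => sat_invariant hq t
  set K := e '' L
  set ρ := chartRho (p := p) (n := n) x k
  have A : Act ρ K := act_chart hLc hRs hLi
  have hH : PwVar ρ K := pwVar_chart hreg hRs hLi
  have hball : closedBall (e x) R ⊆ K := fun u hu =>
    ⟨e.symm u, subset_sat _ _ ⟨u, hu, rfl⟩, e.right_inv (hRt hu)⟩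
  have htriv : ∀ u ∈ K, LocTriv ρ K u := by
    rintro _ ⟨a, ha, rfl⟩
    obtain ⟨l, hl⟩ := exists_fixNear (n := n) hreg a
    refine ⟨l, ?_⟩
    filter_upwards [((e.tendsto_symm (hRs ha)).mono_left
      (nhdsWithin_le_nhds (s := K))).eventually hl, self_mem_nhdsWithin] with w hw hwK t
    obtain ⟨b, hb, rfl⟩ := hwK
    show e (((p : ℤ_[p]) ^ k * ((p : ℤ_[p]) ^ l * t)) +ᵥ e.symm (e b)) = e b
    rw [← mul_assoc, ← pow_add, add_comm, pow_add, mul_assoc, hw _, e.left_inv (hRs hb)]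
  -- a fixed ball near the point
  have hnb : e.source ∩ e ⁻¹' ball (e x) (R / 4) ∈ 𝓝 x :=
    inter_mem (e.open_source.mem_nhds hxs)
      ((e.continuousAt hxs) (ball_mem_nhds _ (by linarith)))
  obtain ⟨a, ⟨has, hab⟩, hak⟩ := mem_closure_iff_nhds.mp hx _ hnb
  set v := e a
  have hv : dist v (e x) < R / 4 := hab
  have hvsub : closedBall v (3 * R / 4) ⊆ closedBall (e x) R := fun w hw =>
    mem_closedBall.mpr (by linarith [dist_triangle w v (e x), mem_closedBall.mp hw])
  set T := {r : ℝ | r ∈ Icc 0 (R / 2) ∧ ∀ t, ∀ u ∈ ball v r, ρ t u = u} with hT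
  have hball0 : ∃ r > 0, r ∈ T := by
    have hev := (e.tendsto_symm has).eventually hak
    have hev' : ∀ᶠ u in 𝓝 v, ∀ t, ρ t u = u := by
      filter_upwards [hev, e.open_target.mem_nhds (e.map_source has)] with u hu hut t
      show e (((p : ℤ_[p]) ^ k * t) +ᵥ e.symm u) = u
      rw [hu t, e.right_inv hut]
    obtain ⟨r, hr, hr'⟩ := Metric.eventually_nhds_iff.mp hev'
    exact ⟨min r (R / 2), lt_min hr (by linarith), ⟨(lt_min hr (by linarith)).le, min_le_right _ _⟩,
      fun t u hu => hr' ((mem_ball.mp hu).trans_le (min_le_left _ _)) t⟩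
  obtain ⟨r₀, hr₀, hr₀T⟩ := hball0
  have hTne : T.Nonempty := ⟨r₀, hr₀T⟩
  have hTb : BddAbove T := ⟨R / 2, fun r hr => hr.1.2⟩
  set r := sSup T
  have hr_pos : 0 < r := hr₀.trans_le (le_csSup hTb hr₀T)
  have hr_le : r ≤ R / 2 := csSup_le hTne fun s hs => hs.1.2
  have hopen : ∀ t, ∀ u ∈ ball v r, ρ t u = u := fun t u hu => by
    obtain ⟨s, hs, hus⟩ := exists_lt_of_lt_csSup hTne (mem_ball.mp hu)
    exact hs.2 t u (mem_ball.mpr hus)
  have hclosed : ∀ t, ∀ u ∈ closedBall v r, ρ t u = u := by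
    intro t u hu
    have hsub : closedBall v r ⊆ K :=
      (closedBall_subset_closedBall (by linarith)).trans (hvsub.trans hball)
    rw [← closure_ball v hr_pos.ne'] at hu
    have hcls : IsClosed (closedBall v r ∩ (fun w => ρ t w - w) ⁻¹' {0}) :=
      (((A.cont_g t).mono hsub).sub continuousOn_id).preimage_isClosed_of_isClosed
        isClosed_closedBall isClosed_singleton
    have hsubset : ball v r ⊆ closedBall v r ∩ (fun w => ρ t w - w) ⁻¹' {0} :=
      fun w hw => ⟨ball_subset_closedBall hw, sub_eq_zero.mpr (hopen t w hw)⟩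
    exact sub_eq_zero.mp (closure_minimal hsubset hcls hu).2
  have hr_eq : r = R / 2 := by
    by_contra hne
    have hlt : r < R / 2 := lt_of_le_of_ne hr_le hne
    obtain ⟨θ, hθ, hθ'⟩ := fixed_ball_grows A hH hr_pos (show r < 3 * R / 4 by linarith)
      (hvsub.trans hball) htriv hclosed
    have hmem : min (r + θ) (R / 2) ∈ T :=
      ⟨⟨(lt_min (by linarith) (by linarith)).le, min_le_right _ _⟩,
        fun t u hu => hθ' t u (mem_ball.mpr ((mem_ball.mp hu).trans_le (min_le_left _ _)))⟩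
    have : r < min (r + θ) (R / 2) := lt_min (by linarith) hlt
    linarith [le_csSup hTb hmem]
  have hxb : e x ∈ ball v (R / 2) := mem_ball.mpr (by rw [dist_comm]; linarith)
  show FixNear p k x
  filter_upwards [(e.continuousAt hxs).eventually ((isOpen_ball (x := v) (ε := r)).mem_nhds
    (hr_eq ▸ hxb)), e.open_source.mem_nhds hxs] with q hq hqs t
  have hqL : q ∈ L := by
    obtain ⟨b, hb, hbe⟩ := hball (hvsub (closedBall_subset_closedBall (by linarith)
      (ball_subset_closedBall hq)))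
    rwa [← e.injOn (hRs hb) hqs hbe]
  refine e.injOn (hRs (hLi q hqL t)) hqs ?_
  have h := hopen t (e q) hq
  simp only [ρ, chartRho] at h
  rwa [e.left_inv hqs] at h

/-- An action of countably piecewise finite variation factors through a finite quotient. -/
theorem factors_through_finite [ConnectedSpace M] (hreg : VarAction n p M) :
    ∃ k : ℕ, ∀ (g : ℤ_[p]) (x : M), ((p : ℤ_[p]) ^ k * g) +ᵥ x = x := by
  obtain ⟨x₀⟩ := (inferInstance : Nonempty M)
  obtain ⟨k, hk⟩ := exists_fixNear (n := n) hreg x₀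
  refine ⟨k, fun g x => ?_⟩
  have h := IsClopen.eq_univ ⟨isClosed_fixNear (n := n) hreg k, isOpen_fixNear k⟩ ⟨x₀, hk⟩
  have hx : x ∈ {x : M | FixNear p k x} := h ▸ mem_univ x
  exact (mem_of_mem_nhds hx : x ∈ {y | ∀ t : ℤ_[p], ((p : ℤ_[p]) ^ k * t) +ᵥ y = y}) g

end Vale.Agent.P228
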