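import Vale.Agent.P228.Two.Windows

/-! Composition with the symmetry, rotation by one step, and the total degree over a full turn. -/

open MeasureTheory Set Metric Filter Topology
open scoped BigOperators Real

namespace Vale.Agent.P228.Two

variable {n : ℕ}

namespace Frame

variable {F : Frame n}

/-- A symmetry of a frame: it preserves the domain, `f` and rotates `θ` by one step. -/
structure Symm (F : Frame n) (G : Vec n → Vec n) : Prop where
  cont : Continuous G
  idOut : ∃ R, ∀ x, R < ‖x‖ → G x = x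
  maps : MapsTo G F.U F.U
  inv : ∀ x ∈ closure F.U, F.f (G x) = F.f x ∧ F.θ (G x) = F.om * F.θ x
  back : ∀ x, G x ∈ closure F.U → ‖F.f (G x)‖ < F.δ → x ∈ F.U

lemma Symm.mapsCl {G : Vec n → Vec n} (hG : F.Symm G) : MapsTo G (closure F.U) (closure F.U) :=
  hG.maps.closure hG.cont

variable {k : ℤ} {A A' : (Vec n → Vec n) × (Vec n → ℂ)}

lemma om_ne (F : Frame n) : F.om ≠ 0 := Complex.exp_ne_zero _

lemma Good.comp (hA : F.Good k A) {G : Vec n → Vec n} (hG : F.Symm G) :
    F.Good (k + 1) (A.1 ∘ G, A.2 ∘ G) where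
  c1 := hA.c1.comp hG.cont
  c2 := hA.c2.comp hG.cont
  near x hx := by
    have h := hA.near (G x) (hG.mapsCl hx)
    obtain ⟨e1, e2⟩ := hG.inv x hx
    simp only [NearP, Function.comp_apply, e1, e2] at h ⊢
    rwa [zpow_add₀ F.om_ne, zpow_one, mul_assoc]
  avoid x hx := hA.avoid (G x) (hG.mapsCl hx)

lemma Good.rot (hA : F.Good k A) : F.Good (k + 1) (A.1, fun x => F.om * A.2 x) where
  c1 := hA.c1
  c2 := continuous_const.mul hA.c2
  near x hx := by
    obtain ⟨h1, h2⟩ := hA.near x hx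
    refine ⟨h1, ?_⟩
    rw [zpow_add₀ F.om_ne, zpow_one, show F.om * A.2 x - F.om ^ k * F.om * F.θ x =
      F.om * (A.2 x - F.om ^ k * F.θ x) by ring, norm_mul, F.norm_om, one_mul]
    exact h2
  avoid x hx h0 u hu i := by
    have e : A.2 x = Complex.exp (u - F.L * Complex.I) := by
      rw [Complex.exp_sub, eq_div_iff (Complex.exp_ne_zero _), mul_comm]
      exact hu
    have := hA.avoid x hx h0 _ e (i - 1)
    have h2 : F.ray i = F.ray (i - 1) + F.L := by rw [← ray_succ, sub_add_cancel]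
    rw [h2]
    simpa [sub_sub, add_comm] using this

/-- Interpolation of composed maps is the composed interpolation. -/
lemma deg_mix_comp (hA : F.Good k A) (hA' : F.Good k A') {G : Vec n → Vec n} (hG : F.Symm G)
    {σ : ℝ → ℝ} (hσ : Continuous σ) (h01 : ∀ t, σ t ∈ Icc (0:ℝ) 1) {α β : ℝ} {i j : ℤ}
    (hα : |α - F.ray i| ≤ F.η) (hβ : |β - F.ray j| ≤ F.η) (h0 : σ α = 0 ∨ σ α = 1)
    (h1 : σ β = 0 ∨ σ β = 1) :
    deg (mix σ (A.1 ∘ G, A.2 ∘ G) (A'.1 ∘ G, A'.2 ∘ G)) (F.win α β) =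
      deg (mix σ A A') (F.win α β) := by
  obtain ⟨R, hR⟩ := hG.idOut
  set B := max (max |F.lo| |F.hi|) (max |α| |β|) with hB
  let χ : ℂ → ℝ := fun w => max 0 (min 1 (2 * B + 2 - ‖w‖))
  have hχc : Continuous χ := by fun_prop
  let G' : Vec (n + 2) → Vec (n + 2) := fun v =>
    jn (xp v + χ (wp v) • (G (xp v) - xp v)) (wp v)
  have hG'c : Continuous G' := continuous_jn
    (continuous_xp.add ((hχc.comp continuous_wp).smul ((hG.cont.comp continuous_xp).sub continuous_xp)))
    continuous_wp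
  have hG'w : ∀ v, wp (G' v) = wp v := fun v => wp_jn _ _
  have hG'1 : ∀ v, ‖wp v‖ ≤ 2 * B + 1 → xp (G' v) = G (xp v) := fun v hv => by
    have : χ (wp v) = 1 := by
      simp only [χ]; rw [min_eq_left (by linarith), max_eq_right zero_le_one]
    simp [G', this]
  have hid : ∀ v, 4 * B + 4 + max R 0 < ‖v‖ → G' v = v := by
    intro v hv
    have hB0 : 0 ≤ B := (abs_nonneg F.lo).trans ((le_max_left _ _).trans (le_max_left _ _))
    by_cases hx : R < ‖xp v‖
    · simp [G', hR _ hx, jn_xp_wp]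
    · have : χ (wp v) = 0 := by
        by_contra hne
        have hw : ‖wp v‖ < 2 * B + 2 := by
          by_contra h
          exact hne (max_eq_left ((min_le_right _ _).trans (by linarith [not_lt.mp h])))
        have : ‖v‖ ≤ 4 * B + 4 + max R 0 := by
          refine (pi_norm_le_iff_of_nonneg (by linarith [le_max_right R 0])).mpr fun l => ?_
          refine Fin.addCases (fun l => ?_) (fun l => ?_) l
          · refine (norm_le_pi_norm (xp v) l).trans ?_
            linarith [not_lt.mp hx, le_max_left R 0]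
          · have hl : ‖v (Fin.natAdd n l)‖ ≤ ‖wp v‖ := by
              fin_cases l
              · exact Complex.abs_re_le_norm (wp v)
              · exact Complex.abs_im_le_norm (wp v)
            linarith [le_max_right R 0]
        linarith
      simp [G', this, jn_xp_wp]
  have hwin : ∀ v : Vec (n + 2), α ≤ (wp v).im → (wp v).im ≤ β → F.lo ≤ (wp v).re → (wp v).re ≤ F.hi →
      ‖wp v‖ ≤ 2 * B + 1 := by
    intro v h1 h2 h3 h4
    have h5 : |(wp v).im| ≤ B := abs_le.mpr
      ⟨by linarith [neg_abs_le α, (le_max_left |α| |β|).trans (le_max_right (max |F.lo| |F.hi|) _)],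
       by linarith [le_abs_self β, (le_max_right |α| |β|).trans (le_max_right (max |F.lo| |F.hi|) _)]⟩
    have h6 : |(wp v).re| ≤ B := abs_le.mpr
      ⟨by linarith [neg_abs_le F.lo, (le_max_left |F.lo| |F.hi|).trans (le_max_left _ (max |α| |β|))],
       by linarith [le_abs_self F.hi, (le_max_right |F.lo| |F.hi|).trans (le_max_left _ (max |α| |β|))]⟩
    linarith [Complex.norm_le_abs_re_add_abs_im (wp v)]
  have hM := adm_mix hA hA' hσ h01 hα hβ h0 h1
  have hM' := adm_mix (hA.comp hG) (hA'.comp hG) hσ h01 hα hβ h0 h1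
  rw [← deg_comp hM hG'c hid]
  set M := mix σ A A'
  set M' := mix σ (A.1 ∘ G, A.2 ∘ G) (A'.1 ∘ G, A'.2 ∘ G)
  set O := F.win α β ∩ G' ⁻¹' F.win α β
  have hOo : IsOpen O := (F.isOpen_win _ _).inter ((F.isOpen_win _ _).preimage hG'c)
  have heq : ∀ v, ‖wp v‖ ≤ 2 * B + 1 → M' v = M (G' v) := fun v hv => by
    simp only [M, M', mix, Frame.Q, hG'w, hG'1 v hv, Function.comp_apply]
  have hbox : ∀ v ∈ closure (F.win α β), ‖wp v‖ ≤ 2 * B + 1 := fun v hv => by
    refine closure_minimal (t := (fun u : Vec (n + 2) => ‖wp u‖) ⁻¹' Iic (2 * B + 1))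
      (fun u hu => hwin u hu.2.2.2.1.le hu.2.2.2.2.le hu.2.1.le hu.2.2.1.le)
      (isClosed_Iic.preimage continuous_wp.norm) hv
  have hbd : Bornology.IsBounded (G' ⁻¹' F.win α β) := by
    obtain ⟨RW, hRW⟩ := (F.isBounded_win α β).subset_closedBall 0
    refine (isBounded_closedBall (x := (0 : Vec (n + 2))) (r := max (4 * B + 4 + max R 0) RW)).subset
      fun v hv => ?_
    rw [mem_closedBall, dist_zero_right]
    by_contra hlt
    rw [not_le, max_lt_iff] at hlt
    have := hRW hv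
    rw [hid v hlt.1, mem_closedBall, dist_zero_right] at this
    linarith [hlt.2]
  have hA2 : Adm (M ∘ G') (G' ⁻¹' F.win α β) := ⟨(F.isOpen_win _ _).preimage hG'c, hbd,
    hM.cont.comp hG'c, fun v hv hvW => hM.ne _ (hG'c.closure_preimage_subset _ hv) hvW⟩
  have hz : ∀ v ∈ closure (G' ⁻¹' F.win α β), M (G' v) = 0 → v ∈ O := by
    intro v hv h
    have hGv : G' v ∈ F.win α β := by_contra fun hW =>
      hM.ne _ (hG'c.closure_preimage_subset _ hv) hW h
    have hw : ‖wp v‖ ≤ 2 * B + 1 := by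
      rw [← hG'w]; exact hbox _ (subset_closure hGv)
    obtain ⟨e1, -⟩ := Q_eq_zero.mp h
    have hx : G (xp v) ∈ closure F.U := by rw [← hG'1 v hw]; exact subset_closure hGv.1
    have hn := mix_near hA hA' h01 (v := G' v) (subset_closure hGv.1)
    rw [e1] at hn
    have hsmall : ‖F.f (G (xp v))‖ < F.δ := by
      have := hn.1
      rwa [hG'1 v hw, zero_sub, norm_neg] at this
    refine ⟨⟨hG.back _ hx hsmall, ?_⟩, hGv⟩
    obtain ⟨-, h2, h3, h4, h5⟩ := hGv
    rw [hG'w] at h2 h3 h4 h5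
    exact ⟨h2, h3, h4, h5⟩
  have hz' : ∀ v ∈ closure (F.win α β), M' v = 0 → v ∈ O := by
    intro v hv h
    obtain ⟨hU, hr1, hr2, hi1, hi2⟩ : v ∈ F.win α β := by_contra fun hW => hM'.ne v hv hW h
    refine ⟨⟨hU, hr1, hr2, hi1, hi2⟩, ?_⟩
    show G' v ∈ F.win α β
    refine ⟨?_, ?_, ?_, ?_, ?_⟩
    · rw [hG'1 v (hbox v hv)]; exact hG.maps hU
    all_goals rw [hG'w]
    exacts [hr1, hr2, hi1, hi2]
  rw [deg_excise hM' hOo inter_subset_left hz', deg_excise hA2 hOo inter_subset_right hz]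
  refine deg_congr hM'.cont hA2.cont hOo ((F.isBounded_win α β).subset inter_subset_left)
    (fun v hv => heq v (hbox v (closure_mono inter_subset_left hv))) fun v hv hvO h => hvO ?_
  exact hz' v (closure_mono inter_subset_left hv) h

/-- Rotating by one step moves windows by one step. -/
lemma deg_rot {a : Vec (n + 2) → Vec n} {b : Vec (n + 2) → ℂ} {a' : Vec (n + 2) → Vec n}
    {b' : Vec (n + 2) → ℂ} {α β : ℝ} (ha' : Continuous a') (hb' : Continuous b')
    (hQ : Adm (Frame.Q a b) (F.win α β)) (hQ' : Adm (Frame.Q a' b') (F.win (α + F.L) (β + F.L)))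
    (h : ∀ v, a' (v + jn 0 (F.L * Complex.I)) = a v ∧
      b' (v + jn 0 (F.L * Complex.I)) = F.om * b v) :
    deg (Frame.Q a' b') (F.win (α + F.L) (β + F.L)) = deg (Frame.Q a b) (F.win α β) := by
  set c := jn (0 : Vec n) (F.L * Complex.I) with hc
  set τ : Vec (n + 2) → Vec (n + 2) := fun v => v + c
  have hxc : ∀ v, xp (v + c) = xp v := fun v => by
    funext l; show v _ + c _ = v _; simp [hc, jn]
  have hwc : ∀ v, wp (v + c) = wp v + F.L * Complex.I := fun v => by
    have e : wp (v + c) = wp v + wp c := by apply Complex.ext <;> simp [wp]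
    rw [e, hc, wp_jn]
  have hmem : ∀ v, v + c ∈ F.win (α + F.L) (β + F.L) ↔ v ∈ F.win α β := fun v => by
    simp [Frame.win, hxc, hwc]
  let Rt : ℝ → Vec (n + 2) → Vec (n + 2) := fun t v =>
    jn (xp v) (Complex.exp (t * F.L * Complex.I) * wp v)
  have hRt : Continuous fun q : ℝ × Vec (n + 2) => Rt q.1 q.2 := continuous_jn (by fun_prop) (by fun_prop)
  have hval : ∀ v, Frame.Q a' b' (τ v) = Rt 1 (Frame.Q a b v) := fun v => by
    simp only [τ, Frame.Q, Rt, xp_jn, wp_jn, Complex.ofReal_one, one_mul, (h v).1, (h v).2, hwc,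
      Complex.exp_add, Frame.om]
    congr 1; ring
  have hne : ∀ t v, Frame.Q a b v ≠ 0 → Rt t (Frame.Q a b v) ≠ 0 := fun t v hv h0 => by
    simp only [Rt, jn_eq_zero, mul_eq_zero, Complex.exp_ne_zero, false_or] at h0
    exact hv (by rw [← jn_xp_wp (Frame.Q a b v)]; exact jn_eq_zero.mpr h0)
  have h1 : deg (Frame.Q a b) (F.win α β) =
      deg (fun v => Rt 1 (Frame.Q a b v)) (F.win α β) := by
    have key := deg_homotopy (H := fun t v => Rt t (Frame.Q a b v))
      (hRt.comp (continuous_fst.prodMk (hQ.cont.comp continuous_snd))) hQ.op hQ.bdd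
      fun t _ v hv hvW => hne t v (hQ.ne v hv hvW)
    simpa [Rt, jn_xp_wp] using key
  have he : (Frame.Q a' b' ∘ τ) = fun v => Rt 1 (Frame.Q a b v) := funext hval
  rw [h1, ← he]
  have hd := contDiff_id.add (contDiff_const (c := c) (𝕜 := ℝ) (n := 1) (E := Vec (n + 2)))
  refine (deg_comp_inj hQ' hd ⟨hQ.op, hQ.bdd, hQ'.cont.comp (continuous_id.add continuous_const),
    fun v hv hvW => ?_⟩ (fun x _ y _ hxy => add_right_cancel hxy)
    (fun v _ => by simp only [id_eq]; rw [jac_add_const]; exact one_pos) ?_).symm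
  · show Frame.Q a' b' (τ v) ≠ 0
    rw [hval]; exact hne 1 v (hQ.ne v hv hvW)
  · ext u
    constructor
    · rintro ⟨v, hv, rfl⟩; exact (hmem v).mpr hv
    · intro hu; exact ⟨u - c, (hmem _).mp (by simpa using hu), by simp [τ]⟩

/-- The sector count of one map. -/
noncomputable def N (F : Frame n) (i : ℤ) (A : (Vec n → Vec n) × (Vec n → ℂ)) : ℤ :=
  deg (mix (fun _ => 0) A A) (F.win (F.ray i) (F.ray (i + 1)))

lemma adm_N (hA : F.Good k A) {α β : ℝ} {i j : ℤ} (hα : |α - F.ray i| ≤ F.η)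
    (hβ : |β - F.ray j| ≤ F.η) : Adm (mix (fun _ => 0) A A) (F.win α β) :=
  adm_mix hA hA continuous_const (fun _ => ⟨le_rfl, zero_le_one⟩) hα hβ (Or.inl rfl) (Or.inl rfl)

lemma abs_ray (F : Frame n) (i : ℤ) : |F.ray i - F.ray i| ≤ F.η := by simp [F.hη.le]

lemma Δ_comp (hA : F.Good k A) (hA' : F.Good k A') {G : Vec n → Vec n} (hG : F.Symm G) (i : ℤ) :
    F.Δ i (A.1 ∘ G, A.2 ∘ G) (A'.1 ∘ G, A'.2 ∘ G) = F.Δ i A A' :=
  deg_mix_comp hA hA' hG (continuous_ramp _ _) (ramp_mem _ _) (F.abs_edge i).1 (F.abs_edge i).2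
    (Or.inl (ramp_of_le (by linarith [F.hη]) le_rfl))
    (Or.inr (ramp_of_ge (by linarith [F.hη]) le_rfl))

lemma N_comp (hA : F.Good k A) {G : Vec n → Vec n} (hG : F.Symm G) (i : ℤ) :
    F.N i (A.1 ∘ G, A.2 ∘ G) = F.N i A :=
  deg_mix_comp hA hA hG continuous_const (fun _ => ⟨le_rfl, zero_le_one⟩) (F.abs_ray i)
    (F.abs_ray (i + 1)) (Or.inl rfl) (Or.inl rfl)

lemma N_rot (hA : F.Good k A) (i : ℤ) : F.N (i + 1) (A.1, fun x => F.om * A.2 x) = F.N i A := by
  have h1 := adm_N hA (F.abs_ray i) (F.abs_ray (i + 1))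
  have h2 := adm_N hA.rot (F.abs_ray (i + 1)) (F.abs_ray (i + 1 + 1))
  have := hA.c1; have := hA.c2
  unfold N
  rw [ray_succ F i] at h1 h2 ⊢
  rw [ray_succ F (i + 1), ray_succ F i] at h2 ⊢
  refine deg_rot (by fun_prop) (by fun_prop) h1 h2 fun v => ?_
  have hx : xp (v + jn 0 (F.L * Complex.I)) = xp v := by funext l; simp [xp, jn]
  simp [hx]

lemma Δ_rot (hA : F.Good k A) (hA' : F.Good k A') (i : ℤ) :
    F.Δ (i + 1) (A.1, fun x => F.om * A.2 x) (A'.1, fun x => F.om * A'.2 x) = F.Δ i A A' := by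
  have hη := F.hη
  have hσ0 : ∀ i, ramp (F.ray i - F.η) (F.ray i + F.η) (F.ray i - F.η) = 0 := fun i =>
    ramp_of_le (by linarith) le_rfl
  have hσ1 : ∀ i, ramp (F.ray i - F.η) (F.ray i + F.η) (F.ray i + F.η) = 1 := fun i =>
    ramp_of_ge (by linarith) le_rfl
  have h1 := adm_mix hA hA' (continuous_ramp _ _) (ramp_mem _ _) (F.abs_edge i).1 (F.abs_edge i).2
    (Or.inl (hσ0 i)) (Or.inr (hσ1 i))
  have h2 := adm_mix hA.rot hA'.rot (continuous_ramp _ _) (ramp_mem _ _) (F.abs_edge (i + 1)).1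
    (F.abs_edge (i + 1)).2 (Or.inl (hσ0 (i + 1))) (Or.inr (hσ1 (i + 1)))
  have := hA.c1; have := hA.c2; have := hA'.c1; have := hA'.c2
  unfold Δ
  rw [ray_succ F i] at h2 ⊢
  have e1 : F.ray i + F.L - F.η = F.ray i - F.η + F.L := by ring
  have e2 : F.ray i + F.L + F.η = F.ray i + F.η + F.L := by ring
  rw [e1, e2] at h2 ⊢
  refine deg_rot (by fun_prop) (by fun_prop) h1 h2 fun v => ?_
  have hx : xp (v + jn 0 (F.L * Complex.I)) = xp v := by funext l; simp [xp, jn]
  have hw : (wp (v + jn 0 (F.L * Complex.I))).im = (wp v).im + F.L := by simp [wp, jn]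
  have hr : ramp (F.ray i - F.η + F.L) (F.ray i + F.η + F.L) ((wp v).im + F.L) =
      ramp (F.ray i - F.η) (F.ray i + F.η) (wp v).im := by
    simp [ramp]
  simp only [hx, hw, hr]
  refine ⟨trivial, ?_⟩
  simp only [Complex.real_smul]
  ring

end Frame

end Vale.Agent.P228.Two
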