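import Vale.Agent.P228.Two.Shift

/-! The sector counts of one map over a full turn add up to one. -/

open MeasureTheory Set Metric Filter Topology
open scoped BigOperators Real

namespace Vale.Agent.P228.Two

variable {n : ℕ}

namespace Frame

variable {F : Frame n} {k : ℤ} {A : (Vec n → Vec n) × (Vec n → ℂ)}

lemma N_sum_win (hA : F.Good k A) (s : ℤ) (q : ℕ) :
    ∑ i ∈ Finset.range q, F.N (s + i) A =
      deg (mix (fun _ => 0) A A) (F.win (F.ray s) (F.ray (s + q))) := by
  induction q with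
  | zero =>
    have e : F.win (F.ray s) (F.ray (s + ((0:ℕ):ℤ))) = ∅ := by
      ext v; simp only [win, mem_ofPred_eq, mem_empty_iff_false, iff_false, Nat.cast_zero, add_zero]
      rintro ⟨-, -, -, h1, h2⟩; linarith
    have := hA.c1; have := hA.c2
    rw [Finset.range_zero, Finset.sum_empty, e, deg_empty]
    exact continuous_Q (by fun_prop) (by fun_prop)
  | succ q ih =>
    rw [Finset.sum_range_succ, ih, N]
    set α := F.ray s
    set a := F.ray (s + q) with ha
    have hb : F.ray (s + (q + 1 : ℕ)) = F.ray (s + q + 1) := by push_cast; ring_nf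
    rw [hb]
    set β := F.ray (s + q + 1) with hβ
    have hq : (0:ℝ) ≤ q := q.cast_nonneg
    have hL : 0 < F.L := by linarith [F.hη, F.hLη]
    have h1 : α ≤ a := by simp only [α, a, Frame.ray]; push_cast; nlinarith
    have h2 : a ≤ β := by simp only [a, β, Frame.ray]; push_cast; nlinarith
    have hsub : ∀ {u w : ℝ}, α ≤ u → w ≤ β → F.win u w ⊆ F.win α β := fun hu hw v hv =>
      ⟨hv.1, hv.2.1, hv.2.2.1, hu.trans_lt hv.2.2.2.1, hv.2.2.2.2.trans_le hw⟩
    have hAdm := adm_N hA (F.abs_ray s) (F.abs_ray (s + q + 1))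
    refine (deg_add hAdm (F.isOpen_win _ _) (F.isOpen_win _ _) (hsub le_rfl h2) (hsub h1 le_rfl)
      (disjoint_left.mpr fun v h h' => by linarith [h.2.2.2.2, h'.2.2.2.1]) fun v hv h => ?_).symm
    obtain ⟨hU, hr1, hr2, hi1, hi2⟩ : v ∈ F.win α β := by_contra fun hvW => hAdm.ne v hv hvW h
    rcases lt_trichotomy (wp v).im a with h' | h' | h'
    · exact Or.inl ⟨hU, hr1, hr2, hi1, h'⟩
    · exact absurd h (mix_ne hA hA (F.closure_win hv).1 (Or.inl rfl) (i := s + q)
        (by rw [h', ha]; exact F.abs_ray _))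
    · exact Or.inr ⟨hU, hr1, hr2, h', hi2⟩

/-- Over a full turn the count is one. -/
theorem N_sum_one (hA : F.Good k A) {p : ℕ} (hp : (p : ℝ) * F.L = 2 * π) (hf : Continuous F.f)
    {z₀ : Vec n} {R : ℝ} (hzero : ∀ x, F.f x = 0 → x ∈ F.U) (hout : ∀ x, R < ‖x‖ → F.f x = x - z₀)
    (s : ℤ) : ∑ i ∈ Finset.range p, F.N (s + i) A = 1 := by
  rw [N_sum_win hA s p]
  set α := F.ray s with hαdef
  have hβ : F.ray (s + p) = α + 2 * π := by
    simp only [α, Frame.ray]; push_cast; rw [← hp]; ring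
  rw [hβ]
  have := hA.c1; have := hA.c2
  let a₀ : Vec (n + 2) → Vec n := fun v => A.1 (xp v)
  let b₀ : Vec (n + 2) → ℂ := fun v => A.2 (xp v)
  let H : Vec (n + 2) → Vec (n + 2) := fun v => jn (A.1 (xp v)) (A.2 (xp v) - wp v)
  have hHc : Continuous H := continuous_jn (by fun_prop) (by fun_prop)
  have hcomp : mix (fun _ => 0) A A = H ∘ expMap := by
    funext v
    simp [mix, Frame.Q, H, expMap]
  have hAdm : Adm (mix (fun _ => 0) A A) (F.win α (α + 2 * π)) := by
    rw [← hβ]; exact adm_N hA (F.abs_ray s) (F.abs_ray (s + p))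
  rw [hcomp] at hAdm ⊢
  set rot := Complex.exp (-((α + π : ℝ) * Complex.I)) with hrot
  let W₁ : Set (Vec (n + 2)) := {v | xp v ∈ F.U ∧ Real.exp F.lo < ‖wp v‖ ∧ ‖wp v‖ < Real.exp F.hi ∧
    wp v * rot ∈ Complex.slitPlane}
  let W₂ : Set (Vec (n + 2)) := {v | xp v ∈ F.U ∧ ‖wp v‖ < Real.exp F.hi}
  have hW₁ : IsOpen W₁ := (F.hU.preimage continuous_xp).inter
    ((isOpen_lt continuous_const continuous_wp.norm).inter
      ((isOpen_lt continuous_wp.norm continuous_const).inter
        (Complex.isOpen_slitPlane.preimage (continuous_wp.mul continuous_const))))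
  have hW₂ : IsOpen W₂ :=
    (F.hU.preimage continuous_xp).inter (isOpen_lt continuous_wp.norm continuous_const)
  have hW₂b : Bornology.IsBounded W₂ :=
    (isBounded_prod F.hUb (isBounded_closedBall (x := (0 : ℂ)) (r := Real.exp F.hi))).subset
      fun v hv => ⟨hv.1, mem_closedBall.mpr (by rw [dist_zero_right]; exact hv.2.le)⟩
  have hW₁₂ : W₁ ⊆ W₂ := fun v hv => ⟨hv.1, hv.2.2.1⟩
  have hcl₂ : ∀ v ∈ closure W₂, xp v ∈ closure F.U ∧ ‖wp v‖ ≤ Real.exp F.hi := fun v hv =>
    closure_minimal (t := xp ⁻¹' closure F.U ∩ (fun v => ‖wp v‖) ⁻¹' Iic (Real.exp F.hi))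
      (fun u hu => ⟨subset_closure hu.1, (le_of_lt hu.2 : ‖wp u‖ ≤ _)⟩)
      ((isClosed_closure.preimage continuous_xp).inter (isClosed_Iic.preimage continuous_wp.norm)) hv
  have hzeros : ∀ v ∈ closure W₂, H v = 0 → v ∈ W₁ := by
    intro v hv h
    obtain ⟨hx, -⟩ := hcl₂ v hv
    obtain ⟨h1, h2⟩ := jn_eq_zero.mp h
    rw [sub_eq_zero] at h2
    have hn := hA.near _ hx
    obtain ⟨hn1, hn2⟩ := hn
    rw [h1, zero_sub, norm_neg] at hn1
    have hl := F.low _ hx hn1
    have hh := F.high _ hx hn1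
    have hnorm : ‖F.om ^ k * F.θ (xp v)‖ = ‖F.θ (xp v)‖ := by
      rw [norm_mul, norm_zpow, F.norm_om, one_zpow, one_mul]
    have h6 := norm_sub_norm_le (A.2 (xp v)) (F.om ^ k * F.θ (xp v))
    have h7 := norm_sub_norm_le (F.om ^ k * F.θ (xp v)) (A.2 (xp v))
    rw [norm_sub_rev] at h7
    rw [h2] at h6 h7 hn2
    have hlow : Real.exp F.lo < ‖wp v‖ := by linarith
    have hne : wp v ≠ 0 := norm_pos_iff.mp ((Real.exp_pos _).trans hlow)
    refine ⟨F.inner _ hx hn1, hlow, by linarith, ?_⟩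
    have hrne : rot ≠ 0 := Complex.exp_ne_zero _
    by_contra hslit
    rw [Complex.mem_slitPlane_iff_arg, not_and_or, not_not, not_not] at hslit
    rcases hslit with hs | hs
    · have e : Complex.exp (Complex.log (wp v * rot) + (α + π : ℝ) * Complex.I) = A.2 (xp v) := by
        rw [Complex.exp_add, Complex.exp_log (mul_ne_zero hne hrne), h2, hrot, mul_assoc,
          ← Complex.exp_add, neg_add_cancel, Complex.exp_zero, mul_one]
      have hA' := hA.avoid _ hx h1 _ e.symm (s + p)
      rw [hβ] at hA'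
      have : (Complex.log (wp v * rot) + (α + π : ℝ) * Complex.I).im = α + 2 * π := by
        simp [Complex.log_im, hs]; ring
      rw [this, sub_self, abs_zero] at hA'
      linarith [F.hη]
    · exact mul_ne_zero hne hrne hs
  have hA₂ : Adm H W₂ := ⟨hW₂, hW₂b, hHc, fun v hv hvW h => hvW (hW₁₂ (hzeros v hv h))⟩
  have hA₁ : Adm H W₁ := ⟨hW₁, hW₂b.subset hW₁₂, hHc,
    fun v hv hvW h => hvW (hzeros v (closure_mono hW₁₂ hv) h)⟩
  have himg : expMap '' F.win α (α + 2 * π) = W₁ := by
    ext u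
    constructor
    · rintro ⟨v, ⟨h1, h2, h3, h4, h5⟩, rfl⟩
      refine ⟨by simpa [expMap] using h1, ?_, ?_, ?_⟩
      · simpa [expMap, Complex.norm_exp] using h2
      · simpa [expMap, Complex.norm_exp] using h3
      · simp only [expMap, wp_jn, hrot, ← Complex.exp_add]
        set w := wp v + -((α + π : ℝ) * Complex.I)
        have him : w.im = (wp v).im - (α + π) := by simp [w]; ring
        rw [Complex.mem_slitPlane_iff_arg]
        refine ⟨?_, Complex.exp_ne_zero _⟩
        have e : Complex.log (Complex.exp w) = w := Complex.log_exp (by linarith) (by linarith)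
        have e2 : (Complex.exp w).arg = w.im := by rw [← Complex.log_im, e]
        rw [e2]
        linarith
    · rintro ⟨h1, h2, h3, h4⟩
      have h4' := Complex.mem_slitPlane_iff_arg.mp h4
      refine ⟨jn (xp u) (Complex.log (wp u * rot) + (α + π : ℝ) * Complex.I), ?_, ?_⟩
      · have hre : (Complex.log (wp u * rot) + (α + π : ℝ) * Complex.I).re = Real.log ‖wp u‖ := by
          simp [Complex.log_re, hrot, Complex.norm_exp]
        have him : (Complex.log (wp u * rot) + (α + π : ℝ) * Complex.I).im =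
            (wp u * rot).arg + (α + π) := by simp [Complex.log_im]
        have hp0 : 0 < ‖wp u‖ := (Real.exp_pos _).trans h2
        refine ⟨by simpa using h1, ?_, ?_, ?_, ?_⟩ <;> simp only [wp_jn, hre, him]
        · exact (Real.lt_log_iff_exp_lt hp0).mpr h2
        · exact (Real.log_lt_iff_lt_exp hp0).mpr h3
        · linarith [Complex.neg_pi_lt_arg (wp u * rot)]
        · have := lt_of_le_of_ne (Complex.arg_le_pi (wp u * rot)) h4'.1
          linarith
      · simp only [expMap, xp_jn, wp_jn]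
        rw [Complex.exp_add, Complex.exp_log h4'.2, hrot, mul_assoc, ← Complex.exp_add,
          neg_add_cancel, Complex.exp_zero, mul_one, jn_xp_wp]
  rw [deg_comp_inj hA₁ contDiff_expMap hAdm ?_ (fun v _ => jac_expMap_pos v) himg]
  · rw [← deg_excise hA₂ hW₁ hW₁₂ hzeros]
    -- straighten `θ` and rotate
    have e1 : deg H W₂ = deg (fun v => jn (F.f (xp v)) (-wp v)) W₂ := by
      have key := deg_homotopy (H := fun t v => jn ((1 - t) • A.1 (xp v) + t • F.f (xp v))
        ((1 - t) • A.2 (xp v) - wp v)) (continuous_jn (by fun_prop) (by fun_prop)) hW₂ hW₂b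
        fun t ht v hv hvW h => hvW ?_
      · simpa [H] using key
      obtain ⟨hx, -⟩ := hcl₂ v hv
      obtain ⟨h1, h2⟩ := jn_eq_zero.mp h
      have hn := (hA.near _ hx)
      have hδ : 0 < F.δ := (norm_nonneg _).trans_lt hn.1
      have hc : ‖F.f (xp v)‖ < F.δ := by
        have e : (1 - t) • (A.1 (xp v) - F.f (xp v)) = -F.f (xp v) := by
          linear_combination (norm := module) h1
        rw [← norm_neg, ← e, norm_smul, Real.norm_of_nonneg (by linarith [ht.2])]
        nlinarith [hn.1, norm_nonneg (A.1 (xp v) - F.f (xp v)), ht.1]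
      refine ⟨F.inner _ hx hc, ?_⟩
      rw [sub_eq_zero] at h2
      rw [← h2, norm_smul, Real.norm_of_nonneg (by linarith [ht.2])]
      have hh := F.high _ hx hc
      have h6 := norm_sub_norm_le (A.2 (xp v)) (F.om ^ k * F.θ (xp v))
      rw [show ‖F.om ^ k * F.θ (xp v)‖ = ‖F.θ (xp v)‖ by
        rw [norm_mul, norm_zpow, F.norm_om, one_zpow, one_mul]] at h6
      nlinarith [norm_nonneg (A.2 (xp v)), ht.1, hn.2]
    have hzero₂ : ∀ t : ℝ, ∀ v ∈ closure W₂,
        jn (F.f (xp v)) (Complex.exp (t * (π * Complex.I)) * wp v) = 0 → v ∈ W₂ := fun t v hv h => by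
      obtain ⟨h1, h2⟩ := jn_eq_zero.mp h
      refine ⟨hzero _ h1, ?_⟩
      rw [(mul_eq_zero.mp h2).resolve_left (Complex.exp_ne_zero _), norm_zero]
      exact Real.exp_pos _
    have e2 : deg (fun v => jn (F.f (xp v)) (-wp v)) W₂ =
        deg (fun v => jn (F.f (xp v)) (wp v)) W₂ := by
      have key := deg_homotopy
        (H := fun (t : ℝ) v => jn (F.f (xp v)) (Complex.exp (t * (π * Complex.I)) * wp v))
        (continuous_jn (by fun_prop) (by fun_prop)) hW₂ hW₂b
        fun t _ v hv hvW h => hvW (hzero₂ t v hv h)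
      simpa [Complex.exp_pi_mul_I] using key.symm
    rw [e1, e2]
    set R' := max (max R ‖z₀‖) 0 + 1 with hR'
    obtain ⟨RU, hRU⟩ := F.hUb.subset_closedBall 0
    set R'' := max R' (RU + 1)
    let W₃ : Set (Vec (n + 2)) := {v | ‖xp v‖ < R'' ∧ ‖wp v‖ < Real.exp F.hi}
    have hW₃ : IsOpen W₃ := (isOpen_lt continuous_xp.norm continuous_const).inter
      (isOpen_lt continuous_wp.norm continuous_const)
    have hW₃b : Bornology.IsBounded W₃ :=
      (isBounded_prod (isBounded_closedBall (x := (0 : Vec n)) (r := R''))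
        (isBounded_closedBall (x := (0 : ℂ)) (r := Real.exp F.hi))).subset fun v hv =>
          ⟨mem_closedBall.mpr (by rw [dist_zero_right]; exact hv.1.le),
            mem_closedBall.mpr (by rw [dist_zero_right]; exact hv.2.le)⟩
    have hW₂₃ : W₂ ⊆ W₃ := fun v hv => ⟨by
      have := hRU hv.1
      rw [mem_closedBall, dist_zero_right] at this
      linarith [le_max_right R' (RU + 1)], hv.2⟩
    have hS : Continuous fun v : Vec (n + 2) => jn (F.f (xp v)) (wp v) :=
      continuous_jn (by fun_prop) (by fun_prop)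
    have hbig : ∀ v, ¬ ‖xp v‖ < R'' → F.f (xp v) = xp v - z₀ := fun v hv => hout _ (by
      linarith [not_lt.mp hv, le_max_left R' (RU + 1), le_max_left (max R ‖z₀‖) 0, le_max_left R ‖z₀‖])
    have hne₃ : ∀ t ∈ Icc (0:ℝ) 1, ∀ v ∈ closure W₃, v ∉ W₃ →
        jn ((1 - t) • F.f (xp v) + t • (xp v - z₀)) (wp v) ≠ 0 := by
      intro t _ v _ hvW h
      obtain ⟨h1, h2⟩ := jn_eq_zero.mp h
      refine hvW ⟨by_contra fun hlt => ?_, by rw [h2, norm_zero]; exact Real.exp_pos _⟩
      rw [hbig v hlt, ← add_smul, sub_add_cancel, one_smul, sub_eq_zero] at h1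
      rw [h1] at hlt
      linarith [not_lt.mp hlt, le_max_left R' (RU + 1), le_max_left (max R ‖z₀‖) 0,
        le_max_right R ‖z₀‖]
    have hA₃ : Adm (fun v => jn (F.f (xp v)) (wp v)) W₃ := ⟨hW₃, hW₃b, hS, fun v hv hvW => by
      simpa using hne₃ 0 ⟨le_rfl, zero_le_one⟩ v hv hvW⟩
    rw [← deg_excise hA₃ hW₂ hW₂₃ fun v _ h => ⟨hzero _ (jn_eq_zero.mp h).1, by
      rw [(jn_eq_zero.mp h).2, norm_zero]; exact Real.exp_pos _⟩]
    have e3 := deg_homotopy (H := fun t v => jn ((1 - t) • F.f (xp v) + t • (xp v - z₀)) (wp v))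
      (continuous_jn (by fun_prop) (by fun_prop)) hW₃ hW₃b hne₃
    have e4 := deg_homotopy (H := fun (t : ℝ) v => jn (xp v - (1 - t) • z₀) (wp v))
      (continuous_jn (by fun_prop) (by fun_prop)) hW₃ hW₃b fun t ht v _ hvW h => by
        obtain ⟨h1, h2⟩ := jn_eq_zero.mp h
        refine hvW ⟨?_, by rw [h2, norm_zero]; exact Real.exp_pos _⟩
        rw [sub_eq_zero.mp h1, norm_smul, Real.norm_of_nonneg (by linarith [ht.2])]
        nlinarith [norm_nonneg z₀, ht.1, le_max_left R' (RU + 1), le_max_left (max R ‖z₀‖) 0,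
          le_max_right R ‖z₀‖]
    simp only [sub_zero, one_smul, zero_smul, add_zero, sub_self, zero_add] at e3 e4
    rw [e3, e4]
    have e5 : (fun v : Vec (n + 2) => jn (xp v) (wp v)) = id := funext jn_xp_wp
    rw [e5, deg_id hW₃ ?_ hW₃b]
    have hx0 : xp (0 : Vec (n + 2)) = 0 := rfl
    have hw0 : wp (0 : Vec (n + 2)) = 0 := by apply Complex.ext <;> simp [wp]
    refine ⟨?_, by rw [hw0, norm_zero]; exact Real.exp_pos _⟩
    rw [hx0, norm_zero]
    linarith [le_max_left R' (RU + 1), le_max_right (max R ‖z₀‖) 0]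
  · rintro v ⟨-, -, -, hv1, hv2⟩ u ⟨-, -, -, hu1, hu2⟩ e
    have e1 : xp v = xp u := by simpa [expMap] using congrArg xp e
    have e2 : Complex.exp (wp v) = Complex.exp (wp u) := by simpa [expMap] using congrArg wp e
    obtain ⟨m, hm⟩ := Complex.exp_eq_exp_iff_exists_int.mp e2
    have hm' : (wp v).im = (wp u).im + m * (2 * π) := by simp [hm]
    have hπ := Real.pi_pos
    have hm0 : m = 0 := by
      have h1 : (m : ℝ) < 1 := by nlinarith
      have h2 : (-1 : ℝ) < m := by nlinarith
      have h1' : m < 1 := by exact_mod_cast h1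
      have h2' : (-1 : ℤ) < m := by exact_mod_cast h2
      omega
    rw [← jn_xp_wp v, ← jn_xp_wp u, e1, hm, hm0]
    simp

end Frame

end Vale.Agent.P228.Two
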