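import Vale.Agent.P228.Two.Coord

/-! Degrees over windows of the logarithmic coordinate: the crossing numbers `Δ` of two nearby
maps at a ray, and their formal properties. -/

open MeasureTheory Set Metric Filter Topology
open scoped BigOperators

namespace Vale.Agent.P228.Two

variable {n : ℕ}

/-- The data around one fibre: a map `f`, a circle valued map given by `θ`, a domain `U`, a
tolerance `δ`, the angle step `L`, a starting ray `a₀` and a half width `η`. -/
structure Frame (n : ℕ) where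
  f : Vec n → Vec n
  θ : Vec n → ℂ
  U : Set (Vec n)
  L : ℝ
  a₀ : ℝ
  η : ℝ
  δ : ℝ
  lo : ℝ
  hi : ℝ
  hU : IsOpen U
  hUb : Bornology.IsBounded U
  hη : 0 < η
  hLη : 2 * η < L
  inner : ∀ x ∈ closure U, ‖f x‖ < δ → x ∈ U
  low : ∀ x ∈ closure U, ‖f x‖ < δ → Real.exp lo < ‖θ x‖ - δ
  high : ∀ x ∈ closure U, ‖f x‖ < δ → ‖θ x‖ + δ < Real.exp hi

namespace Frame

variable (F : Frame n)

/-- The rotation by one step. -/
noncomputable def om : ℂ := Complex.exp (F.L * Complex.I)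

lemma norm_om : ‖F.om‖ = 1 := Complex.norm_exp_ofReal_mul_I _

/-- The rays. -/
def ray (i : ℤ) : ℝ := F.a₀ + i * F.L

lemma ray_succ (i : ℤ) : F.ray (i + 1) = F.ray i + F.L := by simp [ray]; ring

/-- `a, b` follow `(f, ω^k θ)`. -/
def NearP (k : ℤ) (x : Vec n) (a : Vec n) (b : ℂ) : Prop :=
  ‖a - F.f x‖ < F.δ ∧ ‖b - F.om ^ k * F.θ x‖ < F.δ

/-- A map following `(f, ω^k θ)` and avoiding the rays. -/
structure Good (k : ℤ) (A : (Vec n → Vec n) × (Vec n → ℂ)) : Prop where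
  c1 : Continuous A.1
  c2 : Continuous A.2
  near : ∀ x ∈ closure F.U, F.NearP k x (A.1 x) (A.2 x)
  avoid : ∀ x ∈ closure F.U, A.1 x = 0 → ∀ u : ℂ, A.2 x = Complex.exp u → ∀ i, F.η < |u.im - F.ray i|

/-- The domain over a window of angles. -/
def win (α β : ℝ) : Set (Vec (n + 2)) :=
  {v | xp v ∈ F.U ∧ F.lo < (wp v).re ∧ (wp v).re < F.hi ∧ α < (wp v).im ∧ (wp v).im < β}

lemma isOpen_win (α β : ℝ) : IsOpen (F.win α β) :=
  (F.hU.preimage continuous_xp).inter ((isOpen_lt continuous_const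
    (Complex.continuous_re.comp continuous_wp)).inter
      ((isOpen_lt (Complex.continuous_re.comp continuous_wp) continuous_const).inter
        ((isOpen_lt continuous_const (Complex.continuous_im.comp continuous_wp)).inter
          (isOpen_lt (Complex.continuous_im.comp continuous_wp) continuous_const))))

lemma isBounded_win (α β : ℝ) : Bornology.IsBounded (F.win α β) :=
  (isBounded_prod F.hUb ((isBounded_Icc F.lo F.hi).reProdIm (isBounded_Icc α β))).subset
    fun _ hv => ⟨hv.1, ⟨hv.2.1.le, hv.2.2.1.le⟩, ⟨hv.2.2.2.1.le, hv.2.2.2.2.le⟩⟩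

lemma closure_win {α β : ℝ} {v : Vec (n + 2)} (hv : v ∈ closure (F.win α β)) :
    xp v ∈ closure F.U ∧ α ≤ (wp v).im ∧ (wp v).im ≤ β := by
  refine closure_minimal (t := xp ⁻¹' closure F.U ∩ (fun v => (wp v).im) ⁻¹' Icc α β) ?_ ?_ hv
  · exact fun u hu => ⟨subset_closure hu.1, hu.2.2.2.1.le, hu.2.2.2.2.le⟩
  · exact (isClosed_closure.preimage continuous_xp).inter (isClosed_Icc.preimage (by fun_prop))

/-- The map attached to two component functions. -/
noncomputable def Q (a : Vec (n + 2) → Vec n) (b : Vec (n + 2) → ℂ) (v : Vec (n + 2)) :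
    Vec (n + 2) :=
  jn (a v) (b v - Complex.exp (wp v))

lemma continuous_Q {a : Vec (n + 2) → Vec n} {b : Vec (n + 2) → ℂ} (ha : Continuous a)
    (hb : Continuous b) : Continuous (Q a b) :=
  continuous_jn ha (hb.sub (Complex.continuous_exp.comp continuous_wp))

lemma Q_eq_zero {a : Vec (n + 2) → Vec n} {b : Vec (n + 2) → ℂ} {v : Vec (n + 2)} :
    Q a b v = 0 ↔ a v = 0 ∧ b v = Complex.exp (wp v) := by
  rw [Q, jn_eq_zero, sub_eq_zero]

variable {F}

/-- A near zero lies over `U` and inside the radial bounds. -/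
lemma zero_mem {k : ℤ} {x : Vec n} (hx : x ∈ closure F.U) {a : Vec n} {b u : ℂ}
    (h : F.NearP k x a b) (ha : a = 0) (hb : b = Complex.exp u) :
    x ∈ F.U ∧ F.lo < u.re ∧ u.re < F.hi := by
  obtain ⟨h1, h2⟩ := h
  rw [ha, zero_sub, norm_neg] at h1
  have hn : ‖F.om ^ k * F.θ x‖ = ‖F.θ x‖ := by
    rw [norm_mul, norm_zpow, F.norm_om, one_zpow, one_mul]
  have h3 : ‖b‖ = Real.exp u.re := by rw [hb, Complex.norm_exp]
  have h4 := F.low x hx h1
  have h5 := F.high x hx h1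
  have h6 := norm_sub_norm_le b (F.om ^ k * F.θ x)
  have h7 := norm_sub_norm_le (F.om ^ k * F.θ x) b
  rw [norm_sub_rev] at h7
  exact ⟨F.inner x hx h1, Real.exp_lt_exp.mp (by linarith), Real.exp_lt_exp.mp (by linarith)⟩

lemma adm_Q {k : ℤ} {a : Vec (n + 2) → Vec n} {b : Vec (n + 2) → ℂ} (ha : Continuous a)
    (hb : Continuous b) (hn : ∀ v, xp v ∈ closure F.U → F.NearP k (xp v) (a v) (b v)) {α β : ℝ}
    (he : ∀ v, xp v ∈ closure F.U → (wp v).im = α ∨ (wp v).im = β → Q a b v ≠ 0) :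
    Adm (Q a b) (F.win α β) := by
  refine ⟨F.isOpen_win α β, F.isBounded_win α β, continuous_Q ha hb, fun v hv hvW h0 => hvW ?_⟩
  obtain ⟨hx, h1, h2⟩ := F.closure_win hv
  obtain ⟨e1, e2⟩ := Q_eq_zero.mp h0
  obtain ⟨hU, hr1, hr2⟩ := zero_mem hx (hn v hx) e1 e2
  exact ⟨hU, hr1, hr2, lt_of_le_of_ne h1 fun e => he v hx (Or.inl e.symm) h0,
    lt_of_le_of_ne h2 fun e => he v hx (Or.inr e) h0⟩

/-- Homotopy invariance over a window. -/
lemma deg_win_homotopy {k : ℤ} {a : ℝ → Vec (n + 2) → Vec n} {b : ℝ → Vec (n + 2) → ℂ}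
    (ha : Continuous fun q : ℝ × Vec (n + 2) => a q.1 q.2)
    (hb : Continuous fun q : ℝ × Vec (n + 2) => b q.1 q.2) {α β : ℝ}
    (hn : ∀ t ∈ Icc (0:ℝ) 1, ∀ v, xp v ∈ closure F.U → F.NearP k (xp v) (a t v) (b t v))
    (he : ∀ t ∈ Icc (0:ℝ) 1, ∀ v, xp v ∈ closure F.U → (wp v).im = α ∨ (wp v).im = β →
      Q (a t) (b t) v ≠ 0) :
    deg (Q (a 0) (b 0)) (F.win α β) = deg (Q (a 1) (b 1)) (F.win α β) := by
  refine deg_homotopy (H := fun t => Q (a t) (b t)) ?_ (F.isOpen_win α β) (F.isBounded_win α β)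
    fun t ht => (adm_Q (ha.comp (continuous_const.prodMk continuous_id))
      (hb.comp (continuous_const.prodMk continuous_id)) (hn t ht) (he t ht)).ne
  exact continuous_jn ha (hb.sub (Complex.continuous_exp.comp (continuous_wp.comp continuous_snd)))

/-- The interpolation of two maps by a function of the angle. -/
noncomputable def mix (σ : ℝ → ℝ) (A A' : (Vec n → Vec n) × (Vec n → ℂ)) :
    Vec (n + 2) → Vec (n + 2) :=
  Q (fun v => (1 - σ (wp v).im) • A.1 (xp v) + σ (wp v).im • A'.1 (xp v))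
    (fun v => (1 - σ (wp v).im) • A.2 (xp v) + σ (wp v).im • A'.2 (xp v))

lemma nearP_comb {k : ℤ} {x : Vec n} {a a' : Vec n} {b b' : ℂ} (h : F.NearP k x a b)
    (h' : F.NearP k x a' b') {s : ℝ} (hs : s ∈ Icc (0:ℝ) 1) :
    F.NearP k x ((1 - s) • a + s • a') ((1 - s) • b + s • b') := by
  have h1 := convex_ball (F.f x) F.δ (mem_ball_iff_norm.mpr h.1) (mem_ball_iff_norm.mpr h'.1)
    (sub_nonneg.mpr hs.2) hs.1 (by ring)
  have h2 := convex_ball (F.om ^ k * F.θ x) F.δ (mem_ball_iff_norm.mpr h.2)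
    (mem_ball_iff_norm.mpr h'.2) (sub_nonneg.mpr hs.2) hs.1 (by ring)
  exact ⟨mem_ball_iff_norm.mp h1, mem_ball_iff_norm.mp h2⟩

variable {k : ℤ} {A A' A'' : (Vec n → Vec n) × (Vec n → ℂ)} {σ : ℝ → ℝ}

lemma mix_near (hA : F.Good k A) (hA' : F.Good k A') (h01 : ∀ t, σ t ∈ Icc (0:ℝ) 1)
    {v : Vec (n + 2)} (hv : xp v ∈ closure F.U) :
    F.NearP k (xp v) ((1 - σ (wp v).im) • A.1 (xp v) + σ (wp v).im • A'.1 (xp v))
      ((1 - σ (wp v).im) • A.2 (xp v) + σ (wp v).im • A'.2 (xp v)) :=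
  nearP_comb (hA.near _ hv) (hA'.near _ hv) (h01 _)

lemma Good.pure_ne (hA : F.Good k A) {v : Vec (n + 2)} (hv : xp v ∈ closure F.U) {a : Vec n}
    {b : ℂ} (ha : a = A.1 (xp v)) (hb : b = A.2 (xp v)) {i : ℤ}
    (hi : |(wp v).im - F.ray i| ≤ F.η) : ¬ (a = 0 ∧ b = Complex.exp (wp v)) := by
  rintro ⟨h1, h2⟩
  exact absurd (hA.avoid _ hv (ha ▸ h1) _ (hb ▸ h2) i) (not_lt.mpr hi)

lemma mix_ne (hA : F.Good k A) (hA' : F.Good k A') {v : Vec (n + 2)} (hv : xp v ∈ closure F.U)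
    (hσ : σ (wp v).im = 0 ∨ σ (wp v).im = 1) {i : ℤ} (hi : |(wp v).im - F.ray i| ≤ F.η) :
    mix σ A A' v ≠ 0 := by
  intro h
  obtain ⟨h1, h2⟩ := Q_eq_zero.mp h
  rcases hσ with e | e <;> simp only [e, sub_zero, one_smul, zero_smul, sub_self, add_zero, zero_add]
    at h1 h2
  · exact hA.pure_ne hv rfl rfl hi ⟨h1, h2⟩
  · exact hA'.pure_ne hv rfl rfl hi ⟨h1, h2⟩

lemma adm_mix (hA : F.Good k A) (hA' : F.Good k A') (hσ : Continuous σ)
    (h01 : ∀ t, σ t ∈ Icc (0:ℝ) 1) {α β : ℝ} {i j : ℤ} (hα : |α - F.ray i| ≤ F.η)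
    (hβ : |β - F.ray j| ≤ F.η) (h0 : σ α = 0 ∨ σ α = 1) (h1 : σ β = 0 ∨ σ β = 1) :
    Adm (mix σ A A') (F.win α β) := by
  have := hA.c1; have := hA.c2; have := hA'.c1; have := hA'.c2
  refine adm_Q (by fun_prop) (by fun_prop) (fun v hv => mix_near hA hA' h01 hv)
    fun v hv he => ?_
  rcases he with e | e
  · exact mix_ne hA hA' hv (e ▸ h0) (i := i) (by rw [e]; exact hα)
  · exact mix_ne hA hA' hv (e ▸ h1) (i := j) (by rw [e]; exact hβ)

/-- The linear ramp from `α` to `β`. -/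
noncomputable def ramp (α β t : ℝ) : ℝ := max 0 (min 1 ((t - α) / (β - α)))

lemma ramp_mem (α β t : ℝ) : ramp α β t ∈ Icc (0:ℝ) 1 :=
  ⟨le_max_left _ _, max_le zero_le_one (min_le_left _ _)⟩

@[fun_prop] lemma continuous_ramp (α β : ℝ) : Continuous (ramp α β) := by unfold ramp; fun_prop

lemma ramp_of_le {α β t : ℝ} (h : α < β) (ht : t ≤ α) : ramp α β t = 0 :=
  max_eq_left ((min_le_right _ _).trans (div_nonpos_of_nonpos_of_nonneg (by linarith) (by linarith)))

lemma ramp_of_ge {α β t : ℝ} (h : α < β) (ht : β ≤ t) : ramp α β t = 1 := by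
  have : 1 ≤ (t - α) / (β - α) := by rw [le_div_iff₀ (by linarith)]; linarith
  rw [ramp, min_eq_left this, max_eq_right zero_le_one]

/-- The crossing number at the `i`-th ray. -/
noncomputable def Δ (F : Frame n) (i : ℤ) (A A' : (Vec n → Vec n) × (Vec n → ℂ)) : ℤ :=
  deg (mix (ramp (F.ray i - F.η) (F.ray i + F.η)) A A') (F.win (F.ray i - F.η) (F.ray i + F.η))

lemma abs_edge (F : Frame n) (i : ℤ) :
    |F.ray i - F.η - F.ray i| ≤ F.η ∧ |F.ray i + F.η - F.ray i| ≤ F.η := by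
  constructor <;> rw [abs_le] <;> constructor <;> linarith [F.hη]

/-- The crossing number does not depend on the ramp. -/
lemma Δ_eq (hA : F.Good k A) (hA' : F.Good k A') {i : ℤ} (hσ : Continuous σ)
    (h01 : ∀ t, σ t ∈ Icc (0:ℝ) 1) (h0 : σ (F.ray i - F.η) = 0) (h1 : σ (F.ray i + F.η) = 1) :
    F.Δ i A A' = deg (mix σ A A') (F.win (F.ray i - F.η) (F.ray i + F.η)) := by
  set ρ := ramp (F.ray i - F.η) (F.ray i + F.η)
  have := hA.c1; have := hA.c2; have := hA'.c1; have := hA'.c2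
  have hmid : ∀ s ∈ Icc (0:ℝ) 1, ∀ t, (1 - s) * ρ t + s * σ t ∈ Icc (0:ℝ) 1 := fun s hs t => by
    have a := ramp_mem (F.ray i - F.η) (F.ray i + F.η) t
    have b := h01 t
    constructor <;> nlinarith [a.1, a.2, b.1, b.2, hs.1, hs.2]
  have key := deg_homotopy (H := fun s => mix (fun t => (1 - s) * ρ t + s * σ t) A A')
    (W := F.win (F.ray i - F.η) (F.ray i + F.η)) ?_ (F.isOpen_win _ _) (F.isBounded_win _ _)
    fun s hs => (adm_mix hA hA' (by fun_prop) (hmid s hs) (F.abs_edge i).1 (F.abs_edge i).2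
      (Or.inl ?_) (Or.inr ?_)).ne
  · simpa [Frame.Δ] using key
  · simp only [mix, Frame.Q]
    refine continuous_jn (by fun_prop) (Continuous.sub (by fun_prop) (by fun_prop))
  · rw [h0, show ρ (F.ray i - F.η) = 0 from ramp_of_le (by linarith [F.hη]) le_rfl]; simp
  · rw [h1, show ρ (F.ray i + F.η) = 1 from ramp_of_ge (by linarith [F.hη]) le_rfl]; simp

lemma Δ_self (hA : F.Good k A) (i : ℤ) : F.Δ i A A = 0 := by
  refine deg_zero (adm_mix hA hA (continuous_ramp _ _) (ramp_mem _ _) (F.abs_edge i).1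
    (F.abs_edge i).2 (Or.inl (ramp_of_le (by linarith [F.hη]) le_rfl))
    (Or.inr (ramp_of_ge (by linarith [F.hη]) le_rfl))) fun v hv h => ?_
  obtain ⟨hx, h1, h2⟩ := F.closure_win hv
  obtain ⟨e1, e2⟩ := Q_eq_zero.mp h
  simp only [← add_smul, sub_add_cancel, one_smul] at e1 e2
  exact hA.pure_ne hx rfl rfl (i := i) (by rw [abs_le]; constructor <;> linarith) ⟨e1, e2⟩

/-- Concatenation. -/
lemma Δ_trans (hA : F.Good k A) (hA' : F.Good k A') (hA'' : F.Good k A'') (i : ℤ) :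
    F.Δ i A A'' = F.Δ i A A' + F.Δ i A' A'' := by
  have := hA.c1; have := hA.c2; have := hA'.c1; have := hA'.c2
  have := hA''.c1; have := hA''.c2
  set α := F.ray i - F.η with hα
  set a := F.ray i with ha
  set β := F.ray i + F.η with hβ
  have hη := F.hη
  set s₁ := ramp α a with hs₁
  set s₂ := ramp a β with hs₂
  have hs₁' : Continuous s₁ := continuous_ramp _ _
  have hs₂' : Continuous s₂ := continuous_ramp _ _
  let ρ := ramp α β
  let T₁ : Vec (n + 2) → Vec n := fun v =>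
    (1 - s₂ (wp v).im) • ((1 - s₁ (wp v).im) • A.1 (xp v) + s₁ (wp v).im • A'.1 (xp v))
      + s₂ (wp v).im • A''.1 (xp v)
  let T₂ : Vec (n + 2) → ℂ := fun v =>
    (1 - s₂ (wp v).im) • ((1 - s₁ (wp v).im) • A.2 (xp v) + s₁ (wp v).im • A'.2 (xp v))
      + s₂ (wp v).im • A''.2 (xp v)
  have hT : ∀ v, xp v ∈ closure F.U → F.NearP k (xp v) (T₁ v) (T₂ v) := fun v hv =>
    nearP_comb (nearP_comb (hA.near _ hv) (hA'.near _ hv) (ramp_mem _ _ _)) (hA''.near _ hv)
      (ramp_mem _ _ _)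
  have hR : ∀ v, xp v ∈ closure F.U → F.NearP k (xp v)
      ((1 - ρ (wp v).im) • A.1 (xp v) + ρ (wp v).im • A''.1 (xp v))
      ((1 - ρ (wp v).im) • A.2 (xp v) + ρ (wp v).im • A''.2 (xp v)) := fun v hv =>
    mix_near hA hA'' (ramp_mem _ _) hv
  have hmix : F.Δ i A A'' = deg (Q T₁ T₂) (F.win α β) := by
    have key := deg_win_homotopy (F := F) (k := k)
      (a := fun t v => (1 - t) • ((1 - ρ (wp v).im) • A.1 (xp v) + ρ (wp v).im • A''.1 (xp v))
        + t • T₁ v)
      (b := fun t v => (1 - t) • ((1 - ρ (wp v).im) • A.2 (xp v) + ρ (wp v).im • A''.2 (xp v))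
        + t • T₂ v) (α := α) (β := β) (by simp only [T₁, ρ, hs₁, hs₂]; fun_prop)
      (by simp only [T₂, ρ, hs₁, hs₂]; fun_prop)
      (fun t ht v hv => nearP_comb (hR v hv) (hT v hv) ht) fun t ht v hv he h => by
        obtain ⟨e1, e2⟩ := Q_eq_zero.mp h
        rcases he with e | e
        · have i1 : ρ (wp v).im = 0 := ramp_of_le (by linarith) e.le
          have i2 : s₁ (wp v).im = 0 := ramp_of_le (by linarith) e.le
          have i3 : s₂ (wp v).im = 0 := ramp_of_le (by linarith) (by linarith)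
          simp only [T₁, T₂, i1, i2, i3, sub_zero, one_smul, zero_smul, add_zero,
            ← add_smul, sub_add_cancel] at e1 e2
          exact hA.pure_ne hv rfl rfl (i := i) (by rw [e]; exact (F.abs_edge i).1) ⟨e1, e2⟩
        · have i1 : ρ (wp v).im = 1 := ramp_of_ge (by linarith) e.ge
          have i3 : s₂ (wp v).im = 1 := ramp_of_ge (by linarith) e.ge
          simp only [T₁, T₂, i1, i3, sub_self, one_smul, zero_smul, zero_add,
            ← add_smul, sub_add_cancel] at e1 e2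
          exact hA''.pure_ne hv rfl rfl (i := i) (by rw [e]; exact (F.abs_edge i).2) ⟨e1, e2⟩
    simpa [Frame.Δ, mix, Frame.Q, ρ] using key
  have hAdm : Adm (Q T₁ T₂) (F.win α β) := by
    refine adm_Q (by simp only [T₁, hs₁, hs₂]; fun_prop) (by simp only [T₂, hs₁, hs₂]; fun_prop) hT
      fun v hv he h => ?_
    obtain ⟨e1, e2⟩ := Q_eq_zero.mp h
    rcases he with e | e
    · have i2 : s₁ (wp v).im = 0 := ramp_of_le (by linarith) e.le
      have i3 : s₂ (wp v).im = 0 := ramp_of_le (by linarith) (by linarith)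
      simp only [T₁, T₂, i2, i3, sub_zero, one_smul, zero_smul, add_zero] at e1 e2
      exact hA.pure_ne hv rfl rfl (i := i) (by rw [e]; exact (F.abs_edge i).1) ⟨e1, e2⟩
    · have i3 : s₂ (wp v).im = 1 := ramp_of_ge (by linarith) e.ge
      simp only [T₁, T₂, i3, sub_self, one_smul, zero_smul, zero_add] at e1 e2
      exact hA''.pure_ne hv rfl rfl (i := i) (by rw [e]; exact (F.abs_edge i).2) ⟨e1, e2⟩
  have hzero : ∀ v ∈ closure (F.win α β), Q T₁ T₂ v = 0 → (wp v).im ≠ a := by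
    intro v hv h e
    obtain ⟨e1, e2⟩ := Q_eq_zero.mp h
    have i2 : s₁ (wp v).im = 1 := ramp_of_ge (by linarith) e.ge
    have i3 : s₂ (wp v).im = 0 := ramp_of_le (by linarith) e.le
    simp only [T₁, T₂, i2, i3, sub_zero, sub_self, one_smul, zero_smul, add_zero, zero_add] at e1 e2
    exact hA'.pure_ne (F.closure_win hv).1 rfl rfl (i := i) (by rw [e, sub_self, abs_zero]; exact hη.le)
      ⟨e1, e2⟩
  have hsub : ∀ {u w : ℝ}, α ≤ u → w ≤ β → F.win u w ⊆ F.win α β := fun hu hw v hv =>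
    ⟨hv.1, hv.2.1, hv.2.2.1, hu.trans_lt hv.2.2.2.1, hv.2.2.2.2.trans_le hw⟩
  have hsplit : deg (Q T₁ T₂) (F.win α β) =
      deg (Q T₁ T₂) (F.win α a) + deg (Q T₁ T₂) (F.win a β) := by
    refine deg_add hAdm (F.isOpen_win _ _) (F.isOpen_win _ _) (hsub le_rfl (by linarith))
      (hsub (by linarith) le_rfl)
      (disjoint_left.mpr fun v h h' => by linarith [h.2.2.2.2, h'.2.2.2.1]) fun v hv h => ?_
    obtain ⟨hU, hr1, hr2, hi1, hi2⟩ : v ∈ F.win α β := by_contra fun hvW => hAdm.ne v hv hvW h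
    rcases lt_or_gt_of_ne (hzero v hv h) with h' | h'
    · exact Or.inl ⟨hU, hr1, hr2, hi1, h'⟩
    · exact Or.inr ⟨hU, hr1, hr2, h', hi2⟩
  -- each half is a crossing number
  have hleft : deg (Q T₁ T₂) (F.win α a) = F.Δ i A A' := by
    rw [Δ_eq hA hA' hs₁' (ramp_mem _ _) (ramp_of_le (by linarith) le_rfl)
      (ramp_of_ge (by linarith) (by linarith))]
    have hB := adm_mix hA hA' hs₁' (ramp_mem _ _) (α := α) (β := β) (F.abs_edge i).1
      (F.abs_edge i).2 (Or.inl (ramp_of_le (by linarith) le_rfl))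
      (Or.inr (ramp_of_ge (by linarith) (by linarith)))
    rw [deg_excise hB (F.isOpen_win α a) (hsub le_rfl (by linarith)) fun v hv h => ?_]
    · refine deg_congr (continuous_Q (by simp only [T₁, hs₁, hs₂]; fun_prop)
        (by simp only [T₂, hs₁, hs₂]; fun_prop)) hB.cont (F.isOpen_win _ _) (F.isBounded_win _ _)
        (fun v hv => ?_) fun v hv hvW h => ?_
      · have i3 : s₂ (wp v).im = 0 :=
          ramp_of_le (by linarith) (by linarith [(F.closure_win hv).2.2])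
        simp [mix, Frame.Q, T₁, T₂, i3]
      · have hvβ : v ∈ F.win α β := by_contra fun hW' =>
          hAdm.ne v (closure_mono (hsub le_rfl (by linarith)) hv) hW' h
        obtain ⟨hU, hr1, hr2, hi1, -⟩ := hvβ
        exact hvW ⟨hU, hr1, hr2, hi1, lt_of_le_of_ne (F.closure_win hv).2.2
          (hzero v (closure_mono (hsub le_rfl (by linarith)) hv) h)⟩
    · obtain ⟨hx, -, -⟩ := F.closure_win hv
      obtain ⟨hU, hr1, hr2, hi1, hi2⟩ : v ∈ F.win α β := by_contra fun hvW => hB.ne v hv hvW h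
      refine ⟨hU, hr1, hr2, hi1, lt_of_not_ge fun hge => ?_⟩
      exact mix_ne hA hA' hx (Or.inr (ramp_of_ge (by linarith) hge)) (i := i)
        (by rw [abs_le]; constructor <;> linarith) h
  have hright : deg (Q T₁ T₂) (F.win a β) = F.Δ i A' A'' := by
    rw [Δ_eq hA' hA'' hs₂' (ramp_mem _ _) (ramp_of_le (by linarith) (by linarith))
      (ramp_of_ge (by linarith) le_rfl)]
    have hB := adm_mix hA' hA'' hs₂' (ramp_mem _ _) (α := α) (β := β) (F.abs_edge i).1
      (F.abs_edge i).2 (Or.inl (ramp_of_le (by linarith) (by linarith)))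
      (Or.inr (ramp_of_ge (by linarith) le_rfl))
    rw [deg_excise hB (F.isOpen_win a β) (hsub (by linarith) le_rfl) fun v hv h => ?_]
    · refine deg_congr (continuous_Q (by simp only [T₁, hs₁, hs₂]; fun_prop)
        (by simp only [T₂, hs₁, hs₂]; fun_prop)) hB.cont (F.isOpen_win _ _) (F.isBounded_win _ _)
        (fun v hv => ?_) fun v hv hvW h => ?_
      · have i2 : s₁ (wp v).im = 1 :=
          ramp_of_ge (by linarith) (by linarith [(F.closure_win hv).2.1])
        simp [mix, Frame.Q, T₁, T₂, i2]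
      · have hvβ : v ∈ F.win α β := by_contra fun hW' =>
          hAdm.ne v (closure_mono (hsub (by linarith) le_rfl) hv) hW' h
        obtain ⟨hU, hr1, hr2, -, hi2⟩ := hvβ
        exact hvW ⟨hU, hr1, hr2, lt_of_le_of_ne (F.closure_win hv).2.1
          (Ne.symm (hzero v (closure_mono (hsub (by linarith) le_rfl) hv) h)), hi2⟩
    · obtain ⟨hx, -, -⟩ := F.closure_win hv
      obtain ⟨hU, hr1, hr2, hi1, hi2⟩ : v ∈ F.win α β := by_contra fun hvW => hB.ne v hv hvW h
      refine ⟨hU, hr1, hr2, lt_of_not_ge fun hge => ?_, hi2⟩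
      exact mix_ne hA' hA'' hx (Or.inl (ramp_of_le (by linarith) hge)) (i := i)
        (by rw [abs_le]; constructor <;> linarith) h
  rw [hmix, hsplit, hleft, hright]

lemma Δ_swap (hA : F.Good k A) (hA' : F.Good k A') (i : ℤ) : F.Δ i A' A = -F.Δ i A A' := by
  have := Δ_trans hA hA' hA i
  rw [Δ_self hA] at this
  linarith

end Frame

end Vale.Agent.P228.Two
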